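import Vale.Agent.Lib.P066.Core

namespace Vale.Agent.Lib.P066.D4

def g0_0 : Gen := [(0,[([0,0,0,0,0],1)])]

def lv0 : List Gen := [g0_0]

def g1_0 : Gen := [(1,[([0,1,0,0,0],1)]),(2,[([0,0,1,0,0],1)]),(3,[([0,0,0,1,0],1)]),(4,[([0,0,0,0,1],1)])]

def g1_1 : Gen := [(1,[([0,1,0,0,1],1),([0,1,0,1,0],1),([0,1,1,0,0],1)]),(2,[([0,0,1,0,1],1),([0,0,1,1,0],1),([1,1,1,0,0],1)]),(3,[([0,0,0,1,1],1),([1,0,1,1,0],1),([1,1,0,1,0],1)]),(4,[([1,0,0,1,1],1),([1,0,1,0,1],1),([1,1,0,0,1],1)])]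

def g1_2 : Gen := [(1,[([0,1,0,1,1],1),([0,1,1,0,1],1),([0,1,1,1,0],1)]),(2,[([0,0,1,1,1],1),([1,1,1,0,1],1),([1,1,1,1,0],1)]),(3,[([1,0,1,1,1],1),([1,1,0,1,1],1),([2,1,1,1,0],1)]),(4,[([2,0,1,1,1],1),([2,1,0,1,1],1),([2,1,1,0,1],1)])]

def g1_3 : Gen := [(1,[([0,1,1,1,1],1)]),(2,[([1,1,1,1,1],1)]),(3,[([2,1,1,1,1],1)]),(4,[([3,1,1,1,1],1)])]

def lv1 : List Gen := [g1_0,g1_1,g1_2,g1_3]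

def g2_0 : Gen := [(10,[([1,1,1,0,0],1)]),(11,[([1,1,0,1,0],1)]),(12,[([1,1,0,0,1],1)]),(17,[([0,1,1,0,0],1)]),(19,[([1,0,1,1,0],1)]),(20,[([1,0,1,0,1],1)]),(25,[([0,1,0,1,0],1)]),(26,[([0,0,1,1,0],1)]),(28,[([1,0,0,1,1],1)]),(33,[([0,1,0,0,1],1)]),(34,[([0,0,1,0,1],1)]),(35,[([0,0,0,1,1],1)])]

def g2_1 : Gen := [(10,[([1,1,1,0,1],1),([1,1,1,1,0],1)]),(11,[([1,1,0,1,1],1),([2,1,1,1,0],1)]),(12,[([2,1,0,1,1],1),([2,1,1,0,1],1)]),(17,[([0,1,1,0,1],1),([0,1,1,1,0],1)]),(19,[([1,0,1,1,1],1),([3,1,1,1,0],1)]),(20,[([2,0,1,1,1],1),([3,1,1,0,1],1)]),(25,[([0,1,0,1,1],1),([1,1,1,1,0],1)]),(26,[([0,0,1,1,1],1),([2,1,1,1,0],1)]),(28,[([3,0,1,1,1],1),([3,1,0,1,1],1)]),(33,[([1,1,0,1,1],1),([1,1,1,0,1],1)]),(34,[([1,0,1,1,1],1),([2,1,1,0,1],1)]),(35,[([2,0,1,1,1],1),([2,1,0,1,1],1)])]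

def g2_2 : Gen := [(10,[([1,1,1,0,1],1),([1,1,1,1,0],1),([1,1,2,0,0],1)]),(11,[([1,1,0,1,1],1),([1,1,0,2,0],1),([1,1,1,1,0],1)]),(12,[([1,1,0,0,2],1),([1,1,0,1,1],1),([1,1,1,0,1],1)]),(17,[([0,1,1,0,1],1),([0,1,1,1,0],1),([1,2,1,0,0],1)]),(19,[([1,0,1,1,1],1),([1,0,1,2,0],1),([2,1,1,1,0],1)]),(20,[([1,0,1,0,2],1),([1,0,1,1,1],1),([2,1,1,0,1],1)]),(25,[([0,1,0,1,1],1),([1,1,1,1,0],1),([1,2,0,1,0],1)]),(26,[([0,0,1,1,1],1),([1,0,2,1,0],1),([1,1,1,1,0],1)]),(28,[([1,0,0,1,2],1),([2,0,1,1,1],1),([2,1,0,1,1],1)]),(33,[([1,1,0,1,1],1),([1,1,1,0,1],1),([1,2,0,0,1],1)]),(34,[([1,0,1,1,1],1),([1,0,2,0,1],1),([1,1,1,0,1],1)]),(35,[([1,0,0,2,1],1),([1,0,1,1,1],1),([1,1,0,1,1],1)])]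

def g2_3 : Gen := [(10,[([1,1,1,1,1],1)]),(11,[([2,1,1,1,1],1)]),(12,[([3,1,1,1,1],1)]),(17,[([0,1,1,1,1],1)]),(19,[([3,1,1,1,1],1)]),(20,[([4,1,1,1,1],1)]),(25,[([1,1,1,1,1],1)]),(26,[([2,1,1,1,1],1)]),(28,[([5,1,1,1,1],1)]),(33,[([2,1,1,1,1],1)]),(34,[([3,1,1,1,1],1)]),(35,[([4,1,1,1,1],1)])]

def g2_4 : Gen := [(10,[([1,1,1,1,1],1),([2,1,1,1,1],1),([2,1,2,0,1],1),([2,1,2,1,0],1)]),(11,[([2,1,0,2,1],1),([2,1,1,1,1],2),([2,1,1,2,0],1)]),(12,[([2,1,0,1,2],1),([2,1,1,0,2],1),([2,1,1,1,1],1),([3,1,1,1,1],1)]),(17,[([0,1,1,1,1],1),([1,1,1,1,1],1),([2,2,1,0,1],1),([2,2,1,1,0],1)]),(19,[([2,0,1,2,1],1),([3,1,1,1,1],2),([3,1,1,2,0],1)]),(20,[([2,0,1,1,2],1),([3,1,1,0,2],1),([3,1,1,1,1],1),([4,1,1,1,1],1)]),(25,[([1,1,1,1,1],1),([2,1,1,1,1],1),([2,2,0,1,1],1),([3,2,1,1,0],1)]),(26,[([2,0,2,1,1],1),([2,1,1,1,1],2),([3,1,2,1,0],1)]),(28,[([3,0,1,1,2],1),([3,1,0,1,2],1),([4,1,1,1,1],1),([5,1,1,1,1],1)]),(33,[([2,1,1,1,1],1),([3,1,1,1,1],1),([3,2,0,1,1],1),([3,2,1,0,1],1)]),(34,[([3,0,2,1,1],1),([3,1,1,1,1],2),([3,1,2,0,1],1)]),(35,[([3,0,1,2,1],1),([3,1,0,2,1],1),([3,1,1,1,1],1),([4,1,1,1,1],1)])]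

def g2_5 : Gen := [(10,[([1,1,1,1,1],1),([1,1,2,0,1],1),([1,1,2,1,0],1)]),(11,[([1,1,0,2,1],1),([1,1,1,1,1],1),([1,1,1,2,0],1)]),(12,[([1,1,0,1,2],1),([1,1,1,0,2],1),([1,1,1,1,1],1)]),(17,[([0,1,1,1,1],1),([1,2,1,0,1],1),([1,2,1,1,0],1)]),(19,[([1,0,1,2,1],1),([2,1,1,1,1],1),([2,1,1,2,0],1)]),(20,[([1,0,1,1,2],1),([2,1,1,0,2],1),([2,1,1,1,1],1)]),(25,[([1,1,1,1,1],1),([1,2,0,1,1],1),([2,2,1,1,0],1)]),(26,[([1,0,2,1,1],1),([1,1,1,1,1],1),([2,1,2,1,0],1)]),(28,[([2,0,1,1,2],1),([2,1,0,1,2],1),([3,1,1,1,1],1)]),(33,[([2,1,1,1,1],1),([2,2,0,1,1],1),([2,2,1,0,1],1)]),(34,[([2,0,2,1,1],1),([2,1,1,1,1],1),([2,1,2,0,1],1)]),(35,[([2,0,1,2,1],1),([2,1,0,2,1],1),([2,1,1,1,1],1)])]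

def g2_6 : Gen := [(10,[([1,1,1,1,1],1),([2,1,1,1,1],1),([2,1,2,0,1],1),([2,1,2,1,0],1),([2,2,1,0,1],1),([2,2,1,1,0],1)]),(11,[([2,1,0,2,1],1),([2,1,1,1,1],2),([2,1,1,2,0],1),([2,2,0,1,1],1),([3,2,1,1,0],1)]),(12,[([2,1,0,1,2],1),([2,1,1,0,2],1),([2,1,1,1,1],1),([3,1,1,1,1],1),([3,2,0,1,1],1),([3,2,1,0,1],1)]),(17,[([0,1,1,1,1],1),([1,1,1,1,1],1),([1,1,2,0,1],1),([1,1,2,1,0],1),([1,2,1,0,1],1),([1,2,1,1,0],1)]),(19,[([2,0,1,2,1],1),([2,0,2,1,1],1),([2,1,1,1,1],1),([3,1,1,1,1],1),([3,1,1,2,0],1),([3,1,2,1,0],1)]),(20,[([2,0,1,1,2],1),([3,0,2,1,1],1),([3,1,1,0,2],1),([3,1,1,1,1],2),([3,1,2,0,1],1)]),(25,[([1,1,0,2,1],1),([1,1,1,1,1],2),([1,1,1,2,0],1),([1,2,0,1,1],1),([2,2,1,1,0],1)]),(26,[([1,0,1,2,1],1),([1,0,2,1,1],1),([1,1,1,1,1],1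),([2,1,1,1,1],1),([2,1,1,2,0],1),([2,1,2,1,0],1)]),(28,[([3,0,1,1,2],1),([3,0,1,2,1],1),([3,1,0,1,2],1),([3,1,0,2,1],1),([3,1,1,1,1],1),([4,1,1,1,1],1)]),(33,[([1,1,0,1,2],1),([1,1,1,0,2],1),([1,1,1,1,1],1),([2,1,1,1,1],1),([2,2,0,1,1],1),([2,2,1,0,1],1)]),(34,[([1,0,1,1,2],1),([2,0,2,1,1],1),([2,1,1,0,2],1),([2,1,1,1,1],2),([2,1,2,0,1],1)]),(35,[([2,0,1,1,2],1),([2,0,1,2,1],1),([2,1,0,1,2],1),([2,1,0,2,1],1),([2,1,1,1,1],1),([3,1,1,1,1],1)])]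

def g2_7 : Gen := [(10,[([0,1,2,1,1],1)]),(11,[([0,1,1,2,1],1)]),(12,[([0,1,1,1,2],1)]),(17,[([0,2,1,1,1],1)]),(19,[([1,1,1,2,1],1)]),(20,[([1,1,1,1,2],1)]),(25,[([1,2,1,1,1],1)]),(26,[([1,1,2,1,1],1)]),(28,[([2,1,1,1,2],1)]),(33,[([2,2,1,1,1],1)]),(34,[([2,1,2,1,1],1)]),(35,[([2,1,1,2,1],1)])]

def g2_8 : Gen := [(10,[([1,1,2,1,1],1),([1,2,1,1,1],1)]),(11,[([1,1,1,2,1],1),([2,2,1,1,1],1)]),(12,[([1,1,1,1,2],1),([3,2,1,1,1],1)]),(17,[([0,1,2,1,1],1),([0,2,1,1,1],1)]),(19,[([2,1,1,2,1],1),([2,1,2,1,1],1)]),(20,[([2,1,1,1,2],1),([3,1,2,1,1],1)]),(25,[([0,1,1,2,1],1),([1,2,1,1,1],1)]),(26,[([1,1,1,2,1],1),([1,1,2,1,1],1)]),(28,[([3,1,1,1,2],1),([3,1,1,2,1],1)]),(33,[([0,1,1,1,2],1),([2,2,1,1,1],1)]),(34,[([1,1,1,1,2],1),([2,1,2,1,1],1)]),(35,[([2,1,1,1,2],1),([2,1,1,2,1],1)])]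

def g2_9 : Gen := [(10,[([1,1,1,1,2],1),([1,1,1,2,1],1),([1,1,2,0,2],1),([1,1,2,1,1],3),([1,1,2,2,0],1),([1,2,1,1,1],1),([2,1,2,1,1],1),([2,2,1,1,1],1),([2,2,2,0,1],1),([2,2,2,1,0],1)]),(11,[([1,1,0,2,2],1),([1,1,1,1,2],1),([1,1,1,2,1],2),([2,1,1,2,1],2),([2,1,2,1,1],1),([2,1,2,2,0],1),([2,2,0,2,1],1),([2,2,1,1,1],2),([2,2,1,2,0],1)]),(12,[([1,1,1,1,2],1),([2,1,0,2,2],1),([2,1,1,1,2],3),([2,1,1,2,1],1),([2,1,2,0,2],1),([2,1,2,1,1],1),([2,2,0,1,2],1),([2,2,1,0,2],1),([2,2,1,1,1],1),([3,2,1,1,1],1)]),(17,[([0,1,1,1,2],1),([0,1,1,2,1],1),([0,1,2,1,1],1),([0,2,1,1,1],1),([1,1,2,1,1],1),([1,2,1,0,2],1),([1,2,1,1,1],3),([1,2,1,2,0],1),([1,2,2,0,1],1),([1,2,2,1,0],1)]),(19,[([1,0,1,2,2],1),([2,0,2,2,1],1),([2,1,1,1,2],1),([2,1,1,2,1],3),([2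,1,2,1,1],1),([3,1,1,2,1],1),([3,1,2,1,1],1),([3,1,2,2,0],1),([3,2,1,1,1],1),([3,2,1,2,0],1)]),(20,[([2,0,1,2,2],1),([2,0,2,1,2],1),([2,1,1,1,2],2),([3,1,1,1,2],2),([3,1,1,2,1],1),([3,1,2,0,2],1),([3,1,2,1,1],2),([3,2,1,0,2],1),([3,2,1,1,1],1)]),(25,[([1,1,1,1,2],1),([1,1,1,2,1],2),([1,1,2,1,1],1),([1,2,0,1,2],1),([1,2,0,2,1],1),([1,2,1,1,1],2),([2,2,1,1,1],2),([2,2,1,2,0],1),([2,2,2,1,0],1)]),(26,[([1,0,2,1,2],1),([1,0,2,2,1],1),([1,1,1,1,2],1),([1,1,1,2,1],1),([1,1,2,1,1],1),([2,1,1,2,1],1),([2,1,2,1,1],3),([2,1,2,2,0],1),([2,2,1,1,1],1),([3,2,2,1,0],1)]),(28,[([3,0,1,2,2],1),([3,0,2,1,2],1),([3,1,0,2,2],1),([3,1,1,1,2],3),([3,1,1,2,1],1),([3,2,0,1,2],1),([4,1,1,1,2],1),([4,1,1,2,1],1),([4,1,2,1,1],1),([4,2,1,1,1],1)]),(33,[([1,1,1,1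,2],1),([2,1,1,1,2],1),([2,1,1,2,1],1),([2,1,2,1,1],1),([2,2,0,1,2],1),([2,2,0,2,1],1),([2,2,1,0,2],1),([2,2,1,1,1],3),([2,2,2,0,1],1),([3,2,1,1,1],1)]),(34,[([2,0,2,1,2],1),([2,0,2,2,1],1),([2,1,1,1,2],2),([2,1,1,2,1],1),([2,1,2,0,2],1),([2,1,2,1,1],2),([3,1,2,1,1],2),([3,2,1,1,1],1),([3,2,2,0,1],1)]),(35,[([2,0,1,2,2],1),([2,1,0,2,2],1),([2,1,1,1,2],1),([2,1,1,2,1],1),([3,0,2,2,1],1),([3,1,1,1,2],1),([3,1,1,2,1],3),([3,1,2,1,1],1),([3,2,0,2,1],1),([3,2,1,1,1],1)])]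

def g2_10 : Gen := [(10,[([0,1,2,1,2],1),([0,1,2,2,1],1),([1,2,2,1,1],1),([2,2,2,1,1],1)]),(11,[([0,1,1,2,2],1),([1,1,2,2,1],1),([1,2,1,2,1],1),([2,2,1,2,1],1)]),(12,[([1,1,1,2,2],1),([1,1,2,1,2],1),([1,2,1,1,2],1),([2,2,1,1,2],1)]),(17,[([0,2,1,1,2],1),([0,2,1,2,1],1),([0,2,2,1,1],1),([1,2,2,1,1],1)]),(19,[([1,1,1,2,2],1),([2,1,2,2,1],2),([2,2,1,2,1],1)]),(20,[([2,1,1,2,2],1),([2,1,2,1,2],2),([2,2,1,1,2],1)]),(25,[([1,2,1,1,2],1),([1,2,1,2,1],2),([1,2,2,1,1],1)]),(26,[([1,1,2,1,2],1),([1,1,2,2,1],2),([2,2,2,1,1],1)]),(28,[([2,1,1,2,2],1),([3,1,1,2,2],1),([3,1,2,1,2],1),([3,2,1,1,2],1)]),(33,[([1,2,1,1,2],1),([2,2,1,1,2],1),([2,2,1,2,1],1),([2,2,2,1,1],1)]),(34,[([1,1,2,1,2],1),([2,1,2,1,2],1),([2,1,2,2,1],1),([3,2,2,1,1],1)]),(35,[([1,1,1,2,2],1),([2,1,1,2,2],1),([3,1,2,2,1],1),([3,2,1,2,1],1)])]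

def g2_11 : Gen := [(10,[([1,1,2,1,2],1),([1,1,2,2,1],1),([1,2,1,1,2],1),([1,2,1,2,1],1),([1,2,2,1,1],1),([2,2,2,1,1],2),([3,2,2,1,1],1)]),(11,[([1,1,1,2,2],1),([2,1,2,2,1],1),([2,2,1,1,2],1),([2,2,1,2,1],3),([2,2,2,1,1],1),([3,2,1,2,1],1)]),(12,[([2,1,1,2,2],1),([2,1,2,1,2],1),([2,2,1,1,2],2),([3,2,1,1,2],2),([3,2,1,2,1],1),([3,2,2,1,1],1)]),(17,[([0,1,2,1,2],1),([0,1,2,2,1],1),([0,2,1,1,2],1),([0,2,1,2,1],1),([0,2,2,1,1],1),([1,2,2,1,1],2),([2,2,2,1,1],1)]),(19,[([2,1,1,2,2],1),([2,1,2,1,2],1),([2,1,2,2,1],2),([3,1,2,2,1],2),([3,2,1,2,1],1),([3,2,2,1,1],1)]),(20,[([2,1,2,1,2],1),([3,1,1,2,2],1),([3,1,2,1,2],3),([3,1,2,2,1],1),([3,2,1,1,2],1),([4,2,2,1,1],1)]),(25,[([0,1,1,2,2],1),([1,1,2,2,1],1),([1,2,1,1,2],1),([1,2,1,2,1],3),([1,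2,2,1,1],1),([2,2,1,2,1],1)]),(26,[([1,1,1,2,2],1),([1,1,2,1,2],1),([1,1,2,2,1],2),([2,1,2,2,1],2),([2,2,1,2,1],1),([2,2,2,1,1],1)]),(28,[([2,1,1,2,2],1),([3,1,1,2,2],2),([4,1,1,2,2],1),([4,1,2,1,2],1),([4,1,2,2,1],1),([4,2,1,1,2],1),([4,2,1,2,1],1)]),(33,[([1,1,1,2,2],1),([1,1,2,1,2],1),([1,2,1,1,2],2),([2,2,1,1,2],2),([2,2,1,2,1],1),([2,2,2,1,1],1)]),(34,[([1,1,2,1,2],1),([2,1,1,2,2],1),([2,1,2,1,2],3),([2,1,2,2,1],1),([2,2,1,1,2],1),([3,2,2,1,1],1)]),(35,[([1,1,1,2,2],1),([2,1,1,2,2],2),([3,1,1,2,2],1),([3,1,2,1,2],1),([3,1,2,2,1],1),([3,2,1,1,2],1),([3,2,1,2,1],1)])]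

def g2_12 : Gen := [(10,[([1,1,2,1,2],1),([1,1,2,2,1],1),([1,2,1,1,2],1),([1,2,1,2,1],1),([1,2,2,1,1],1),([2,2,2,1,1],1)]),(11,[([1,1,1,2,2],1),([2,1,2,2,1],1),([2,2,1,1,2],1),([2,2,1,2,1],2),([2,2,2,1,1],1)]),(12,[([2,1,1,2,2],1),([2,1,2,1,2],1),([2,2,1,1,2],1),([3,2,1,1,2],1),([3,2,1,2,1],1),([3,2,2,1,1],1)]),(17,[([0,1,2,1,2],1),([0,1,2,2,1],1),([0,2,1,1,2],1),([0,2,1,2,1],1),([0,2,2,1,1],1),([1,2,2,1,1],1)]),(19,[([2,1,1,2,2],1),([2,1,2,1,2],1),([2,1,2,2,1],1),([3,1,2,2,1],1),([3,2,1,2,1],1),([3,2,2,1,1],1)]),(20,[([3,1,1,2,2],1),([3,1,2,1,2],2),([3,1,2,2,1],1),([3,2,1,1,2],1),([4,2,2,1,1],1)]),(25,[([0,1,1,2,2],1),([1,1,2,2,1],1),([1,2,1,1,2],1),([1,2,1,2,1],2),([1,2,2,1,1],1)]),(26,[([1,1,1,2,2],1),([1,1,2,1,2],1),([1,1,2,2,1],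1),([2,1,2,2,1],1),([2,2,1,2,1],1),([2,2,2,1,1],1)]),(28,[([3,1,1,2,2],1),([4,1,1,2,2],1),([4,1,2,1,2],1),([4,1,2,2,1],1),([4,2,1,1,2],1),([4,2,1,2,1],1)]),(33,[([1,1,1,2,2],1),([1,1,2,1,2],1),([1,2,1,1,2],1),([2,2,1,1,2],1),([2,2,1,2,1],1),([2,2,2,1,1],1)]),(34,[([2,1,1,2,2],1),([2,1,2,1,2],2),([2,1,2,2,1],1),([2,2,1,1,2],1),([3,2,2,1,1],1)]),(35,[([2,1,1,2,2],1),([3,1,1,2,2],1),([3,1,2,1,2],1),([3,1,2,2,1],1),([3,2,1,1,2],1),([3,2,1,2,1],1)])]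

def g2_13 : Gen := [(10,[([0,1,2,1,2],1),([0,1,2,2,1],1),([1,2,2,1,1],1)]),(11,[([0,1,1,2,2],1),([1,1,2,2,1],1),([1,2,1,2,1],1)]),(12,[([1,1,1,2,2],1),([1,1,2,1,2],1),([1,2,1,1,2],1)]),(17,[([0,2,1,1,2],1),([0,2,1,2,1],1),([0,2,2,1,1],1)]),(19,[([1,1,1,2,2],1),([2,1,2,2,1],1),([2,2,1,2,1],1)]),(20,[([2,1,1,2,2],1),([2,1,2,1,2],1),([2,2,1,1,2],1)]),(25,[([1,2,1,1,2],1),([1,2,1,2,1],1),([1,2,2,1,1],1)]),(26,[([1,1,2,1,2],1),([1,1,2,2,1],1),([2,2,2,1,1],1)]),(28,[([3,1,1,2,2],1),([3,1,2,1,2],1),([3,2,1,1,2],1)]),(33,[([2,2,1,1,2],1),([2,2,1,2,1],1),([2,2,2,1,1],1)]),(34,[([2,1,2,1,2],1),([2,1,2,2,1],1),([3,2,2,1,1],1)]),(35,[([2,1,1,2,2],1),([3,1,2,2,1],1),([3,2,1,2,1],1)])]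

def g2_14 : Gen := [(10,[([0,1,2,2,2],1),([1,1,2,2,2],1),([1,2,2,1,2],1),([1,2,2,2,1],1),([2,2,2,1,2],2),([2,2,2,2,1],2)]),(11,[([1,1,2,2,2],1),([1,2,1,2,2],1),([2,1,2,2,2],1),([2,2,1,2,2],2),([2,2,2,2,1],1),([3,2,2,2,1],2)]),(12,[([2,1,2,2,2],1),([2,2,1,2,2],1),([2,2,2,1,2],1),([3,1,2,2,2],1),([3,2,1,2,2],2),([3,2,2,1,2],2)]),(17,[([0,2,1,2,2],1),([0,2,2,1,2],1),([0,2,2,2,1],1),([1,2,1,2,2],1),([1,2,2,1,2],2),([1,2,2,2,1],2)]),(19,[([2,1,2,2,2],2),([2,2,1,2,2],1),([3,1,2,2,2],1),([3,2,1,2,2],1),([3,2,2,2,1],1),([4,2,2,2,1],2)]),(20,[([3,1,2,2,2],2),([3,2,1,2,2],1),([3,2,2,1,2],1),([4,1,2,2,2],1),([4,2,1,2,2],1),([4,2,2,1,2],2)]),(25,[([1,2,1,2,2],2),([1,2,2,1,2],1),([1,2,2,2,1],1),([2,2,1,2,2],1),([2,2,2,1,2],1),([2,2,2,2,1],2)]),(2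6,[([1,1,2,2,2],2),([2,1,2,2,2],1),([2,2,2,1,2],1),([2,2,2,2,1],1),([3,2,2,1,2],1),([3,2,2,2,1],2)]),(28,[([4,1,2,2,2],2),([4,2,1,2,2],2),([4,2,2,1,2],1),([5,1,2,2,2],1),([5,2,1,2,2],1),([5,2,2,1,2],1)]),(33,[([2,2,1,2,2],2),([2,2,2,1,2],2),([2,2,2,2,1],1),([3,2,1,2,2],1),([3,2,2,1,2],1),([3,2,2,2,1],1)]),(34,[([2,1,2,2,2],2),([3,1,2,2,2],1),([3,2,2,1,2],2),([3,2,2,2,1],1),([4,2,2,1,2],1),([4,2,2,2,1],1)]),(35,[([3,1,2,2,2],2),([3,2,1,2,2],2),([4,1,2,2,2],1),([4,2,1,2,2],1),([4,2,2,2,1],1),([5,2,2,2,1],1)])]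

def g2_15 : Gen := [(10,[([0,1,2,2,2],1),([1,1,2,2,2],1),([1,1,3,1,2],1),([1,1,3,2,1],1),([1,2,2,1,2],3),([1,2,2,2,1],3),([1,2,3,1,1],1),([2,2,2,1,2],2),([2,2,2,2,1],2),([2,2,3,1,1],1)]),(11,[([1,1,1,3,2],1),([1,1,2,2,2],2),([1,1,2,3,1],1),([1,2,1,2,2],3),([1,2,1,3,1],1),([1,2,2,2,1],1),([2,2,1,2,2],2),([2,2,1,3,1],1),([2,2,2,2,1],3),([3,2,2,2,1],1)]),(12,[([1,1,1,2,3],1),([1,1,2,1,3],1),([1,1,2,2,2],1),([1,2,1,1,3],1),([1,2,1,2,2],1),([1,2,2,1,2],1),([2,1,2,2,2],1),([2,2,1,1,3],1),([2,2,1,2,2],3),([2,2,2,1,2],3),([3,2,1,2,2],1),([3,2,2,1,2],1)]),(17,[([0,2,1,2,2],1),([0,2,2,1,2],2),([0,2,2,2,1],2),([1,2,1,2,2],1),([1,2,2,1,2],3),([1,2,2,2,1],3),([1,3,1,1,2],1),([1,3,1,2,1],1),([1,3,2,1,1],1),([2,3,2,1,1],1)]),(19,[([1,1,2,2,2],1),([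2,1,1,3,2],1),([2,1,2,2,2],4),([2,1,2,3,1],2),([2,2,1,2,2],2),([2,2,1,3,1],1),([2,2,2,2,1],1),([3,2,2,2,1],3),([4,2,2,2,1],1)]),(20,[([2,1,1,2,3],1),([2,1,2,1,3],2),([2,1,2,2,2],3),([2,2,1,1,3],1),([2,2,1,2,2],1),([2,2,2,1,2],1),([3,1,2,2,2],2),([3,2,1,2,2],1),([3,2,2,1,2],3),([4,2,2,1,2],1)]),(25,[([0,2,1,2,2],1),([1,2,1,2,2],3),([1,2,2,1,2],1),([1,2,2,2,1],2),([2,2,1,2,2],1),([2,2,2,1,2],1),([2,2,2,2,1],3),([2,3,1,1,2],1),([2,3,1,2,1],2),([2,3,2,1,1],1)]),(26,[([0,1,2,2,2],1),([1,1,2,2,2],3),([2,1,2,2,2],1),([2,1,3,1,2],1),([2,1,3,2,1],2),([2,2,2,1,2],2),([2,2,2,2,1],4),([2,2,3,1,1],1),([3,2,2,2,1],1)]),(28,[([2,1,1,2,3],1),([3,1,1,2,3],1),([3,1,2,1,3],1),([3,1,2,2,2],3),([3,2,1,1,3],1),([3,2,1,2,2],3),([3,2,2,1,2],1),([4,1,2,2,2],2)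,([4,2,1,2,2],2),([4,2,2,1,2],1)]),(33,[([1,2,1,2,2],1),([1,2,2,1,2],1),([2,2,1,2,2],3),([2,2,2,1,2],3),([2,2,2,2,1],1),([2,3,1,1,2],1),([3,2,1,2,2],1),([3,2,2,1,2],1),([3,2,2,2,1],1),([3,3,1,1,2],1),([3,3,1,2,1],1),([3,3,2,1,1],1)]),(34,[([1,1,2,2,2],1),([2,1,2,2,2],3),([2,1,3,1,2],1),([2,2,2,1,2],2),([3,1,2,2,2],1),([3,1,3,1,2],1),([3,1,3,2,1],1),([3,2,2,1,2],3),([3,2,2,2,1],2),([3,2,3,1,1],1)]),(35,[([2,1,1,3,2],1),([2,1,2,2,2],2),([2,2,1,2,2],2),([3,1,1,3,2],1),([3,1,2,2,2],3),([3,1,2,3,1],1),([3,2,1,2,2],3),([3,2,1,3,1],1),([3,2,2,2,1],1),([4,2,2,2,1],1)])]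

def g2_16 : Gen := [(10,[([0,1,2,2,2],1),([1,2,2,1,2],1),([1,2,2,2,1],1)]),(11,[([1,1,2,2,2],1),([1,2,1,2,2],1),([2,2,2,2,1],1)]),(12,[([2,1,2,2,2],1),([2,2,1,2,2],1),([2,2,2,1,2],1)]),(17,[([0,2,1,2,2],1),([0,2,2,1,2],1),([0,2,2,2,1],1)]),(19,[([2,1,2,2,2],1),([2,2,1,2,2],1),([3,2,2,2,1],1)]),(20,[([3,1,2,2,2],1),([3,2,1,2,2],1),([3,2,2,1,2],1)]),(25,[([1,2,1,2,2],1),([1,2,2,1,2],1),([1,2,2,2,1],1)]),(26,[([1,1,2,2,2],1),([2,2,2,1,2],1),([2,2,2,2,1],1)]),(28,[([4,1,2,2,2],1),([4,2,1,2,2],1),([4,2,2,1,2],1)]),(33,[([2,2,1,2,2],1),([2,2,2,1,2],1),([2,2,2,2,1],1)]),(34,[([2,1,2,2,2],1),([3,2,2,1,2],1),([3,2,2,2,1],1)]),(35,[([3,1,2,2,2],1),([3,2,1,2,2],1),([4,2,2,2,1],1)])]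

def lv2 : List Gen := [g2_0,g2_1,g2_2,g2_3,g2_4,g2_5,g2_6,g2_7,g2_8,g2_9,g2_10,g2_11,g2_12,g2_13,g2_14,g2_15,g2_16]

def g3_0 : Gen := [(83,[([3,1,1,1,0],1)]),(84,[([3,1,1,0,1],1)]),(90,[([2,1,1,1,0],1)]),(92,[([3,1,0,1,1],1)]),(98,[([2,1,1,0,1],1)]),(99,[([2,1,0,1,1],1)]),(139,[([2,1,1,1,0],1)]),(140,[([2,1,1,0,1],1)]),(153,[([1,1,1,1,0],1)]),(156,[([3,0,1,1,1],1)]),(161,[([1,1,1,0,1],1)]),(163,[([2,0,1,1,1],1)]),(202,[([1,1,1,1,0],1)]),(204,[([2,1,0,1,1],1)]),(209,[([0,1,1,1,0],1)]),(212,[([2,0,1,1,1],1)]),(225,[([1,1,0,1,1],1)]),(226,[([1,0,1,1,1],1)]),(266,[([1,1,1,0,1],1)]),(267,[([1,1,0,1,1],1)]),(273,[([0,1,1,0,1],1)]),(275,[([1,0,1,1,1],1)]),(281,[([0,1,0,1,1],1)]),(282,[([0,0,1,1,1],1)])]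

def g3_1 : Gen := [(83,[([3,1,1,1,1],1)]),(84,[([4,1,1,1,1],1)]),(90,[([2,1,1,1,1],1)]),(92,[([5,1,1,1,1],1)]),(98,[([3,1,1,1,1],1)]),(99,[([4,1,1,1,1],1)]),(139,[([2,1,1,1,1],1)]),(140,[([3,1,1,1,1],1)]),(153,[([1,1,1,1,1],1)]),(156,[([6,1,1,1,1],1)]),(161,[([2,1,1,1,1],1)]),(163,[([5,1,1,1,1],1)]),(202,[([1,1,1,1,1],1)]),(204,[([4,1,1,1,1],1)]),(209,[([0,1,1,1,1],1)]),(212,[([5,1,1,1,1],1)]),(225,[([3,1,1,1,1],1)]),(226,[([4,1,1,1,1],1)]),(266,[([2,1,1,1,1],1)]),(267,[([3,1,1,1,1],1)]),(273,[([1,1,1,1,1],1)]),(275,[([4,1,1,1,1],1)]),(281,[([2,1,1,1,1],1)]),(282,[([3,1,1,1,1],1)])]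

def g3_2 : Gen := [(83,[([3,1,1,1,1],1),([3,1,1,2,0],1)]),(84,[([3,1,1,0,2],1),([3,1,1,1,1],1)]),(90,[([2,1,1,1,1],1),([3,1,2,1,0],1)]),(92,[([3,1,0,1,2],1),([4,1,1,1,1],1)]),(98,[([3,1,1,1,1],1),([3,1,2,0,1],1)]),(99,[([3,1,0,2,1],1),([3,1,1,1,1],1)]),(139,[([2,1,1,1,1],1),([2,1,1,2,0],1)]),(140,[([2,1,1,0,2],1),([2,1,1,1,1],1)]),(153,[([1,1,1,1,1],1),([3,2,1,1,0],1)]),(156,[([3,0,1,1,2],1),([5,1,1,1,1],1)]),(161,[([2,1,1,1,1],1),([3,2,1,0,1],1)]),(163,[([3,0,1,2,1],1),([4,1,1,1,1],1)]),(202,[([1,1,1,1,1],1),([2,1,2,1,0],1)]),(204,[([2,1,0,1,2],1),([3,1,1,1,1],1)]),(209,[([0,1,1,1,1],1),([2,2,1,1,0],1)]),(212,[([2,0,1,1,2],1),([4,1,1,1,1],1)]),(225,[([3,1,1,1,1],1),([3,2,0,1,1],1)]),(226,[([3,0,2,1,1],1),([3,1,1,1,1],1)]),(266,[([2,1,1,1,1],1),([2,1,2,0,1],1)]),(267,[([2,1,0,2,1],1),([2,1,1,1,1],1)]),(273,[([1,1,1,1,1],1),([2,2,1,0,1],1)]),(275,[([2,0,1,2,1],1),([3,1,1,1,1],1)]),(281,[([2,1,1,1,1],1),([2,2,0,1,1],1)]),(282,[([2,0,2,1,1],1),([2,1,1,1,1],1)])]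

def g3_3 : Gen := [(83,[([3,1,1,1,1],1),([3,1,1,2,0],1),([3,1,2,1,0],1)]),(84,[([3,1,1,0,2],1),([3,1,1,1,1],1),([3,1,2,0,1],1)]),(90,[([2,1,1,1,1],1),([2,1,1,2,0],1),([2,1,2,1,0],1)]),(92,[([3,1,0,1,2],1),([3,1,0,2,1],1),([3,1,1,1,1],1)]),(98,[([2,1,1,0,2],1),([2,1,1,1,1],1),([2,1,2,0,1],1)]),(99,[([2,1,0,1,2],1),([2,1,0,2,1],1),([2,1,1,1,1],1)]),(139,[([2,1,1,1,1],1),([2,1,1,2,0],1),([3,2,1,1,0],1)]),(140,[([2,1,1,0,2],1),([2,1,1,1,1],1),([3,2,1,0,1],1)]),(153,[([1,1,1,1,1],1),([1,1,1,2,0],1),([2,2,1,1,0],1)]),(156,[([3,0,1,1,2],1),([3,0,1,2,1],1),([4,1,1,1,1],1)]),(161,[([1,1,1,0,2],1),([1,1,1,1,1],1),([2,2,1,0,1],1)]),(163,[([2,0,1,1,2],1),([2,0,1,2,1],1),([3,1,1,1,1],1)]),(202,[([1,1,1,1,1],1),([2,1,2,1,0],1),([2,2,1,1,0],1)]),(2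04,[([2,1,0,1,2],1),([3,1,1,1,1],1),([3,2,0,1,1],1)]),(209,[([0,1,1,1,1],1),([1,1,2,1,0],1),([1,2,1,1,0],1)]),(212,[([2,0,1,1,2],1),([3,0,2,1,1],1),([3,1,1,1,1],1)]),(225,[([1,1,0,1,2],1),([2,1,1,1,1],1),([2,2,0,1,1],1)]),(226,[([1,0,1,1,2],1),([2,0,2,1,1],1),([2,1,1,1,1],1)]),(266,[([2,1,1,1,1],1),([2,1,2,0,1],1),([2,2,1,0,1],1)]),(267,[([2,1,0,2,1],1),([2,1,1,1,1],1),([2,2,0,1,1],1)]),(273,[([1,1,1,1,1],1),([1,1,2,0,1],1),([1,2,1,0,1],1)]),(275,[([2,0,1,2,1],1),([2,0,2,1,1],1),([2,1,1,1,1],1)]),(281,[([1,1,0,2,1],1),([1,1,1,1,1],1),([1,2,0,1,1],1)]),(282,[([1,0,1,2,1],1),([1,0,2,1,1],1),([1,1,1,1,1],1)])]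

def g3_4 : Gen := [(83,[([1,1,1,2,1],1)]),(84,[([1,1,1,1,2],1)]),(90,[([1,1,2,1,1],1)]),(92,[([2,1,1,1,2],1)]),(98,[([2,1,2,1,1],1)]),(99,[([2,1,1,2,1],1)]),(139,[([0,1,1,2,1],1)]),(140,[([0,1,1,1,2],1)]),(153,[([1,2,1,1,1],1)]),(156,[([3,1,1,1,2],1)]),(161,[([2,2,1,1,1],1)]),(163,[([3,1,1,2,1],1)]),(202,[([0,1,2,1,1],1)]),(204,[([1,1,1,1,2],1)]),(209,[([0,2,1,1,1],1)]),(212,[([2,1,1,1,2],1)]),(225,[([3,2,1,1,1],1)]),(226,[([3,1,2,1,1],1)]),(266,[([1,1,2,1,1],1)]),(267,[([1,1,1,2,1],1)]),(273,[([1,2,1,1,1],1)]),(275,[([2,1,1,2,1],1)]),(281,[([2,2,1,1,1],1)]),(282,[([2,1,2,1,1],1)])]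

def g3_5 : Gen := [(83,[([2,1,1,2,1],1),([2,1,2,1,1],1)]),(84,[([2,1,1,1,2],1),([3,1,2,1,1],1)]),(90,[([1,1,1,2,1],1),([1,1,2,1,1],1)]),(92,[([3,1,1,1,2],1),([3,1,1,2,1],1)]),(98,[([1,1,1,1,2],1),([2,1,2,1,1],1)]),(99,[([2,1,1,1,2],1),([2,1,1,2,1],1)]),(139,[([1,1,1,2,1],1),([2,2,1,1,1],1)]),(140,[([1,1,1,1,2],1),([3,2,1,1,1],1)]),(153,[([0,1,1,2,1],1),([1,2,1,1,1],1)]),(156,[([4,1,1,1,2],1),([4,1,1,2,1],1)]),(161,[([0,1,1,1,2],1),([2,2,1,1,1],1)]),(163,[([3,1,1,1,2],1),([3,1,1,2,1],1)]),(202,[([1,1,2,1,1],1),([1,2,1,1,1],1)]),(204,[([2,1,1,1,2],1),([4,2,1,1,1],1)]),(209,[([0,1,2,1,1],1),([0,2,1,1,1],1)]),(212,[([3,1,1,1,2],1),([4,1,2,1,1],1)]),(225,[([1,1,1,1,2],1),([3,2,1,1,1],1)]),(226,[([2,1,1,1,2],1),([3,1,2,1,1],1)]),(266,[([2,1,2,1,1],1),([2,2,1,1,1],1)]),(267,[([2,1,1,2,1],1),([3,2,1,1,1],1)]),(273,[([1,1,2,1,1],1),([1,2,1,1,1],1)]),(275,[([3,1,1,2,1],1),([3,1,2,1,1],1)]),(281,[([1,1,1,2,1],1),([2,2,1,1,1],1)]),(282,[([2,1,1,2,1],1),([2,1,2,1,1],1)])]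

def g3_6 : Gen := [(83,[([1,1,1,2,1],1),([2,1,1,2,1],1),([2,1,2,1,1],1),([2,1,2,2,0],1)]),(84,[([1,1,1,1,2],1),([2,1,1,1,2],1),([2,1,2,0,2],1),([2,1,2,1,1],1)]),(90,[([1,1,1,2,1],1),([1,1,2,1,1],2),([1,1,2,2,0],1)]),(92,[([2,1,0,2,2],1),([2,1,1,1,2],2),([2,1,1,2,1],1)]),(98,[([1,1,1,1,2],1),([1,1,2,0,2],1),([1,1,2,1,1],1),([2,1,2,1,1],1)]),(99,[([1,1,0,2,2],1),([1,1,1,1,2],1),([1,1,1,2,1],1),([2,1,1,2,1],1)]),(139,[([0,1,1,2,1],1),([1,1,1,2,1],1),([2,2,1,1,1],1),([2,2,1,2,0],1)]),(140,[([0,1,1,1,2],1),([1,1,1,1,2],1),([2,2,1,0,2],1),([2,2,1,1,1],1)]),(153,[([0,1,1,2,1],1),([1,2,1,1,1],2),([1,2,1,2,0],1)]),(156,[([2,0,1,2,2],1),([3,1,1,1,2],2),([3,1,1,2,1],1)]),(161,[([0,1,1,1,2],1),([1,2,1,0,2],1),([1,2,1,1,1],1),([2,2,1,1,1],1)]),(1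63,[([1,0,1,2,2],1),([2,1,1,1,2],1),([2,1,1,2,1],1),([3,1,1,2,1],1)]),(202,[([0,1,2,1,1],1),([1,1,2,1,1],1),([1,2,1,1,1],1),([2,2,2,1,0],1)]),(204,[([1,1,1,1,2],1),([2,1,1,1,2],1),([2,2,0,1,2],1),([3,2,1,1,1],1)]),(209,[([0,1,2,1,1],1),([0,2,1,1,1],2),([1,2,2,1,0],1)]),(212,[([2,0,2,1,2],1),([2,1,1,1,2],2),([3,1,2,1,1],1)]),(225,[([1,1,1,1,2],1),([1,2,0,1,2],1),([2,2,1,1,1],1),([3,2,1,1,1],1)]),(226,[([1,0,2,1,2],1),([1,1,1,1,2],1),([2,1,2,1,1],1),([3,1,2,1,1],1)]),(266,[([1,1,2,1,1],1),([2,1,2,1,1],1),([2,2,1,1,1],1),([2,2,2,0,1],1)]),(267,[([1,1,1,2,1],1),([2,1,1,2,1],1),([2,2,0,2,1],1),([2,2,1,1,1],1)]),(273,[([1,1,2,1,1],1),([1,2,1,1,1],2),([1,2,2,0,1],1)]),(275,[([2,0,2,2,1],1),([2,1,1,2,1],2),([2,1,2,1,1],1)]),(281,[([1,1,1,2,1],1),([1,2,0,2,1],1),([1,2,1,1,1],1),([2,2,1,1,1],1)]),(282,[([1,0,2,2,1],1),([1,1,1,2,1],1),([1,1,2,1,1],1),([2,1,2,1,1],1)])]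

def g3_7 : Gen := [(83,[([2,1,1,2,1],1),([2,1,2,1,1],1),([2,1,2,2,0],1)]),(84,[([2,1,1,1,2],1),([2,1,2,0,2],1),([2,1,2,1,1],1)]),(90,[([1,1,1,2,1],1),([1,1,2,1,1],1),([1,1,2,2,0],1)]),(92,[([2,1,0,2,2],1),([2,1,1,1,2],1),([2,1,1,2,1],1)]),(98,[([1,1,1,1,2],1),([1,1,2,0,2],1),([1,1,2,1,1],1)]),(99,[([1,1,0,2,2],1),([1,1,1,1,2],1),([1,1,1,2,1],1)]),(139,[([1,1,1,2,1],1),([2,2,1,1,1],1),([2,2,1,2,0],1)]),(140,[([1,1,1,1,2],1),([2,2,1,0,2],1),([2,2,1,1,1],1)]),(153,[([0,1,1,2,1],1),([1,2,1,1,1],1),([1,2,1,2,0],1)]),(156,[([2,0,1,2,2],1),([3,1,1,1,2],1),([3,1,1,2,1],1)]),(161,[([0,1,1,1,2],1),([1,2,1,0,2],1),([1,2,1,1,1],1)]),(163,[([1,0,1,2,2],1),([2,1,1,1,2],1),([2,1,1,2,1],1)]),(202,[([1,1,2,1,1],1),([1,2,1,1,1],1),([2,2,2,1,0],1)]),(2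04,[([2,1,1,1,2],1),([2,2,0,1,2],1),([3,2,1,1,1],1)]),(209,[([0,1,2,1,1],1),([0,2,1,1,1],1),([1,2,2,1,0],1)]),(212,[([2,0,2,1,2],1),([2,1,1,1,2],1),([3,1,2,1,1],1)]),(225,[([1,1,1,1,2],1),([1,2,0,1,2],1),([2,2,1,1,1],1)]),(226,[([1,0,2,1,2],1),([1,1,1,1,2],1),([2,1,2,1,1],1)]),(266,[([2,1,2,1,1],1),([2,2,1,1,1],1),([2,2,2,0,1],1)]),(267,[([2,1,1,2,1],1),([2,2,0,2,1],1),([2,2,1,1,1],1)]),(273,[([1,1,2,1,1],1),([1,2,1,1,1],1),([1,2,2,0,1],1)]),(275,[([2,0,2,2,1],1),([2,1,1,2,1],1),([2,1,2,1,1],1)]),(281,[([1,1,1,2,1],1),([1,2,0,2,1],1),([1,2,1,1,1],1)]),(282,[([1,0,2,2,1],1),([1,1,1,2,1],1),([1,1,2,1,1],1)])]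

def g3_8 : Gen := [(83,[([3,1,1,2,1],1),([3,1,2,1,1],1),([3,2,1,1,1],1)]),(84,[([3,1,1,1,2],1),([4,1,2,1,1],1),([4,2,1,1,1],1)]),(90,[([2,1,1,2,1],1),([2,1,2,1,1],1),([2,2,1,1,1],1)]),(92,[([4,1,1,1,2],1),([4,1,1,2,1],1),([5,2,1,1,1],1)]),(98,[([2,1,1,1,2],1),([3,1,2,1,1],1),([3,2,1,1,1],1)]),(99,[([3,1,1,1,2],1),([3,1,1,2,1],1),([4,2,1,1,1],1)]),(139,[([2,1,1,2,1],1),([2,1,2,1,1],1),([2,2,1,1,1],1)]),(140,[([2,1,1,1,2],1),([3,1,2,1,1],1),([3,2,1,1,1],1)]),(153,[([1,1,1,2,1],1),([1,1,2,1,1],1),([1,2,1,1,1],1)]),(156,[([5,1,1,1,2],1),([5,1,1,2,1],1),([5,1,2,1,1],1)]),(161,[([1,1,1,1,2],1),([2,1,2,1,1],1),([2,2,1,1,1],1)]),(163,[([4,1,1,1,2],1),([4,1,1,2,1],1),([4,1,2,1,1],1)]),(202,[([1,1,1,2,1],1),([1,1,2,1,1],1),([1,2,1,1,1],1)]),(2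04,[([3,1,1,1,2],1),([3,1,1,2,1],1),([4,2,1,1,1],1)]),(209,[([0,1,1,2,1],1),([0,1,2,1,1],1),([0,2,1,1,1],1)]),(212,[([4,1,1,1,2],1),([4,1,1,2,1],1),([4,1,2,1,1],1)]),(225,[([2,1,1,1,2],1),([2,1,1,2,1],1),([3,2,1,1,1],1)]),(226,[([3,1,1,1,2],1),([3,1,1,2,1],1),([3,1,2,1,1],1)]),(266,[([1,1,1,1,2],1),([2,1,2,1,1],1),([2,2,1,1,1],1)]),(267,[([2,1,1,1,2],1),([2,1,1,2,1],1),([3,2,1,1,1],1)]),(273,[([0,1,1,1,2],1),([1,1,2,1,1],1),([1,2,1,1,1],1)]),(275,[([3,1,1,1,2],1),([3,1,1,2,1],1),([3,1,2,1,1],1)]),(281,[([1,1,1,1,2],1),([1,1,1,2,1],1),([2,2,1,1,1],1)]),(282,[([2,1,1,1,2],1),([2,1,1,2,1],1),([2,1,2,1,1],1)])]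

def g3_9 : Gen := [(83,[([2,1,1,2,1],1),([3,1,1,2,1],1),([3,1,2,1,1],1),([3,1,2,2,0],1),([3,2,1,1,1],1),([3,2,1,2,0],1)]),(84,[([2,1,1,1,2],1),([3,1,1,1,2],1),([3,1,2,0,2],1),([3,1,2,1,1],1),([3,2,1,0,2],1),([3,2,1,1,1],1)]),(90,[([2,1,1,2,1],1),([2,1,2,1,1],2),([2,1,2,2,0],1),([2,2,1,1,1],1),([3,2,2,1,0],1)]),(92,[([3,1,0,2,2],1),([3,1,1,1,2],2),([3,1,1,2,1],1),([3,2,0,1,2],1),([4,2,1,1,1],1)]),(98,[([2,1,1,1,2],1),([2,1,2,0,2],1),([2,1,2,1,1],1),([3,1,2,1,1],1),([3,2,1,1,1],1),([3,2,2,0,1],1)]),(99,[([2,1,0,2,2],1),([2,1,1,1,2],1),([2,1,1,2,1],1),([3,1,1,2,1],1),([3,2,0,2,1],1),([3,2,1,1,1],1)]),(139,[([1,1,1,2,1],1),([2,1,1,2,1],1),([2,1,2,1,1],1),([2,1,2,2,0],1),([2,2,1,1,1],1),([2,2,1,2,0],1)]),(140,[([1,1,1,1,2],1),([2,1,1,1,2]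,1),([2,1,2,0,2],1),([2,1,2,1,1],1),([2,2,1,0,2],1),([2,2,1,1,1],1)]),(153,[([1,1,1,2,1],1),([1,1,2,1,1],1),([1,2,1,1,1],1),([2,2,1,1,1],1),([2,2,1,2,0],1),([2,2,2,1,0],1)]),(156,[([3,0,1,2,2],1),([3,0,2,1,2],1),([3,1,1,1,2],1),([4,1,1,1,2],1),([4,1,1,2,1],1),([4,1,2,1,1],1)]),(161,[([1,1,1,1,2],1),([2,1,2,1,1],1),([2,2,1,0,2],1),([2,2,1,1,1],2),([2,2,2,0,1],1)]),(163,[([2,0,1,2,2],1),([3,0,2,2,1],1),([3,1,1,1,2],1),([3,1,1,2,1],2),([3,1,2,1,1],1)]),(202,[([1,1,1,2,1],1),([1,1,2,1,1],2),([1,1,2,2,0],1),([1,2,1,1,1],1),([2,2,2,1,0],1)]),(204,[([2,1,0,2,2],1),([2,1,1,1,2],2),([2,1,1,2,1],1),([2,2,0,1,2],1),([3,2,1,1,1],1)]),(209,[([0,1,1,2,1],1),([0,1,2,1,1],1),([0,2,1,1,1],1),([1,2,1,1,1],1),([1,2,1,2,0],1),([1,2,2,1,0],1)]),(212,[([2,0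,1,2,2],1),([2,0,2,1,2],1),([2,1,1,1,2],1),([3,1,1,1,2],1),([3,1,1,2,1],1),([3,1,2,1,1],1)]),(225,[([2,1,1,1,2],1),([2,1,1,2,1],1),([2,2,0,1,2],1),([2,2,0,2,1],1),([2,2,1,1,1],1),([3,2,1,1,1],1)]),(226,[([2,0,2,1,2],1),([2,0,2,2,1],1),([2,1,1,1,2],1),([2,1,1,2,1],1),([2,1,2,1,1],1),([3,1,2,1,1],1)]),(266,[([1,1,1,1,2],1),([1,1,2,0,2],1),([1,1,2,1,1],1),([2,1,2,1,1],1),([2,2,1,1,1],1),([2,2,2,0,1],1)]),(267,[([1,1,0,2,2],1),([1,1,1,1,2],1),([1,1,1,2,1],1),([2,1,1,2,1],1),([2,2,0,2,1],1),([2,2,1,1,1],1)]),(273,[([0,1,1,1,2],1),([1,1,2,1,1],1),([1,2,1,0,2],1),([1,2,1,1,1],2),([1,2,2,0,1],1)]),(275,[([1,0,1,2,2],1),([2,0,2,2,1],1),([2,1,1,1,2],1),([2,1,1,2,1],2),([2,1,2,1,1],1)]),(281,[([1,1,1,1,2],1),([1,1,1,2,1],1),([1,2,0,1,2],1),([1,2,0,2,1],1),([1,2,1,1,1],1),([2,2,1,1,1],1)]),(282,[([1,0,2,1,2],1),([1,0,2,2,1],1),([1,1,1,1,2],1),([1,1,1,2,1],1),([1,1,2,1,1],1),([2,1,2,1,1],1)])]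

def g3_10 : Gen := [(83,[([1,1,2,2,1],1)]),(84,[([1,1,2,1,2],1)]),(90,[([0,1,2,2,1],1)]),(92,[([1,1,1,2,2],1)]),(98,[([0,1,2,1,2],1)]),(99,[([0,1,1,2,2],1)]),(139,[([1,2,1,2,1],1)]),(140,[([1,2,1,1,2],1)]),(153,[([0,2,1,2,1],1)]),(156,[([2,1,1,2,2],1)]),(161,[([0,2,1,1,2],1)]),(163,[([1,1,1,2,2],1)]),(202,[([1,2,2,1,1],1)]),(204,[([2,2,1,1,2],1)]),(209,[([0,2,2,1,1],1)]),(212,[([2,1,2,1,2],1)]),(225,[([1,2,1,1,2],1)]),(226,[([1,1,2,1,2],1)]),(266,[([2,2,2,1,1],1)]),(267,[([2,2,1,2,1],1)]),(273,[([1,2,2,1,1],1)]),(275,[([2,1,2,2,1],1)]),(281,[([1,2,1,2,1],1)]),(282,[([1,1,2,2,1],1)])]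

def g3_11 : Gen := [(83,[([2,1,2,2,1],1),([2,2,1,2,1],1)]),(84,[([2,1,2,1,2],1),([2,2,1,1,2],1)]),(90,[([1,1,2,2,1],1),([2,2,2,1,1],1)]),(92,[([2,1,1,2,2],1),([3,2,1,1,2],1)]),(98,[([1,1,2,1,2],1),([3,2,2,1,1],1)]),(99,[([1,1,1,2,2],1),([3,2,1,2,1],1)]),(139,[([1,1,2,2,1],1),([1,2,1,2,1],1)]),(140,[([1,1,2,1,2],1),([1,2,1,1,2],1)]),(153,[([1,2,1,2,1],1),([1,2,2,1,1],1)]),(156,[([3,1,1,2,2],1),([3,1,2,1,2],1)]),(161,[([1,2,1,1,2],1),([2,2,2,1,1],1)]),(163,[([2,1,1,2,2],1),([3,1,2,2,1],1)]),(202,[([0,1,2,2,1],1),([1,2,2,1,1],1)]),(204,[([1,1,1,2,2],1),([2,2,1,1,2],1)]),(209,[([0,2,1,2,1],1),([0,2,2,1,1],1)]),(212,[([2,1,1,2,2],1),([2,1,2,1,2],1)]),(225,[([2,2,1,1,2],1),([2,2,1,2,1],1)]),(226,[([2,1,2,1,2],1),([2,1,2,2,1],1)]),(266,[([0,1,2,1,2],1),([2,2,2,1,1],1)]),(267,[([0,1,1,2,2],1),([2,2,1,2,1],1)]),(273,[([0,2,1,1,2],1),([1,2,2,1,1],1)]),(275,[([1,1,1,2,2],1),([2,1,2,2,1],1)]),(281,[([1,2,1,1,2],1),([1,2,1,2,1],1)]),(282,[([1,1,2,1,2],1),([1,1,2,2,1],1)])]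

def g3_12 : Gen := [(83,[([2,1,2,2,1],1),([3,1,2,2,1],1),([3,2,1,2,1],1),([3,2,2,1,1],1)]),(84,[([2,1,2,1,2],1),([3,1,2,1,2],1),([3,2,1,1,2],1),([4,2,2,1,1],1)]),(90,[([1,1,2,2,1],1),([2,1,2,2,1],1),([2,2,1,2,1],1),([2,2,2,1,1],1)]),(92,[([2,1,1,2,2],1),([3,1,1,2,2],1),([4,2,1,1,2],1),([4,2,1,2,1],1)]),(98,[([1,1,2,1,2],1),([2,1,2,1,2],1),([2,2,1,1,2],1),([3,2,2,1,1],1)]),(99,[([1,1,1,2,2],1),([2,1,1,2,2],1),([3,2,1,1,2],1),([3,2,1,2,1],1)]),(139,[([2,1,2,2,1],1),([2,2,1,2,1],2),([2,2,2,1,1],1)]),(140,[([2,1,2,1,2],1),([2,2,1,1,2],2),([3,2,2,1,1],1)]),(153,[([1,1,2,2,1],1),([1,2,1,2,1],2),([1,2,2,1,1],1)]),(156,[([3,1,1,2,2],1),([4,1,1,2,2],1),([4,1,2,1,2],1),([4,1,2,2,1],1)]),(161,[([1,1,2,1,2],1),([1,2,1,1,2],2),([2,2,2,1,1],1)]),(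163,[([2,1,1,2,2],1),([3,1,1,2,2],1),([3,1,2,1,2],1),([3,1,2,2,1],1)]),(202,[([1,1,2,2,1],1),([1,2,1,2,1],1),([1,2,2,1,1],1),([2,2,2,1,1],1)]),(204,[([2,1,1,2,2],1),([3,2,1,1,2],2),([3,2,1,2,1],1)]),(209,[([0,1,2,2,1],1),([0,2,1,2,1],1),([0,2,2,1,1],1),([1,2,2,1,1],1)]),(212,[([3,1,1,2,2],1),([3,1,2,1,2],2),([3,1,2,2,1],1)]),(225,[([1,1,1,2,2],1),([2,2,1,1,2],2),([2,2,1,2,1],1)]),(226,[([2,1,1,2,2],1),([2,1,2,1,2],2),([2,1,2,2,1],1)]),(266,[([1,1,2,1,2],1),([1,2,1,1,2],1),([2,2,2,1,1],1),([3,2,2,1,1],1)]),(267,[([1,1,1,2,2],1),([2,2,1,1,2],1),([2,2,1,2,1],1),([3,2,1,2,1],1)]),(273,[([0,1,2,1,2],1),([0,2,1,1,2],1),([1,2,2,1,1],1),([2,2,2,1,1],1)]),(275,[([2,1,1,2,2],1),([2,1,2,1,2],1),([2,1,2,2,1],1),([3,1,2,2,1],1)]),(281,[([0,1,1,2,2],1),([1,2,1,1,2],1),([1,2,1,2,1],1),([2,2,1,2,1],1)]),(282,[([1,1,1,2,2],1),([1,1,2,1,2],1),([1,1,2,2,1],1),([2,1,2,2,1],1)])]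

def g3_13 : Gen := [(83,[([3,1,2,2,1],1),([3,2,1,2,1],1),([3,2,2,1,1],1)]),(84,[([3,1,2,1,2],1),([3,2,1,1,2],1),([4,2,2,1,1],1)]),(90,[([2,1,2,2,1],1),([2,2,1,2,1],1),([2,2,2,1,1],1)]),(92,[([3,1,1,2,2],1),([4,2,1,1,2],1),([4,2,1,2,1],1)]),(98,[([2,1,2,1,2],1),([2,2,1,1,2],1),([3,2,2,1,1],1)]),(99,[([2,1,1,2,2],1),([3,2,1,1,2],1),([3,2,1,2,1],1)]),(139,[([2,1,2,2,1],1),([2,2,1,2,1],1),([2,2,2,1,1],1)]),(140,[([2,1,2,1,2],1),([2,2,1,1,2],1),([3,2,2,1,1],1)]),(153,[([1,1,2,2,1],1),([1,2,1,2,1],1),([1,2,2,1,1],1)]),(156,[([4,1,1,2,2],1),([4,1,2,1,2],1),([4,1,2,2,1],1)]),(161,[([1,1,2,1,2],1),([1,2,1,1,2],1),([2,2,2,1,1],1)]),(163,[([3,1,1,2,2],1),([3,1,2,1,2],1),([3,1,2,2,1],1)]),(202,[([1,1,2,2,1],1),([1,2,1,2,1],1),([1,2,2,1,1],1)]),(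204,[([2,1,1,2,2],1),([3,2,1,1,2],1),([3,2,1,2,1],1)]),(209,[([0,1,2,2,1],1),([0,2,1,2,1],1),([0,2,2,1,1],1)]),(212,[([3,1,1,2,2],1),([3,1,2,1,2],1),([3,1,2,2,1],1)]),(225,[([1,1,1,2,2],1),([2,2,1,1,2],1),([2,2,1,2,1],1)]),(226,[([2,1,1,2,2],1),([2,1,2,1,2],1),([2,1,2,2,1],1)]),(266,[([1,1,2,1,2],1),([1,2,1,1,2],1),([2,2,2,1,1],1)]),(267,[([1,1,1,2,2],1),([2,2,1,1,2],1),([2,2,1,2,1],1)]),(273,[([0,1,2,1,2],1),([0,2,1,1,2],1),([1,2,2,1,1],1)]),(275,[([2,1,1,2,2],1),([2,1,2,1,2],1),([2,1,2,2,1],1)]),(281,[([0,1,1,2,2],1),([1,2,1,1,2],1),([1,2,1,2,1],1)]),(282,[([1,1,1,2,2],1),([1,1,2,1,2],1),([1,1,2,2,1],1)])]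

def g3_14 : Gen := [(83,[([1,1,1,2,2],1),([2,1,2,2,1],1),([2,2,1,2,1],1)]),(84,[([2,1,1,2,2],1),([2,1,2,1,2],1),([2,2,1,1,2],1)]),(90,[([1,1,2,1,2],1),([1,1,2,2,1],1),([2,2,2,1,1],1)]),(92,[([3,1,1,2,2],1),([3,1,2,1,2],1),([3,2,1,1,2],1)]),(98,[([2,1,2,1,2],1),([2,1,2,2,1],1),([3,2,2,1,1],1)]),(99,[([2,1,1,2,2],1),([3,1,2,2,1],1),([3,2,1,2,1],1)]),(139,[([0,1,1,2,2],1),([1,1,2,2,1],1),([1,2,1,2,1],1)]),(140,[([1,1,1,2,2],1),([1,1,2,1,2],1),([1,2,1,1,2],1)]),(153,[([1,2,1,1,2],1),([1,2,1,2,1],1),([1,2,2,1,1],1)]),(156,[([4,1,1,2,2],1),([4,1,2,1,2],1),([4,2,1,1,2],1)]),(161,[([2,2,1,1,2],1),([2,2,1,2,1],1),([2,2,2,1,1],1)]),(163,[([3,1,1,2,2],1),([4,1,2,2,1],1),([4,2,1,2,1],1)]),(202,[([0,1,2,1,2],1),([0,1,2,2,1],1),([1,2,2,1,1],1)]),(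204,[([2,1,1,2,2],1),([2,1,2,1,2],1),([2,2,1,1,2],1)]),(209,[([0,2,1,1,2],1),([0,2,1,2,1],1),([0,2,2,1,1],1)]),(212,[([3,1,1,2,2],1),([3,1,2,1,2],1),([3,2,1,1,2],1)]),(225,[([3,2,1,1,2],1),([3,2,1,2,1],1),([3,2,2,1,1],1)]),(226,[([3,1,2,1,2],1),([3,1,2,2,1],1),([4,2,2,1,1],1)]),(266,[([1,1,2,1,2],1),([1,1,2,2,1],1),([2,2,2,1,1],1)]),(267,[([1,1,1,2,2],1),([2,1,2,2,1],1),([2,2,1,2,1],1)]),(273,[([1,2,1,1,2],1),([1,2,1,2,1],1),([1,2,2,1,1],1)]),(275,[([2,1,1,2,2],1),([3,1,2,2,1],1),([3,2,1,2,1],1)]),(281,[([2,2,1,1,2],1),([2,2,1,2,1],1),([2,2,2,1,1],1)]),(282,[([2,1,2,1,2],1),([2,1,2,2,1],1),([3,2,2,1,1],1)])]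

def g3_15 : Gen := [(83,[([2,1,1,2,2],1),([2,1,2,1,2],1),([2,1,2,2,1],1),([3,1,2,2,1],1),([3,2,1,2,1],1),([3,2,2,1,1],1)]),(84,[([3,1,1,2,2],1),([3,1,2,1,2],2),([3,1,2,2,1],1),([3,2,1,1,2],1),([4,2,2,1,1],1)]),(90,[([1,1,1,2,2],1),([1,1,2,1,2],1),([1,1,2,2,1],1),([2,1,2,2,1],1),([2,2,1,2,1],1),([2,2,2,1,1],1)]),(92,[([3,1,1,2,2],1),([4,1,1,2,2],1),([4,1,2,1,2],1),([4,1,2,2,1],1),([4,2,1,1,2],1),([4,2,1,2,1],1)]),(98,[([2,1,1,2,2],1),([2,1,2,1,2],2),([2,1,2,2,1],1),([2,2,1,1,2],1),([3,2,2,1,1],1)]),(99,[([2,1,1,2,2],1),([3,1,1,2,2],1),([3,1,2,1,2],1),([3,1,2,2,1],1),([3,2,1,1,2],1),([3,2,1,2,1],1)]),(139,[([1,1,1,2,2],1),([2,1,2,2,1],1),([2,2,1,1,2],1),([2,2,1,2,1],2),([2,2,2,1,1],1)]),(140,[([2,1,1,2,2],1),([2,1,2,1,2],1),([2,2,1,1,2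],1),([3,2,1,1,2],1),([3,2,1,2,1],1),([3,2,2,1,1],1)]),(153,[([0,1,1,2,2],1),([1,1,2,2,1],1),([1,2,1,1,2],1),([1,2,1,2,1],2),([1,2,2,1,1],1)]),(156,[([4,1,1,2,2],1),([5,1,1,2,2],1),([5,1,2,1,2],1),([5,1,2,2,1],1),([5,2,1,1,2],1),([5,2,1,2,1],1)]),(161,[([1,1,1,2,2],1),([1,1,2,1,2],1),([1,2,1,1,2],1),([2,2,1,1,2],1),([2,2,1,2,1],1),([2,2,2,1,1],1)]),(163,[([3,1,1,2,2],1),([4,1,1,2,2],1),([4,1,2,1,2],1),([4,1,2,2,1],1),([4,2,1,1,2],1),([4,2,1,2,1],1)]),(202,[([1,1,2,1,2],1),([1,1,2,2,1],1),([1,2,1,1,2],1),([1,2,1,2,1],1),([1,2,2,1,1],1),([2,2,2,1,1],1)]),(204,[([3,1,1,2,2],1),([3,1,2,1,2],1),([3,2,1,1,2],1),([4,2,1,1,2],1),([4,2,1,2,1],1),([4,2,2,1,1],1)]),(209,[([0,1,2,1,2],1),([0,1,2,2,1],1),([0,2,1,1,2],1),([0,2,1,2,1],1),([0,2,2,1,1]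,1),([1,2,2,1,1],1)]),(212,[([4,1,1,2,2],1),([4,1,2,1,2],2),([4,1,2,2,1],1),([4,2,1,1,2],1),([5,2,2,1,1],1)]),(225,[([2,1,1,2,2],1),([2,1,2,1,2],1),([2,2,1,1,2],1),([3,2,1,1,2],1),([3,2,1,2,1],1),([3,2,2,1,1],1)]),(226,[([3,1,1,2,2],1),([3,1,2,1,2],2),([3,1,2,2,1],1),([3,2,1,1,2],1),([4,2,2,1,1],1)]),(266,[([2,1,2,1,2],1),([2,1,2,2,1],1),([2,2,1,1,2],1),([2,2,1,2,1],1),([2,2,2,1,1],1),([3,2,2,1,1],1)]),(267,[([2,1,1,2,2],1),([3,1,2,2,1],1),([3,2,1,1,2],1),([3,2,1,2,1],2),([3,2,2,1,1],1)]),(273,[([1,1,2,1,2],1),([1,1,2,2,1],1),([1,2,1,1,2],1),([1,2,1,2,1],1),([1,2,2,1,1],1),([2,2,2,1,1],1)]),(275,[([3,1,1,2,2],1),([3,1,2,1,2],1),([3,1,2,2,1],1),([4,1,2,2,1],1),([4,2,1,2,1],1),([4,2,2,1,1],1)]),(281,[([1,1,1,2,2],1),([2,1,2,2,1],1),([2,2,1,1,2],1),([2,2,1,2,1],2),([2,2,2,1,1],1)]),(282,[([2,1,1,2,2],1),([2,1,2,1,2],1),([2,1,2,2,1],1),([3,1,2,2,1],1),([3,2,1,2,1],1),([3,2,2,1,1],1)])]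

def g3_16 : Gen := [(83,[([2,1,1,2,2],1),([2,1,1,3,1],1),([2,1,2,1,2],1),([2,1,2,2,1],3),([2,1,2,3,0],1),([2,2,1,2,1],1),([3,1,2,2,1],1),([3,2,1,2,1],1),([3,2,2,1,1],1),([3,2,2,2,0],1)]),(84,[([2,1,1,1,3],1),([2,1,1,2,2],1),([2,1,2,0,3],1),([2,1,2,1,2],3),([2,1,2,2,1],1),([2,2,1,1,2],1),([3,1,2,1,2],1),([3,2,1,1,2],1),([3,2,2,0,2],1),([3,2,2,1,1],1)]),(90,[([1,1,1,2,2],1),([1,1,2,1,2],1),([1,1,2,2,1],2),([2,1,2,2,1],2),([2,1,3,1,1],1),([2,1,3,2,0],1),([2,2,1,2,1],1),([2,2,2,1,1],2),([2,2,2,2,0],1)]),(92,[([2,1,0,2,3],1),([2,1,1,1,3],1),([2,1,1,2,2],2),([3,1,1,2,2],2),([3,1,2,1,2],1),([3,1,2,2,1],1),([3,2,0,2,2],1),([3,2,1,1,2],2),([3,2,1,2,1],1)]),(98,[([1,1,2,1,2],1),([2,1,1,2,2],1),([2,1,2,1,2],3),([2,1,2,2,1],1),([2,1,3,0,2],1),([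2,1,3,1,1],1),([2,2,1,1,2],1),([2,2,2,0,2],1),([2,2,2,1,1],1),([3,2,2,1,1],1)]),(99,[([1,1,1,2,2],1),([2,1,0,3,2],1),([2,1,1,2,2],3),([2,1,1,3,1],1),([2,1,2,1,2],1),([2,1,2,2,1],1),([2,2,0,2,2],1),([2,2,1,1,2],1),([2,2,1,2,1],1),([3,2,1,2,1],1)]),(139,[([1,1,1,2,2],1),([1,1,1,3,1],1),([1,1,2,2,1],1),([1,2,1,2,1],1),([2,1,2,2,1],1),([2,2,1,1,2],1),([2,2,1,2,1],3),([2,2,1,3,0],1),([2,2,2,1,1],1),([2,2,2,2,0],1)]),(140,[([1,1,1,1,3],1),([1,1,1,2,2],1),([1,1,2,1,2],1),([1,2,1,1,2],1),([2,1,2,1,2],1),([2,2,1,0,3],1),([2,2,1,1,2],3),([2,2,1,2,1],1),([2,2,2,0,2],1),([2,2,2,1,1],1)]),(153,[([0,1,1,2,2],1),([1,1,2,2,1],1),([1,2,1,1,2],1),([1,2,1,2,1],3),([1,2,2,1,1],1),([2,2,1,2,1],1),([2,2,2,1,1],1),([2,2,2,2,0],1),([2,3,1,1,1],1),([2,3,1,2,0]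,1)]),(156,[([2,0,1,2,3],1),([3,0,2,2,2],1),([3,1,1,1,3],1),([3,1,1,2,2],3),([3,1,2,1,2],1),([4,1,1,2,2],1),([4,1,2,1,2],1),([4,1,2,2,1],1),([4,2,1,1,2],1),([4,2,1,2,1],1)]),(161,[([1,1,1,2,2],1),([1,1,2,1,2],1),([1,2,1,1,2],2),([2,2,1,1,2],2),([2,2,1,2,1],1),([2,2,2,0,2],1),([2,2,2,1,1],2),([2,3,1,0,2],1),([2,3,1,1,1],1)]),(163,[([2,0,1,3,2],1),([2,0,2,2,2],1),([2,1,1,2,2],2),([3,1,1,2,2],2),([3,1,1,3,1],1),([3,1,2,1,2],1),([3,1,2,2,1],2),([3,2,1,1,2],1),([3,2,1,2,1],1)]),(202,[([1,1,2,1,2],1),([1,1,2,2,1],2),([1,1,3,1,1],1),([1,2,1,1,2],1),([1,2,1,2,1],1),([1,2,2,1,1],2),([2,2,2,1,1],2),([2,2,2,2,0],1),([2,2,3,1,0],1)]),(204,[([2,1,1,1,3],1),([2,1,1,2,2],2),([2,1,2,1,2],1),([2,2,0,1,3],1),([2,2,0,2,2],1),([2,2,1,1,2],2),([3,2,1,1,2],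2),([3,2,1,2,1],1),([3,2,2,1,1],1)]),(209,[([0,1,2,1,2],1),([0,1,2,2,1],1),([0,2,1,1,2],1),([0,2,1,2,1],1),([0,2,2,1,1],1),([1,2,1,2,1],1),([1,2,2,1,1],3),([1,2,2,2,0],1),([1,3,1,1,1],1),([2,3,2,1,0],1)]),(212,[([2,0,2,1,3],1),([2,0,2,2,2],1),([2,1,1,1,3],1),([2,1,1,2,2],1),([2,1,2,1,2],1),([3,1,1,2,2],1),([3,1,2,1,2],3),([3,1,2,2,1],1),([3,2,1,1,2],1),([4,2,2,1,1],1)]),(225,[([2,1,1,2,2],1),([2,1,2,1,2],1),([2,2,0,2,2],1),([2,2,1,1,2],3),([2,2,1,2,1],1),([2,3,0,1,2],1),([3,2,1,1,2],1),([3,2,1,2,1],1),([3,2,2,1,1],1),([3,3,1,1,1],1)]),(226,[([2,0,2,2,2],1),([2,0,3,1,2],1),([2,1,1,2,2],1),([2,1,2,1,2],3),([2,1,2,2,1],1),([2,2,1,1,2],1),([3,1,2,1,2],1),([3,1,2,2,1],1),([3,1,3,1,1],1),([3,2,2,1,1],1)]),(266,[([1,1,2,1,2],1),([2,1,2,1,2],1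),([2,1,2,2,1],1),([2,1,3,1,1],1),([2,2,1,1,2],1),([2,2,1,2,1],1),([2,2,2,0,2],1),([2,2,2,1,1],3),([2,2,3,0,1],1),([3,2,2,1,1],1)]),(267,[([1,1,1,2,2],1),([2,1,1,2,2],1),([2,1,1,3,1],1),([2,1,2,2,1],1),([2,2,0,2,2],1),([2,2,0,3,1],1),([2,2,1,1,2],1),([2,2,1,2,1],3),([2,2,2,1,1],1),([3,2,1,2,1],1)]),(273,[([1,1,2,1,2],1),([1,1,2,2,1],1),([1,2,1,1,2],2),([1,2,1,2,1],1),([1,2,2,0,2],1),([1,2,2,1,1],2),([2,2,2,1,1],2),([2,3,1,1,1],1),([2,3,2,0,1],1)]),(275,[([2,0,2,2,2],1),([2,0,2,3,1],1),([2,1,1,2,2],2),([2,1,1,3,1],1),([2,1,2,1,2],1),([2,1,2,2,1],2),([3,1,2,2,1],2),([3,2,1,2,1],1),([3,2,2,1,1],1)]),(281,[([1,1,1,2,2],1),([1,2,0,2,2],1),([1,2,1,1,2],1),([1,2,1,2,1],1),([2,1,2,2,1],1),([2,2,1,1,2],1),([2,2,1,2,1],3),([2,2,2,1,1],1),([2,3,0,2,1],1),([2,3,1,1,1],1)]),(282,[([1,0,2,2,2],1),([1,1,1,2,2],1),([1,1,2,1,2],1),([1,1,2,2,1],1),([2,0,3,2,1],1),([2,1,2,1,2],1),([2,1,2,2,1],3),([2,1,3,1,1],1),([2,2,1,2,1],1),([2,2,2,1,1],1)])]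

def g3_17 : Gen := [(83,[([1,1,2,2,2],1),([3,2,2,2,1],1)]),(84,[([2,1,2,2,2],1),([3,2,2,1,2],1)]),(90,[([0,1,2,2,2],1),([2,2,2,2,1],1)]),(92,[([3,1,2,2,2],1),([3,2,1,2,2],1)]),(98,[([1,1,2,2,2],1),([2,2,2,1,2],1)]),(99,[([2,1,2,2,2],1),([2,2,1,2,2],1)]),(139,[([1,2,1,2,2],1),([2,2,2,2,1],1)]),(140,[([2,2,1,2,2],1),([2,2,2,1,2],1)]),(153,[([0,2,1,2,2],1),([1,2,2,2,1],1)]),(156,[([4,1,2,2,2],1),([4,2,1,2,2],1)]),(161,[([1,2,1,2,2],1),([1,2,2,1,2],1)]),(163,[([3,1,2,2,2],1),([3,2,1,2,2],1)]),(202,[([1,2,2,1,2],1),([1,2,2,2,1],1)]),(204,[([3,2,1,2,2],1),([3,2,2,1,2],1)]),(209,[([0,2,2,1,2],1),([0,2,2,2,1],1)]),(212,[([3,1,2,2,2],1),([4,2,2,1,2],1)]),(225,[([2,2,1,2,2],1),([2,2,2,1,2],1)]),(226,[([2,1,2,2,2],1),([3,2,2,1,2],1)]),(266,[([2,2,2,1,2],1),([2,2,2,2,1],1)]),(267,[([2,2,1,2,2],1),([3,2,2,2,1],1)]),(273,[([1,2,2,1,2],1),([1,2,2,2,1],1)]),(275,[([2,1,2,2,2],1),([4,2,2,2,1],1)]),(281,[([1,2,1,2,2],1),([2,2,2,2,1],1)]),(282,[([1,1,2,2,2],1),([3,2,2,2,1],1)])]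

def g3_18 : Gen := [(83,[([1,1,2,2,2],1),([1,1,2,3,1],1),([2,2,2,2,1],1),([3,2,2,2,1],1)]),(84,[([1,1,2,1,3],1),([1,1,2,2,2],1),([2,2,2,1,2],1),([3,2,2,1,2],1)]),(90,[([0,1,2,2,2],1),([1,1,3,2,1],1),([1,2,2,2,1],1),([2,2,2,2,1],1)]),(92,[([1,1,1,2,3],1),([2,1,2,2,2],1),([2,2,1,2,2],1),([3,2,1,2,2],1)]),(98,[([1,1,2,2,2],1),([1,1,3,1,2],1),([1,2,2,1,2],1),([2,2,2,1,2],1)]),(99,[([1,1,1,3,2],1),([1,1,2,2,2],1),([1,2,1,2,2],1),([2,2,1,2,2],1)]),(139,[([1,2,1,2,2],1),([1,2,1,3,1],1),([1,2,2,2,1],1),([2,2,2,2,1],1)]),(140,[([1,2,1,1,3],1),([1,2,1,2,2],1),([1,2,2,1,2],1),([2,2,2,1,2],1)]),(153,[([0,2,1,2,2],1),([1,2,2,2,1],2),([1,3,1,2,1],1)]),(156,[([2,1,1,2,3],1),([3,1,2,2,2],2),([3,2,1,2,2],1)]),(161,[([1,2,1,2,2],1),([1,2,2,1,2],2),([1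,3,1,1,2],1)]),(163,[([2,1,1,3,2],1),([2,1,2,2,2],2),([2,2,1,2,2],1)]),(202,[([1,2,2,1,2],1),([1,2,2,2,1],2),([1,2,3,1,1],1)]),(204,[([2,2,1,1,3],1),([2,2,1,2,2],2),([2,2,2,1,2],1)]),(209,[([0,2,2,1,2],1),([0,2,2,2,1],2),([1,3,2,1,1],1)]),(212,[([2,1,2,1,3],1),([2,1,2,2,2],2),([3,2,2,1,2],1)]),(225,[([1,2,1,2,2],1),([2,2,1,2,2],1),([2,2,2,1,2],1),([2,3,1,1,2],1)]),(226,[([1,1,2,2,2],1),([2,1,2,2,2],1),([2,1,3,1,2],1),([2,2,2,1,2],1)]),(266,[([1,2,2,1,2],1),([2,2,2,1,2],1),([2,2,2,2,1],1),([2,2,3,1,1],1)]),(267,[([1,2,1,2,2],1),([2,2,1,2,2],1),([2,2,1,3,1],1),([2,2,2,2,1],1)]),(273,[([0,2,2,1,2],1),([1,2,2,1,2],1),([1,2,2,2,1],1),([2,3,2,1,1],1)]),(275,[([1,1,2,2,2],1),([2,1,2,2,2],1),([2,1,2,3,1],1),([3,2,2,2,1],1)]),(281,[([0,2,1,2,2],1),([1,2,1,2,2],1),([2,2,2,2,1],1),([2,3,1,2,1],1)]),(282,[([0,1,2,2,2],1),([1,1,2,2,2],1),([2,1,3,2,1],1),([2,2,2,2,1],1)])]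

def g3_19 : Gen := [(83,[([2,1,2,2,2],1),([2,2,1,2,2],1),([3,2,2,2,1],1),([4,2,2,2,1],1)]),(84,[([3,1,2,2,2],1),([3,2,1,2,2],1),([3,2,2,1,2],1),([4,2,2,1,2],1)]),(90,[([1,1,2,2,2],1),([2,2,2,1,2],1),([2,2,2,2,1],1),([3,2,2,2,1],1)]),(92,[([4,1,2,2,2],1),([4,2,1,2,2],2),([4,2,2,1,2],1)]),(98,[([2,1,2,2,2],1),([3,2,2,1,2],2),([3,2,2,2,1],1)]),(99,[([3,1,2,2,2],1),([3,2,1,2,2],2),([4,2,2,2,1],1)]),(139,[([1,1,2,2,2],1),([1,2,1,2,2],1),([2,2,2,2,1],1),([3,2,2,2,1],1)]),(140,[([2,1,2,2,2],1),([2,2,1,2,2],1),([2,2,2,1,2],1),([3,2,2,1,2],1)]),(153,[([1,2,1,2,2],1),([1,2,2,1,2],1),([1,2,2,2,1],1),([2,2,2,2,1],1)]),(156,[([4,1,2,2,2],1),([5,1,2,2,2],1),([5,2,1,2,2],1),([5,2,2,1,2],1)]),(161,[([2,2,1,2,2],1),([2,2,2,1,2],2),([2,2,2,2,1],1)]),(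163,[([3,1,2,2,2],1),([4,1,2,2,2],1),([4,2,1,2,2],1),([5,2,2,2,1],1)]),(202,[([0,1,2,2,2],1),([1,2,2,1,2],1),([1,2,2,2,1],1),([2,2,2,2,1],1)]),(204,[([3,1,2,2,2],1),([3,2,1,2,2],2),([3,2,2,1,2],1)]),(209,[([0,2,1,2,2],1),([0,2,2,1,2],1),([0,2,2,2,1],1),([1,2,2,2,1],1)]),(212,[([3,1,2,2,2],1),([4,1,2,2,2],1),([4,2,1,2,2],1),([4,2,2,1,2],1)]),(225,[([2,2,1,2,2],1),([3,2,1,2,2],1),([3,2,2,1,2],1),([3,2,2,2,1],1)]),(226,[([2,1,2,2,2],1),([3,1,2,2,2],1),([4,2,2,1,2],1),([4,2,2,2,1],1)]),(266,[([1,1,2,2,2],1),([2,2,2,1,2],2),([2,2,2,2,1],1)]),(267,[([2,1,2,2,2],1),([2,2,1,2,2],2),([3,2,2,2,1],1)]),(273,[([1,2,1,2,2],1),([1,2,2,1,2],2),([1,2,2,2,1],1)]),(275,[([2,1,2,2,2],1),([3,1,2,2,2],1),([3,2,1,2,2],1),([4,2,2,2,1],1)]),(281,[([1,2,1,2,2],1),([2,2,1,2,2],1),([2,2,2,1,2],1),([2,2,2,2,1],1)]),(282,[([1,1,2,2,2],1),([2,1,2,2,2],1),([3,2,2,1,2],1),([3,2,2,2,1],1)])]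

def g3_20 : Gen := [(83,[([2,1,2,2,2],1),([2,1,2,3,1],1),([2,2,1,2,2],1),([2,2,1,3,1],1),([2,2,2,2,1],1),([3,2,2,2,1],2),([4,2,2,2,1],1)]),(84,[([2,1,2,1,3],1),([2,1,2,2,2],1),([2,2,1,1,3],1),([2,2,1,2,2],1),([2,2,2,1,2],1),([3,2,2,1,2],2),([4,2,2,1,2],1)]),(90,[([1,1,2,2,2],1),([2,1,3,2,1],1),([2,2,2,1,2],1),([2,2,2,2,1],3),([2,2,3,1,1],1),([3,2,2,2,1],1)]),(92,[([2,1,1,2,3],1),([3,1,2,2,2],1),([3,2,1,1,3],1),([3,2,1,2,2],3),([3,2,2,1,2],1),([4,2,1,2,2],1)]),(98,[([2,1,2,2,2],1),([2,1,3,1,2],1),([2,2,2,1,2],2),([3,2,2,1,2],2),([3,2,2,2,1],1),([3,2,3,1,1],1)]),(99,[([2,1,1,3,2],1),([2,1,2,2,2],1),([2,2,1,2,2],2),([3,2,1,2,2],2),([3,2,1,3,1],1),([3,2,2,2,1],1)]),(139,[([1,1,2,2,2],1),([1,1,2,3,1],1),([1,2,1,2,2],1),([1,2,1,3,1],1),([1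,2,2,2,1],1),([2,2,2,2,1],2),([3,2,2,2,1],1)]),(140,[([1,1,2,1,3],1),([1,1,2,2,2],1),([1,2,1,1,3],1),([1,2,1,2,2],1),([1,2,2,1,2],1),([2,2,2,1,2],2),([3,2,2,1,2],1)]),(153,[([1,2,1,2,2],1),([1,2,2,1,2],1),([1,2,2,2,1],2),([2,2,2,2,1],2),([2,3,1,2,1],1),([2,3,2,1,1],1)]),(156,[([3,1,1,2,3],1),([3,1,2,1,3],1),([3,1,2,2,2],2),([4,1,2,2,2],2),([4,2,1,2,2],1),([4,2,2,1,2],1)]),(161,[([1,2,2,1,2],1),([2,2,1,2,2],1),([2,2,2,1,2],3),([2,2,2,2,1],1),([2,3,1,1,2],1),([3,3,2,1,1],1)]),(163,[([2,1,2,2,2],1),([3,1,1,3,2],1),([3,1,2,2,2],3),([3,1,2,3,1],1),([3,2,1,2,2],1),([4,2,2,2,1],1)]),(202,[([0,1,2,2,2],1),([1,1,3,2,1],1),([1,2,2,1,2],1),([1,2,2,2,1],3),([1,2,3,1,1],1),([2,2,2,2,1],1)]),(204,[([1,1,1,2,3],1),([2,1,2,2,2],1),([2,2,1,1,3],1),([2,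2,1,2,2],3),([2,2,2,1,2],1),([3,2,1,2,2],1)]),(209,[([0,2,1,2,2],1),([0,2,2,1,2],1),([0,2,2,2,1],2),([1,2,2,2,1],2),([1,3,1,2,1],1),([1,3,2,1,1],1)]),(212,[([2,1,1,2,3],1),([2,1,2,1,3],1),([2,1,2,2,2],2),([3,1,2,2,2],2),([3,2,1,2,2],1),([3,2,2,1,2],1)]),(225,[([1,2,1,2,2],1),([2,2,1,2,2],2),([3,2,1,2,2],1),([3,2,2,1,2],1),([3,2,2,2,1],1),([3,3,1,1,2],1),([3,3,1,2,1],1)]),(226,[([1,1,2,2,2],1),([2,1,2,2,2],2),([3,1,2,2,2],1),([3,1,3,1,2],1),([3,1,3,2,1],1),([3,2,2,1,2],1),([3,2,2,2,1],1)]),(266,[([1,1,2,2,2],1),([1,1,3,1,2],1),([1,2,2,1,2],2),([2,2,2,1,2],2),([2,2,2,2,1],1),([2,2,3,1,1],1)]),(267,[([1,1,1,3,2],1),([1,1,2,2,2],1),([1,2,1,2,2],2),([2,2,1,2,2],2),([2,2,1,3,1],1),([2,2,2,2,1],1)]),(273,[([0,2,2,1,2],1),([1,2,1,2,2],1),([1,2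,2,1,2],3),([1,2,2,2,1],1),([1,3,1,1,2],1),([2,3,2,1,1],1)]),(275,[([1,1,2,2,2],1),([2,1,1,3,2],1),([2,1,2,2,2],3),([2,1,2,3,1],1),([2,2,1,2,2],1),([3,2,2,2,1],1)]),(281,[([0,2,1,2,2],1),([1,2,1,2,2],2),([2,2,1,2,2],1),([2,2,2,1,2],1),([2,2,2,2,1],1),([2,3,1,1,2],1),([2,3,1,2,1],1)]),(282,[([0,1,2,2,2],1),([1,1,2,2,2],2),([2,1,2,2,2],1),([2,1,3,1,2],1),([2,1,3,2,1],1),([2,2,2,1,2],1),([2,2,2,2,1],1)])]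

def g3_21 : Gen := [(83,[([2,1,2,2,2],1),([2,2,1,2,2],1),([3,2,2,2,1],1)]),(84,[([3,1,2,2,2],1),([3,2,1,2,2],1),([3,2,2,1,2],1)]),(90,[([1,1,2,2,2],1),([2,2,2,1,2],1),([2,2,2,2,1],1)]),(92,[([4,1,2,2,2],1),([4,2,1,2,2],1),([4,2,2,1,2],1)]),(98,[([2,1,2,2,2],1),([3,2,2,1,2],1),([3,2,2,2,1],1)]),(99,[([3,1,2,2,2],1),([3,2,1,2,2],1),([4,2,2,2,1],1)]),(139,[([1,1,2,2,2],1),([1,2,1,2,2],1),([2,2,2,2,1],1)]),(140,[([2,1,2,2,2],1),([2,2,1,2,2],1),([2,2,2,1,2],1)]),(153,[([1,2,1,2,2],1),([1,2,2,1,2],1),([1,2,2,2,1],1)]),(156,[([5,1,2,2,2],1),([5,2,1,2,2],1),([5,2,2,1,2],1)]),(161,[([2,2,1,2,2],1),([2,2,2,1,2],1),([2,2,2,2,1],1)]),(163,[([4,1,2,2,2],1),([4,2,1,2,2],1),([5,2,2,2,1],1)]),(202,[([0,1,2,2,2],1),([1,2,2,1,2],1),([1,2,2,2,1],1)]),(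204,[([3,1,2,2,2],1),([3,2,1,2,2],1),([3,2,2,1,2],1)]),(209,[([0,2,1,2,2],1),([0,2,2,1,2],1),([0,2,2,2,1],1)]),(212,[([4,1,2,2,2],1),([4,2,1,2,2],1),([4,2,2,1,2],1)]),(225,[([3,2,1,2,2],1),([3,2,2,1,2],1),([3,2,2,2,1],1)]),(226,[([3,1,2,2,2],1),([4,2,2,1,2],1),([4,2,2,2,1],1)]),(266,[([1,1,2,2,2],1),([2,2,2,1,2],1),([2,2,2,2,1],1)]),(267,[([2,1,2,2,2],1),([2,2,1,2,2],1),([3,2,2,2,1],1)]),(273,[([1,2,1,2,2],1),([1,2,2,1,2],1),([1,2,2,2,1],1)]),(275,[([3,1,2,2,2],1),([3,2,1,2,2],1),([4,2,2,2,1],1)]),(281,[([2,2,1,2,2],1),([2,2,2,1,2],1),([2,2,2,2,1],1)]),(282,[([2,1,2,2,2],1),([3,2,2,1,2],1),([3,2,2,2,1],1)])]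

def g3_22 : Gen := [(83,[([2,1,2,2,2],1),([2,1,2,3,1],1),([2,2,1,2,2],1),([2,2,1,3,1],1),([2,2,2,2,1],1),([3,2,2,2,1],1)]),(84,[([2,1,2,1,3],1),([2,1,2,2,2],1),([2,2,1,1,3],1),([2,2,1,2,2],1),([2,2,2,1,2],1),([3,2,2,1,2],1)]),(90,[([1,1,2,2,2],1),([2,1,3,2,1],1),([2,2,2,1,2],1),([2,2,2,2,1],2),([2,2,3,1,1],1)]),(92,[([2,1,1,2,3],1),([3,1,2,2,2],1),([3,2,1,1,3],1),([3,2,1,2,2],2),([3,2,2,1,2],1)]),(98,[([2,1,2,2,2],1),([2,1,3,1,2],1),([2,2,2,1,2],1),([3,2,2,1,2],1),([3,2,2,2,1],1),([3,2,3,1,1],1)]),(99,[([2,1,1,3,2],1),([2,1,2,2,2],1),([2,2,1,2,2],1),([3,2,1,2,2],1),([3,2,1,3,1],1),([3,2,2,2,1],1)]),(139,[([1,1,2,2,2],1),([1,1,2,3,1],1),([1,2,1,2,2],1),([1,2,1,3,1],1),([1,2,2,2,1],1),([2,2,2,2,1],1)]),(140,[([1,1,2,1,3],1),([1,1,2,2,2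],1),([1,2,1,1,3],1),([1,2,1,2,2],1),([1,2,2,1,2],1),([2,2,2,1,2],1)]),(153,[([1,2,1,2,2],1),([1,2,2,1,2],1),([1,2,2,2,1],1),([2,2,2,2,1],1),([2,3,1,2,1],1),([2,3,2,1,1],1)]),(156,[([3,1,1,2,3],1),([3,1,2,1,3],1),([3,1,2,2,2],1),([4,1,2,2,2],1),([4,2,1,2,2],1),([4,2,2,1,2],1)]),(161,[([2,2,1,2,2],1),([2,2,2,1,2],2),([2,2,2,2,1],1),([2,3,1,1,2],1),([3,3,2,1,1],1)]),(163,[([3,1,1,3,2],1),([3,1,2,2,2],2),([3,1,2,3,1],1),([3,2,1,2,2],1),([4,2,2,2,1],1)]),(202,[([0,1,2,2,2],1),([1,1,3,2,1],1),([1,2,2,1,2],1),([1,2,2,2,1],2),([1,2,3,1,1],1)]),(204,[([1,1,1,2,3],1),([2,1,2,2,2],1),([2,2,1,1,3],1),([2,2,1,2,2],2),([2,2,2,1,2],1)]),(209,[([0,2,1,2,2],1),([0,2,2,1,2],1),([0,2,2,2,1],1),([1,2,2,2,1],1),([1,3,1,2,1],1),([1,3,2,1,1],1)]),(212,[([2,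1,1,2,3],1),([2,1,2,1,3],1),([2,1,2,2,2],1),([3,1,2,2,2],1),([3,2,1,2,2],1),([3,2,2,1,2],1)]),(225,[([2,2,1,2,2],1),([3,2,1,2,2],1),([3,2,2,1,2],1),([3,2,2,2,1],1),([3,3,1,1,2],1),([3,3,1,2,1],1)]),(226,[([2,1,2,2,2],1),([3,1,2,2,2],1),([3,1,3,1,2],1),([3,1,3,2,1],1),([3,2,2,1,2],1),([3,2,2,2,1],1)]),(266,[([1,1,2,2,2],1),([1,1,3,1,2],1),([1,2,2,1,2],1),([2,2,2,1,2],1),([2,2,2,2,1],1),([2,2,3,1,1],1)]),(267,[([1,1,1,3,2],1),([1,1,2,2,2],1),([1,2,1,2,2],1),([2,2,1,2,2],1),([2,2,1,3,1],1),([2,2,2,2,1],1)]),(273,[([1,2,1,2,2],1),([1,2,2,1,2],2),([1,2,2,2,1],1),([1,3,1,1,2],1),([2,3,2,1,1],1)]),(275,[([2,1,1,3,2],1),([2,1,2,2,2],2),([2,1,2,3,1],1),([2,2,1,2,2],1),([3,2,2,2,1],1)]),(281,[([1,2,1,2,2],1),([2,2,1,2,2],1),([2,2,2,1,2],1),([2,2,2,2,1],1),([2,3,1,1,2],1),([2,3,1,2,1],1)]),(282,[([1,1,2,2,2],1),([2,1,2,2,2],1),([2,1,3,1,2],1),([2,1,3,2,1],1),([2,2,2,1,2],1),([2,2,2,2,1],1)])]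

def g3_23 : Gen := [(83,[([1,1,2,2,2],1),([1,1,2,3,1],1),([2,2,2,2,1],1)]),(84,[([1,1,2,1,3],1),([1,1,2,2,2],1),([2,2,2,1,2],1)]),(90,[([0,1,2,2,2],1),([1,1,3,2,1],1),([1,2,2,2,1],1)]),(92,[([1,1,1,2,3],1),([2,1,2,2,2],1),([2,2,1,2,2],1)]),(98,[([1,1,2,2,2],1),([1,1,3,1,2],1),([1,2,2,1,2],1)]),(99,[([1,1,1,3,2],1),([1,1,2,2,2],1),([1,2,1,2,2],1)]),(139,[([1,2,1,2,2],1),([1,2,1,3,1],1),([1,2,2,2,1],1)]),(140,[([1,2,1,1,3],1),([1,2,1,2,2],1),([1,2,2,1,2],1)]),(153,[([0,2,1,2,2],1),([1,2,2,2,1],1),([1,3,1,2,1],1)]),(156,[([2,1,1,2,3],1),([3,1,2,2,2],1),([3,2,1,2,2],1)]),(161,[([1,2,1,2,2],1),([1,2,2,1,2],1),([1,3,1,1,2],1)]),(163,[([2,1,1,3,2],1),([2,1,2,2,2],1),([2,2,1,2,2],1)]),(202,[([1,2,2,1,2],1),([1,2,2,2,1],1),([1,2,3,1,1],1)]),(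204,[([2,2,1,1,3],1),([2,2,1,2,2],1),([2,2,2,1,2],1)]),(209,[([0,2,2,1,2],1),([0,2,2,2,1],1),([1,3,2,1,1],1)]),(212,[([2,1,2,1,3],1),([2,1,2,2,2],1),([3,2,2,1,2],1)]),(225,[([2,2,1,2,2],1),([2,2,2,1,2],1),([2,3,1,1,2],1)]),(226,[([2,1,2,2,2],1),([2,1,3,1,2],1),([2,2,2,1,2],1)]),(266,[([2,2,2,1,2],1),([2,2,2,2,1],1),([2,2,3,1,1],1)]),(267,[([2,2,1,2,2],1),([2,2,1,3,1],1),([2,2,2,2,1],1)]),(273,[([1,2,2,1,2],1),([1,2,2,2,1],1),([2,3,2,1,1],1)]),(275,[([2,1,2,2,2],1),([2,1,2,3,1],1),([3,2,2,2,1],1)]),(281,[([1,2,1,2,2],1),([2,2,2,2,1],1),([2,3,1,2,1],1)]),(282,[([1,1,2,2,2],1),([2,1,3,2,1],1),([2,2,2,2,1],1)])]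

def g3_24 : Gen := [(83,[([2,1,2,2,2],1),([3,1,2,2,2],1),([3,1,2,3,1],1),([3,1,3,2,1],1),([3,2,1,2,2],1),([3,2,1,3,1],1),([3,2,2,1,2],1),([3,2,2,2,1],3),([3,2,3,1,1],1),([4,2,2,2,1],1)]),(84,[([3,1,2,1,3],1),([3,1,2,2,2],2),([3,1,3,1,2],1),([3,2,1,1,3],1),([3,2,1,2,2],1),([3,2,2,1,2],2),([4,2,2,1,2],2),([4,2,2,2,1],1),([4,2,3,1,1],1)]),(90,[([1,1,2,2,2],1),([2,1,2,2,2],1),([2,1,2,3,1],1),([2,1,3,2,1],1),([2,2,1,2,2],1),([2,2,1,3,1],1),([2,2,2,1,2],1),([2,2,2,2,1],3),([2,2,3,1,1],1),([3,2,2,2,1],1)]),(92,[([3,1,1,2,3],1),([3,1,1,3,2],1),([3,1,2,2,2],1),([3,2,1,2,2],1),([4,1,2,2,2],1),([4,2,1,1,3],1),([4,2,1,2,2],3),([4,2,1,3,1],1),([4,2,2,1,2],1),([4,2,2,2,1],1)]),(98,[([2,1,2,1,3],1),([2,1,2,2,2],2),([2,1,3,1,2],1),([2,2,1,1,3],1),([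2,2,1,2,2],1),([2,2,2,1,2],2),([3,2,2,1,2],2),([3,2,2,2,1],1),([3,2,3,1,1],1)]),(99,[([2,1,1,2,3],1),([2,1,1,3,2],1),([2,1,2,2,2],1),([2,2,1,2,2],1),([3,1,2,2,2],1),([3,2,1,1,3],1),([3,2,1,2,2],3),([3,2,1,3,1],1),([3,2,2,1,2],1),([3,2,2,2,1],1)]),(139,[([2,1,2,2,2],1),([2,1,2,3,1],1),([2,2,1,2,2],2),([2,2,1,3,1],1),([2,2,2,1,2],1),([2,2,2,2,1],2),([3,2,2,2,1],2),([3,3,1,2,1],1),([3,3,2,1,1],1)]),(140,[([2,1,2,1,3],1),([2,1,2,2,2],1),([2,2,1,1,3],1),([2,2,1,2,2],1),([2,2,2,1,2],1),([3,2,1,2,2],1),([3,2,2,1,2],3),([3,2,2,2,1],1),([3,3,1,1,2],1),([4,3,2,1,1],1)]),(153,[([1,1,2,2,2],1),([1,1,2,3,1],1),([1,2,1,2,2],2),([1,2,1,3,1],1),([1,2,2,1,2],1),([1,2,2,2,1],2),([2,2,2,2,1],2),([2,3,1,2,1],1),([2,3,2,1,1],1)]),(156,[([4,1,1,2,3],1),([4,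1,1,3,2],1),([4,1,2,1,3],1),([4,1,2,2,2],3),([4,1,2,3,1],1),([4,2,1,2,2],1),([5,1,2,2,2],1),([5,2,1,2,2],1),([5,2,2,1,2],1),([5,2,2,2,1],1)]),(161,[([1,1,2,1,3],1),([1,1,2,2,2],1),([1,2,1,1,3],1),([1,2,1,2,2],1),([1,2,2,1,2],1),([2,2,1,2,2],1),([2,2,2,1,2],3),([2,2,2,2,1],1),([2,3,1,1,2],1),([3,3,2,1,1],1)]),(163,[([3,1,1,2,3],1),([3,1,1,3,2],1),([3,1,2,1,3],1),([3,1,2,2,2],3),([3,1,2,3,1],1),([3,2,1,2,2],1),([4,1,2,2,2],1),([4,2,1,2,2],1),([4,2,2,1,2],1),([4,2,2,2,1],1)]),(202,[([1,1,2,2,2],1),([1,2,1,2,2],1),([1,2,2,1,2],1),([1,2,2,2,1],1),([2,1,3,2,1],1),([2,2,2,1,2],1),([2,2,2,2,1],3),([2,2,3,1,1],1),([2,3,1,2,1],1),([2,3,2,1,1],1)]),(204,[([2,1,1,2,3],1),([3,1,2,2,2],1),([3,2,1,1,3],1),([3,2,1,2,2],3),([3,2,2,1,2],1),([4,2,1,2,2],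1),([4,2,2,1,2],1),([4,2,2,2,1],1),([4,3,1,1,2],1),([4,3,1,2,1],1)]),(209,[([0,1,2,2,2],1),([0,2,1,2,2],1),([0,2,2,1,2],1),([0,2,2,2,1],1),([1,1,3,2,1],1),([1,2,2,1,2],1),([1,2,2,2,1],3),([1,2,3,1,1],1),([1,3,1,2,1],1),([1,3,2,1,1],1)]),(212,[([3,1,1,2,3],1),([3,1,2,1,3],1),([3,1,2,2,2],2),([4,1,2,2,2],2),([4,1,3,1,2],1),([4,1,3,2,1],1),([4,2,1,2,2],1),([4,2,2,1,2],2),([4,2,2,2,1],1)]),(225,[([1,1,1,2,3],1),([2,1,2,2,2],1),([2,2,1,1,3],1),([2,2,1,2,2],3),([2,2,2,1,2],1),([3,2,1,2,2],1),([3,2,2,1,2],1),([3,2,2,2,1],1),([3,3,1,1,2],1),([3,3,1,2,1],1)]),(226,[([2,1,1,2,3],1),([2,1,2,1,3],1),([2,1,2,2,2],2),([3,1,2,2,2],2),([3,1,3,1,2],1),([3,1,3,2,1],1),([3,2,1,2,2],1),([3,2,2,1,2],2),([3,2,2,2,1],1)]),(266,[([2,1,2,2,2],1),([2,1,3,1,2],1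),([2,2,1,2,2],1),([2,2,2,1,2],3),([2,2,2,2,1],1),([2,3,1,1,2],1),([3,2,2,1,2],1),([3,2,2,2,1],1),([3,2,3,1,1],1),([3,3,2,1,1],1)]),(267,[([2,1,1,3,2],1),([2,1,2,2,2],1),([2,2,1,2,2],2),([3,2,1,2,2],2),([3,2,1,3,1],1),([3,2,2,1,2],1),([3,2,2,2,1],2),([3,3,1,1,2],1),([3,3,1,2,1],1)]),(273,[([1,1,2,2,2],1),([1,1,3,1,2],1),([1,2,1,2,2],1),([1,2,2,1,2],3),([1,2,2,2,1],1),([1,3,1,1,2],1),([2,2,2,1,2],1),([2,2,2,2,1],1),([2,2,3,1,1],1),([2,3,2,1,1],1)]),(275,[([2,1,2,2,2],1),([3,1,1,3,2],1),([3,1,2,2,2],3),([3,1,2,3,1],1),([3,1,3,1,2],1),([3,1,3,2,1],1),([3,2,1,2,2],1),([3,2,2,1,2],1),([3,2,2,2,1],1),([4,2,2,2,1],1)]),(281,[([1,1,1,3,2],1),([1,1,2,2,2],1),([1,2,1,2,2],2),([2,2,1,2,2],2),([2,2,1,3,1],1),([2,2,2,1,2],1),([2,2,2,2,1],2),([2,3,1,1,2],1),([2,3,1,2,1],1)]),(282,[([1,1,2,2,2],1),([2,1,1,3,2],1),([2,1,2,2,2],3),([2,1,2,3,1],1),([2,1,3,1,2],1),([2,1,3,2,1],1),([2,2,1,2,2],1),([2,2,2,1,2],1),([2,2,2,2,1],1),([3,2,2,2,1],1)])]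

def g3_25 : Gen := [(83,[([2,1,2,3,2],1),([3,2,2,2,2],2),([3,2,2,3,1],1)]),(84,[([2,1,2,2,3],1),([3,2,2,1,3],1),([3,2,2,2,2],1),([4,2,2,2,2],1)]),(90,[([2,1,3,2,2],1),([2,2,2,2,2],2),([3,2,3,2,1],1)]),(92,[([3,1,2,2,3],1),([3,2,1,2,3],1),([4,2,2,2,2],1),([5,2,2,2,2],1)]),(98,[([3,1,3,2,2],1),([3,2,2,2,2],2),([3,2,3,1,2],1)]),(99,[([3,1,2,3,2],1),([3,2,1,3,2],1),([3,2,2,2,2],1),([4,2,2,2,2],1)]),(139,[([2,2,1,3,2],1),([2,2,2,2,2],2),([2,2,2,3,1],1)]),(140,[([2,2,1,2,3],1),([2,2,2,1,3],1),([2,2,2,2,2],1),([3,2,2,2,2],1)]),(153,[([1,2,2,2,2],1),([2,2,2,2,2],1),([2,3,1,2,2],1),([3,3,2,2,1],1)]),(156,[([4,1,2,2,3],1),([4,2,1,2,3],1),([5,2,2,2,2],1),([6,2,2,2,2],1)]),(161,[([2,2,2,2,2],1),([3,2,2,2,2],1),([3,3,1,2,2],1),([3,3,2,1,2],1)]),(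163,[([4,1,2,3,2],1),([4,2,1,3,2],1),([4,2,2,2,2],1),([5,2,2,2,2],1)]),(202,[([1,2,2,2,2],1),([2,2,2,2,2],1),([2,2,3,1,2],1),([2,2,3,2,1],1)]),(204,[([3,2,1,2,3],1),([3,2,2,1,3],1),([3,2,2,2,2],1),([4,2,2,2,2],1)]),(209,[([0,2,2,2,2],1),([1,2,2,2,2],1),([2,3,2,1,2],1),([2,3,2,2,1],1)]),(212,[([3,1,2,2,3],1),([4,2,2,1,3],1),([4,2,2,2,2],1),([5,2,2,2,2],1)]),(225,[([3,2,2,2,2],1),([4,2,2,2,2],1),([4,3,1,2,2],1),([4,3,2,1,2],1)]),(226,[([4,1,3,2,2],1),([4,2,2,2,2],2),([4,2,3,1,2],1)]),(266,[([2,2,2,2,2],1),([3,2,2,2,2],1),([3,2,3,1,2],1),([3,2,3,2,1],1)]),(267,[([3,2,1,3,2],1),([3,2,2,2,2],2),([3,2,2,3,1],1)]),(273,[([1,2,2,2,2],1),([2,2,2,2,2],1),([3,3,2,1,2],1),([3,3,2,2,1],1)]),(275,[([3,1,2,3,2],1),([4,2,2,2,2],2),([4,2,2,3,1],1)]),(281,[([2,2,2,2,2],1),([3,2,2,2,2],1),([3,3,1,2,2],1),([4,3,2,2,1],1)]),(282,[([3,1,3,2,2],1),([3,2,2,2,2],2),([4,2,3,2,1],1)])]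

def g3_26 : Gen := [(83,[([1,1,2,3,2],1),([2,1,2,3,2],1),([2,2,2,2,2],1),([2,2,2,3,1],1),([3,2,2,2,2],2),([3,2,2,3,1],2)]),(84,[([1,1,2,2,3],1),([2,1,2,2,3],1),([2,2,2,1,3],1),([2,2,2,2,2],1),([3,2,2,1,3],2),([3,2,2,2,2],2)]),(90,[([1,1,3,2,2],1),([1,2,2,2,2],1),([2,1,3,2,2],1),([2,2,2,2,2],2),([2,2,3,2,1],1),([3,2,3,2,1],2)]),(92,[([2,1,2,2,3],1),([2,2,1,2,3],1),([3,1,2,2,3],1),([3,2,1,2,3],2),([3,2,2,2,2],1),([4,2,2,2,2],2)]),(98,[([2,1,3,2,2],1),([2,2,2,2,2],1),([2,2,3,1,2],1),([3,1,3,2,2],1),([3,2,2,2,2],2),([3,2,3,1,2],2)]),(99,[([2,1,2,3,2],1),([2,2,1,3,2],1),([2,2,2,2,2],1),([3,1,2,3,2],1),([3,2,1,3,2],2),([3,2,2,2,2],2)]),(139,[([1,2,1,3,2],1),([1,2,2,2,2],1),([1,2,2,3,1],1),([2,2,1,3,2],1),([2,2,2,2,2],2),([2,2,2,3,1],2)]),(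140,[([1,2,1,2,3],1),([1,2,2,1,3],1),([1,2,2,2,2],1),([2,2,1,2,3],1),([2,2,2,1,3],2),([2,2,2,2,2],2)]),(153,[([1,2,2,2,2],2),([1,3,1,2,2],1),([2,2,2,2,2],1),([2,3,1,2,2],1),([2,3,2,2,1],1),([3,3,2,2,1],2)]),(156,[([3,1,2,2,3],2),([3,2,1,2,3],1),([4,1,2,2,3],1),([4,2,1,2,3],1),([4,2,2,2,2],1),([5,2,2,2,2],2)]),(161,[([2,2,2,2,2],2),([2,3,1,2,2],1),([2,3,2,1,2],1),([3,2,2,2,2],1),([3,3,1,2,2],1),([3,3,2,1,2],2)]),(163,[([3,1,2,3,2],2),([3,2,1,3,2],1),([3,2,2,2,2],1),([4,1,2,3,2],1),([4,2,1,3,2],1),([4,2,2,2,2],2)]),(202,[([1,2,2,2,2],2),([1,2,3,1,2],1),([1,2,3,2,1],1),([2,2,2,2,2],1),([2,2,3,1,2],1),([2,2,3,2,1],2)]),(204,[([2,2,1,2,3],2),([2,2,2,1,3],1),([2,2,2,2,2],1),([3,2,1,2,3],1),([3,2,2,1,3],1),([3,2,2,2,2],2)]),(209,[([0,2,2,2,2]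,2),([1,2,2,2,2],1),([1,3,2,1,2],1),([1,3,2,2,1],1),([2,3,2,1,2],1),([2,3,2,2,1],2)]),(212,[([2,1,2,2,3],2),([3,1,2,2,3],1),([3,2,2,1,3],1),([3,2,2,2,2],1),([4,2,2,1,3],1),([4,2,2,2,2],2)]),(225,[([3,2,2,2,2],2),([3,3,1,2,2],2),([3,3,2,1,2],1),([4,2,2,2,2],1),([4,3,1,2,2],1),([4,3,2,1,2],1)]),(226,[([3,1,3,2,2],2),([3,2,2,2,2],2),([3,2,3,1,2],1),([4,1,3,2,2],1),([4,2,2,2,2],1),([4,2,3,1,2],1)]),(266,[([2,2,2,2,2],2),([2,2,3,1,2],2),([2,2,3,2,1],1),([3,2,2,2,2],1),([3,2,3,1,2],1),([3,2,3,2,1],1)]),(267,[([2,2,1,3,2],2),([2,2,2,2,2],2),([2,2,2,3,1],1),([3,2,1,3,2],1),([3,2,2,2,2],1),([3,2,2,3,1],1)]),(273,[([1,2,2,2,2],2),([2,2,2,2,2],1),([2,3,2,1,2],2),([2,3,2,2,1],1),([3,3,2,1,2],1),([3,3,2,2,1],1)]),(275,[([2,1,2,3,2],2),([3,1,2,3,2],1),([3,2,2,2,2],2),([3,2,2,3,1],1),([4,2,2,2,2],1),([4,2,2,3,1],1)]),(281,[([2,2,2,2,2],2),([2,3,1,2,2],2),([3,2,2,2,2],1),([3,3,1,2,2],1),([3,3,2,2,1],1),([4,3,2,2,1],1)]),(282,[([2,1,3,2,2],2),([2,2,2,2,2],2),([3,1,3,2,2],1),([3,2,2,2,2],1),([3,2,3,2,1],1),([4,2,3,2,1],1)])]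

def g3_27 : Gen := [(83,[([3,1,2,3,2],1),([3,1,3,2,2],1),([3,2,2,2,2],2),([4,2,2,2,2],2),([4,2,2,3,1],1),([4,2,3,2,1],1)]),(84,[([3,1,2,2,3],1),([4,1,3,2,2],1),([4,2,2,1,3],1),([4,2,2,2,2],3),([4,2,3,1,2],1),([5,2,2,2,2],1)]),(90,[([2,1,2,3,2],1),([2,1,3,2,2],1),([2,2,2,2,2],2),([3,2,2,2,2],2),([3,2,2,3,1],1),([3,2,3,2,1],1)]),(92,[([4,1,2,2,3],1),([4,1,2,3,2],1),([4,2,1,2,3],1),([4,2,1,3,2],1),([4,2,2,2,2],1),([5,2,2,2,2],2),([6,2,2,2,2],1)]),(98,[([2,1,2,2,3],1),([3,1,3,2,2],1),([3,2,2,1,3],1),([3,2,2,2,2],3),([3,2,3,1,2],1),([4,2,2,2,2],1)]),(99,[([3,1,2,2,3],1),([3,1,2,3,2],1),([3,2,1,2,3],1),([3,2,1,3,2],1),([3,2,2,2,2],1),([4,2,2,2,2],2),([5,2,2,2,2],1)]),(139,[([2,2,2,2,2],1),([3,2,1,3,2],1),([3,2,2,2,2],3),([3,2,2,3,1],1),([3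,3,1,2,2],1),([4,3,2,2,1],1)]),(140,[([3,2,1,2,3],1),([3,2,2,1,3],1),([3,2,2,2,2],2),([4,2,2,2,2],2),([4,3,1,2,2],1),([4,3,2,1,2],1)]),(153,[([1,2,2,2,2],1),([2,2,1,3,2],1),([2,2,2,2,2],3),([2,2,2,3,1],1),([2,3,1,2,2],1),([3,3,2,2,1],1)]),(156,[([5,1,2,2,3],1),([5,1,2,3,2],1),([5,2,1,2,3],1),([5,2,1,3,2],1),([5,2,2,2,2],1),([6,2,2,2,2],2),([7,2,2,2,2],1)]),(161,[([2,2,1,2,3],1),([2,2,2,1,3],1),([2,2,2,2,2],2),([3,2,2,2,2],2),([3,3,1,2,2],1),([3,3,2,1,2],1)]),(163,[([4,1,2,2,3],1),([4,1,2,3,2],1),([4,2,1,2,3],1),([4,2,1,3,2],1),([4,2,2,2,2],1),([5,2,2,2,2],2),([6,2,2,2,2],1)]),(202,[([1,2,2,2,2],1),([2,2,2,2,2],2),([3,2,2,2,2],1),([3,2,3,1,2],1),([3,2,3,2,1],1),([3,3,2,1,2],1),([3,3,2,2,1],1)]),(204,[([4,2,1,2,3],1),([4,2,2,1,3],1),([4,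2,2,2,2],2),([5,2,2,2,2],2),([5,3,1,2,2],1),([5,3,2,1,2],1)]),(209,[([0,2,2,2,2],1),([1,2,2,2,2],2),([2,2,2,2,2],1),([2,2,3,1,2],1),([2,2,3,2,1],1),([2,3,2,1,2],1),([2,3,2,2,1],1)]),(212,[([4,1,2,2,3],1),([5,1,3,2,2],1),([5,2,2,1,3],1),([5,2,2,2,2],3),([5,2,3,1,2],1),([6,2,2,2,2],1)]),(225,[([3,2,1,2,3],1),([3,2,2,1,3],1),([3,2,2,2,2],2),([4,2,2,2,2],2),([4,3,1,2,2],1),([4,3,2,1,2],1)]),(226,[([3,1,2,2,3],1),([4,1,3,2,2],1),([4,2,2,1,3],1),([4,2,2,2,2],3),([4,2,3,1,2],1),([5,2,2,2,2],1)]),(266,[([2,2,2,2,2],1),([3,2,2,2,2],2),([4,2,2,2,2],1),([4,2,3,1,2],1),([4,2,3,2,1],1),([4,3,2,1,2],1),([4,3,2,2,1],1)]),(267,[([3,2,2,2,2],1),([4,2,1,3,2],1),([4,2,2,2,2],3),([4,2,2,3,1],1),([4,3,1,2,2],1),([5,3,2,2,1],1)]),(273,[([1,2,2,2,2],1),([2,2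,2,2,2],2),([3,2,2,2,2],1),([3,2,3,1,2],1),([3,2,3,2,1],1),([3,3,2,1,2],1),([3,3,2,2,1],1)]),(275,[([4,1,2,3,2],1),([4,1,3,2,2],1),([4,2,2,2,2],2),([5,2,2,2,2],2),([5,2,2,3,1],1),([5,2,3,2,1],1)]),(281,[([2,2,2,2,2],1),([3,2,1,3,2],1),([3,2,2,2,2],3),([3,2,2,3,1],1),([3,3,1,2,2],1),([4,3,2,2,1],1)]),(282,[([3,1,2,3,2],1),([3,1,3,2,2],1),([3,2,2,2,2],2),([4,2,2,2,2],2),([4,2,2,3,1],1),([4,2,3,2,1],1)])]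

def g3_28 : Gen := [(83,[([2,1,2,3,2],1),([3,1,2,3,2],1),([3,1,3,2,2],1),([3,1,3,3,1],1),([3,2,2,2,2],3),([3,2,2,3,1],3),([3,2,3,2,1],1),([4,2,2,2,2],2),([4,2,2,3,1],2),([4,2,3,2,1],1)]),(84,[([2,1,2,2,3],1),([3,1,2,2,3],1),([3,1,3,1,3],1),([3,1,3,2,2],1),([3,2,2,1,3],3),([3,2,2,2,2],3),([3,2,3,1,2],1),([4,2,2,1,3],2),([4,2,2,2,2],2),([4,2,3,1,2],1)]),(90,[([2,1,2,3,2],1),([2,1,3,2,2],2),([2,1,3,3,1],1),([2,2,2,2,2],3),([2,2,2,3,1],1),([2,2,3,2,1],1),([3,2,2,2,2],2),([3,2,2,3,1],1),([3,2,3,2,1],3),([4,2,3,2,1],1)]),(92,[([3,1,1,3,3],1),([3,1,2,2,3],2),([3,1,2,3,2],1),([3,2,1,2,3],3),([3,2,1,3,2],1),([3,2,2,2,2],1),([4,2,1,2,3],2),([4,2,1,3,2],1),([4,2,2,2,2],3),([5,2,2,2,2],1)]),(98,[([2,1,2,2,3],1),([2,1,3,1,3],1),([2,1,3,2,2],1),([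2,2,2,1,3],1),([2,2,2,2,2],1),([2,2,3,1,2],1),([3,1,3,2,2],1),([3,2,2,1,3],1),([3,2,2,2,2],3),([3,2,3,1,2],3),([4,2,2,2,2],1),([4,2,3,1,2],1)]),(99,[([2,1,1,3,3],1),([2,1,2,2,3],1),([2,1,2,3,2],1),([2,2,1,2,3],1),([2,2,1,3,2],1),([2,2,2,2,2],1),([3,1,2,3,2],1),([3,2,1,2,3],1),([3,2,1,3,2],3),([3,2,2,2,2],3),([4,2,1,3,2],1),([4,2,2,2,2],1)]),(139,[([2,2,1,3,2],1),([2,2,2,2,2],2),([2,2,2,3,1],2),([3,2,1,3,2],1),([3,2,2,2,2],3),([3,2,2,3,1],3),([3,3,1,2,2],1),([3,3,1,3,1],1),([3,3,2,2,1],1),([4,3,2,2,1],1)]),(140,[([2,2,1,2,3],1),([2,2,2,1,3],2),([2,2,2,2,2],2),([3,2,1,2,3],1),([3,2,2,1,3],3),([3,2,2,2,2],3),([3,3,1,1,3],1),([3,3,1,2,2],1),([3,3,2,1,2],1),([4,3,2,1,2],1)]),(153,[([1,2,2,2,2],1),([2,2,1,3,2],1),([2,2,2,2,2],4),([2,2,2,3,1]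,2),([2,3,1,2,2],2),([2,3,1,3,1],1),([2,3,2,2,1],1),([3,3,2,2,1],3),([4,3,2,2,1],1)]),(156,[([3,1,2,2,3],1),([4,1,1,3,3],1),([4,1,2,2,3],4),([4,1,2,3,2],2),([4,2,1,2,3],2),([4,2,1,3,2],1),([4,2,2,2,2],1),([5,2,2,2,2],3),([6,2,2,2,2],1)]),(161,[([2,2,1,2,3],1),([2,2,2,1,3],2),([2,2,2,2,2],3),([2,3,1,1,3],1),([2,3,1,2,2],1),([2,3,2,1,2],1),([3,2,2,2,2],2),([3,3,1,2,2],1),([3,3,2,1,2],3),([4,3,2,1,2],1)]),(163,[([3,1,1,3,3],1),([3,1,2,2,3],2),([3,1,2,3,2],3),([3,2,1,2,3],1),([3,2,1,3,2],1),([3,2,2,2,2],1),([4,1,2,3,2],2),([4,2,1,3,2],1),([4,2,2,2,2],3),([5,2,2,2,2],1)]),(202,[([1,2,2,2,2],1),([2,2,2,2,2],3),([2,2,3,1,2],1),([2,2,3,2,1],2),([3,2,2,2,2],1),([3,2,3,1,2],1),([3,2,3,2,1],3),([3,3,2,1,2],1),([3,3,2,2,1],2),([3,3,3,1,1],1)]),(20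4,[([2,2,1,2,3],1),([3,2,1,2,3],3),([3,2,2,1,3],1),([3,2,2,2,2],2),([4,2,1,2,3],1),([4,2,2,1,3],1),([4,2,2,2,2],3),([4,3,1,1,3],1),([4,3,1,2,2],2),([4,3,2,1,2],1)]),(209,[([0,2,2,2,2],1),([1,2,2,2,2],3),([2,2,2,2,2],1),([2,2,3,1,2],1),([2,2,3,2,1],2),([2,3,2,1,2],2),([2,3,2,2,1],4),([2,3,3,1,1],1),([3,3,2,2,1],1)]),(212,[([2,1,2,2,3],1),([3,1,2,2,3],3),([4,1,2,2,3],1),([4,1,3,1,3],1),([4,1,3,2,2],2),([4,2,2,1,3],2),([4,2,2,2,2],4),([4,2,3,1,2],1),([5,2,2,2,2],1)]),(225,[([2,2,1,2,3],1),([3,2,1,2,3],1),([3,2,2,1,3],1),([3,2,2,2,2],3),([3,3,1,1,3],1),([3,3,1,2,2],3),([3,3,2,1,2],1),([4,2,2,2,2],2),([4,3,1,2,2],2),([4,3,2,1,2],1)]),(226,[([2,1,2,2,3],1),([3,1,2,2,3],1),([3,1,3,1,3],1),([3,1,3,2,2],3),([3,2,2,1,3],1),([3,2,2,2,2],3),([3,2,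3,1,2],1),([4,1,3,2,2],2),([4,2,2,2,2],2),([4,2,3,1,2],1)]),(266,[([2,2,2,2,2],1),([2,2,3,1,2],1),([3,2,2,2,2],3),([3,2,3,1,2],3),([3,2,3,2,1],1),([3,3,2,1,2],1),([4,2,2,2,2],1),([4,2,3,1,2],1),([4,2,3,2,1],1),([4,3,2,1,2],1),([4,3,2,2,1],1),([4,3,3,1,1],1)]),(267,[([2,2,1,3,2],1),([2,2,2,2,2],1),([3,2,1,3,2],3),([3,2,2,2,2],3),([3,2,2,3,1],1),([3,3,1,2,2],1),([4,2,1,3,2],1),([4,2,2,2,2],1),([4,2,2,3,1],1),([4,3,1,2,2],1),([4,3,1,3,1],1),([4,3,2,2,1],1)]),(273,[([1,2,2,2,2],1),([2,2,2,2,2],3),([2,2,3,1,2],1),([2,3,2,1,2],2),([3,2,2,2,2],1),([3,2,3,1,2],1),([3,2,3,2,1],1),([3,3,2,1,2],3),([3,3,2,2,1],2),([3,3,3,1,1],1)]),(275,[([2,1,2,3,2],1),([3,1,2,3,2],3),([3,1,3,2,2],1),([3,2,2,2,2],2),([4,1,2,3,2],1),([4,1,3,2,2],1),([4,1,3,3,1],1)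,([4,2,2,2,2],3),([4,2,2,3,1],2),([4,2,3,2,1],1)]),(281,[([2,2,1,3,2],1),([2,2,2,2,2],2),([2,3,1,2,2],2),([3,2,1,3,2],1),([3,2,2,2,2],3),([3,2,2,3,1],1),([3,3,1,2,2],3),([3,3,1,3,1],1),([3,3,2,2,1],1),([4,3,2,2,1],1)]),(282,[([2,1,2,3,2],1),([2,1,3,2,2],2),([2,2,2,2,2],2),([3,1,2,3,2],1),([3,1,3,2,2],3),([3,1,3,3,1],1),([3,2,2,2,2],3),([3,2,2,3,1],1),([3,2,3,2,1],1),([4,2,3,2,1],1)])]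

def g3_29 : Gen := [(83,[([1,1,2,3,2],1),([2,2,2,2,2],1),([2,2,2,3,1],1)]),(84,[([1,1,2,2,3],1),([2,2,2,1,3],1),([2,2,2,2,2],1)]),(90,[([1,1,3,2,2],1),([1,2,2,2,2],1),([2,2,3,2,1],1)]),(92,[([2,1,2,2,3],1),([2,2,1,2,3],1),([3,2,2,2,2],1)]),(98,[([2,1,3,2,2],1),([2,2,2,2,2],1),([2,2,3,1,2],1)]),(99,[([2,1,2,3,2],1),([2,2,1,3,2],1),([2,2,2,2,2],1)]),(139,[([1,2,1,3,2],1),([1,2,2,2,2],1),([1,2,2,3,1],1)]),(140,[([1,2,1,2,3],1),([1,2,2,1,3],1),([1,2,2,2,2],1)]),(153,[([1,2,2,2,2],1),([1,3,1,2,2],1),([2,3,2,2,1],1)]),(156,[([3,1,2,2,3],1),([3,2,1,2,3],1),([4,2,2,2,2],1)]),(161,[([2,2,2,2,2],1),([2,3,1,2,2],1),([2,3,2,1,2],1)]),(163,[([3,1,2,3,2],1),([3,2,1,3,2],1),([3,2,2,2,2],1)]),(202,[([1,2,2,2,2],1),([1,2,3,1,2],1),([1,2,3,2,1],1)]),(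204,[([2,2,1,2,3],1),([2,2,2,1,3],1),([2,2,2,2,2],1)]),(209,[([0,2,2,2,2],1),([1,3,2,1,2],1),([1,3,2,2,1],1)]),(212,[([2,1,2,2,3],1),([3,2,2,1,3],1),([3,2,2,2,2],1)]),(225,[([3,2,2,2,2],1),([3,3,1,2,2],1),([3,3,2,1,2],1)]),(226,[([3,1,3,2,2],1),([3,2,2,2,2],1),([3,2,3,1,2],1)]),(266,[([2,2,2,2,2],1),([2,2,3,1,2],1),([2,2,3,2,1],1)]),(267,[([2,2,1,3,2],1),([2,2,2,2,2],1),([2,2,2,3,1],1)]),(273,[([1,2,2,2,2],1),([2,3,2,1,2],1),([2,3,2,2,1],1)]),(275,[([2,1,2,3,2],1),([3,2,2,2,2],1),([3,2,2,3,1],1)]),(281,[([2,2,2,2,2],1),([2,3,1,2,2],1),([3,3,2,2,1],1)]),(282,[([2,1,3,2,2],1),([2,2,2,2,2],1),([3,2,3,2,1],1)])]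

def g3_30 : Gen := [(83,[([2,1,2,3,2],1),([2,1,3,2,2],1),([2,2,2,2,2],1),([3,2,2,2,2],1),([3,2,2,3,1],1),([3,2,3,2,1],1)]),(84,[([2,1,2,2,3],1),([3,1,3,2,2],1),([3,2,2,1,3],1),([3,2,2,2,2],2),([3,2,3,1,2],1)]),(90,[([1,1,2,3,2],1),([1,1,3,2,2],1),([1,2,2,2,2],1),([2,2,2,2,2],1),([2,2,2,3,1],1),([2,2,3,2,1],1)]),(92,[([3,1,2,2,3],1),([3,1,2,3,2],1),([3,2,1,2,3],1),([3,2,1,3,2],1),([3,2,2,2,2],1),([4,2,2,2,2],1)]),(98,[([1,1,2,2,3],1),([2,1,3,2,2],1),([2,2,2,1,3],1),([2,2,2,2,2],2),([2,2,3,1,2],1)]),(99,[([2,1,2,2,3],1),([2,1,2,3,2],1),([2,2,1,2,3],1),([2,2,1,3,2],1),([2,2,2,2,2],1),([3,2,2,2,2],1)]),(139,[([2,2,1,3,2],1),([2,2,2,2,2],2),([2,2,2,3,1],1),([2,3,1,2,2],1),([3,3,2,2,1],1)]),(140,[([2,2,1,2,3],1),([2,2,2,1,3],1),([2,2,2,2,2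],1),([3,2,2,2,2],1),([3,3,1,2,2],1),([3,3,2,1,2],1)]),(153,[([1,2,1,3,2],1),([1,2,2,2,2],2),([1,2,2,3,1],1),([1,3,1,2,2],1),([2,3,2,2,1],1)]),(156,[([4,1,2,2,3],1),([4,1,2,3,2],1),([4,2,1,2,3],1),([4,2,1,3,2],1),([4,2,2,2,2],1),([5,2,2,2,2],1)]),(161,[([1,2,1,2,3],1),([1,2,2,1,3],1),([1,2,2,2,2],1),([2,2,2,2,2],1),([2,3,1,2,2],1),([2,3,2,1,2],1)]),(163,[([3,1,2,2,3],1),([3,1,2,3,2],1),([3,2,1,2,3],1),([3,2,1,3,2],1),([3,2,2,2,2],1),([4,2,2,2,2],1)]),(202,[([1,2,2,2,2],1),([2,2,2,2,2],1),([2,2,3,1,2],1),([2,2,3,2,1],1),([2,3,2,1,2],1),([2,3,2,2,1],1)]),(204,[([3,2,1,2,3],1),([3,2,2,1,3],1),([3,2,2,2,2],1),([4,2,2,2,2],1),([4,3,1,2,2],1),([4,3,2,1,2],1)]),(209,[([0,2,2,2,2],1),([1,2,2,2,2],1),([1,2,3,1,2],1),([1,2,3,2,1],1),([1,3,2,1,2]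,1),([1,3,2,2,1],1)]),(212,[([3,1,2,2,3],1),([4,1,3,2,2],1),([4,2,2,1,3],1),([4,2,2,2,2],2),([4,2,3,1,2],1)]),(225,[([2,2,1,2,3],1),([2,2,2,1,3],1),([2,2,2,2,2],1),([3,2,2,2,2],1),([3,3,1,2,2],1),([3,3,2,1,2],1)]),(226,[([2,1,2,2,3],1),([3,1,3,2,2],1),([3,2,2,1,3],1),([3,2,2,2,2],2),([3,2,3,1,2],1)]),(266,[([2,2,2,2,2],1),([3,2,2,2,2],1),([3,2,3,1,2],1),([3,2,3,2,1],1),([3,3,2,1,2],1),([3,3,2,2,1],1)]),(267,[([3,2,1,3,2],1),([3,2,2,2,2],2),([3,2,2,3,1],1),([3,3,1,2,2],1),([4,3,2,2,1],1)]),(273,[([1,2,2,2,2],1),([2,2,2,2,2],1),([2,2,3,1,2],1),([2,2,3,2,1],1),([2,3,2,1,2],1),([2,3,2,2,1],1)]),(275,[([3,1,2,3,2],1),([3,1,3,2,2],1),([3,2,2,2,2],1),([4,2,2,2,2],1),([4,2,2,3,1],1),([4,2,3,2,1],1)]),(281,[([2,2,1,3,2],1),([2,2,2,2,2],2),([2,2,2,3,1],1),([2,3,1,2,2],1),([3,3,2,2,1],1)]),(282,[([2,1,2,3,2],1),([2,1,3,2,2],1),([2,2,2,2,2],1),([3,2,2,2,2],1),([3,2,2,3,1],1),([3,2,3,2,1],1)])]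

def g3_31 : Gen := [(83,[([3,1,2,3,2],1),([3,1,3,2,2],1),([3,2,1,3,2],1),([3,2,2,2,2],3),([3,2,2,3,1],1),([3,3,1,2,2],1),([4,2,2,2,2],1),([4,2,2,3,1],1),([4,2,3,2,1],1),([4,3,2,2,1],1)]),(84,[([3,1,2,2,3],1),([3,2,1,2,3],1),([3,2,2,1,3],1),([3,2,2,2,2],1),([4,1,3,2,2],1),([4,2,2,1,3],1),([4,2,2,2,2],3),([4,2,3,1,2],1),([4,3,1,2,2],1),([4,3,2,1,2],1)]),(90,[([2,1,2,3,2],1),([2,1,3,2,2],1),([2,2,2,2,2],2),([3,2,2,2,2],2),([3,2,2,3,1],1),([3,2,3,1,2],1),([3,2,3,2,1],2),([3,3,2,1,2],1),([3,3,2,2,1],1)]),(92,[([4,1,2,2,3],1),([4,1,2,3,2],1),([4,2,1,2,3],2),([4,2,1,3,2],1),([4,2,2,1,3],1),([4,2,2,2,2],2),([5,2,2,2,2],2),([5,3,1,2,2],1),([5,3,2,1,2],1)]),(98,[([2,1,2,2,3],1),([3,1,3,2,2],1),([3,2,2,1,3],1),([3,2,2,2,2],3),([3,2,3,1,2],1),([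4,2,2,2,2],1),([4,2,3,1,2],1),([4,2,3,2,1],1),([4,3,2,1,2],1),([4,3,2,2,1],1)]),(99,[([3,1,2,2,3],1),([3,1,2,3,2],1),([3,2,1,2,3],1),([3,2,1,3,2],1),([3,2,2,2,2],1),([4,2,1,3,2],1),([4,2,2,2,2],3),([4,2,2,3,1],1),([4,3,1,2,2],1),([5,3,2,2,1],1)]),(139,[([2,1,2,3,2],1),([2,1,3,2,2],1),([2,2,1,3,2],1),([2,2,2,2,2],3),([2,2,2,3,1],1),([2,3,1,2,2],1),([3,2,2,2,2],1),([3,2,2,3,1],1),([3,2,3,2,1],1),([3,3,2,2,1],1)]),(140,[([2,1,2,2,3],1),([2,2,1,2,3],1),([2,2,2,1,3],1),([2,2,2,2,2],1),([3,1,3,2,2],1),([3,2,2,1,3],1),([3,2,2,2,2],3),([3,2,3,1,2],1),([3,3,1,2,2],1),([3,3,2,1,2],1)]),(153,[([1,2,2,2,2],1),([2,2,1,3,2],1),([2,2,2,2,2],3),([2,2,2,3,1],1),([2,2,3,1,2],1),([2,2,3,2,1],1),([2,3,1,2,2],1),([2,3,2,1,2],1),([2,3,2,2,1],1),([3,3,2,2,1]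,1)]),(156,[([4,1,2,2,3],1),([5,1,2,2,3],1),([5,1,2,3,2],1),([5,1,3,2,2],1),([5,2,1,2,3],1),([5,2,1,3,2],1),([5,2,2,1,3],1),([5,2,2,2,2],3),([5,2,3,1,2],1),([6,2,2,2,2],1)]),(161,[([2,2,1,2,3],1),([2,2,2,1,3],1),([2,2,2,2,2],2),([3,2,2,2,2],2),([3,2,3,1,2],1),([3,2,3,2,1],1),([3,3,1,2,2],1),([3,3,2,1,2],2),([3,3,2,2,1],1)]),(163,[([4,1,2,2,3],1),([4,1,2,3,2],2),([4,1,3,2,2],1),([4,2,1,2,3],1),([4,2,1,3,2],1),([4,2,2,2,2],2),([5,2,2,2,2],2),([5,2,2,3,1],1),([5,2,3,2,1],1)]),(202,[([1,1,2,3,2],1),([1,1,3,2,2],1),([1,2,2,2,2],2),([2,2,2,2,2],2),([2,2,2,3,1],1),([2,2,3,1,2],1),([2,2,3,2,1],2),([2,3,2,1,2],1),([2,3,2,2,1],1)]),(204,[([3,1,2,2,3],1),([3,1,2,3,2],1),([3,2,1,2,3],2),([3,2,1,3,2],1),([3,2,2,1,3],1),([3,2,2,2,2],2),([4,2,2,2,2],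2),([4,3,1,2,2],1),([4,3,2,1,2],1)]),(209,[([0,2,2,2,2],1),([1,2,1,3,2],1),([1,2,2,2,2],3),([1,2,2,3,1],1),([1,2,3,1,2],1),([1,2,3,2,1],1),([1,3,1,2,2],1),([1,3,2,1,2],1),([1,3,2,2,1],1),([2,3,2,2,1],1)]),(212,[([3,1,2,2,3],1),([4,1,2,2,3],1),([4,1,2,3,2],1),([4,1,3,2,2],1),([4,2,1,2,3],1),([4,2,1,3,2],1),([4,2,2,1,3],1),([4,2,2,2,2],3),([4,2,3,1,2],1),([5,2,2,2,2],1)]),(225,[([3,2,1,2,3],1),([3,2,1,3,2],1),([3,2,2,1,3],1),([3,2,2,2,2],3),([3,2,2,3,1],1),([3,3,1,2,2],1),([4,2,2,2,2],1),([4,3,1,2,2],1),([4,3,2,1,2],1),([4,3,2,2,1],1)]),(226,[([3,1,2,2,3],1),([3,1,2,3,2],1),([3,1,3,2,2],1),([3,2,2,2,2],1),([4,1,3,2,2],1),([4,2,2,1,3],1),([4,2,2,2,2],3),([4,2,2,3,1],1),([4,2,3,1,2],1),([4,2,3,2,1],1)]),(266,[([1,1,2,2,3],1),([2,1,3,2,2],1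),([2,2,2,1,3],1),([2,2,2,2,2],3),([2,2,3,1,2],1),([3,2,2,2,2],1),([3,2,3,1,2],1),([3,2,3,2,1],1),([3,3,2,1,2],1),([3,3,2,2,1],1)]),(267,[([2,1,2,2,3],1),([2,1,2,3,2],1),([2,2,1,2,3],1),([2,2,1,3,2],1),([2,2,2,2,2],1),([3,2,1,3,2],1),([3,2,2,2,2],3),([3,2,2,3,1],1),([3,3,1,2,2],1),([4,3,2,2,1],1)]),(273,[([1,2,1,2,3],1),([1,2,2,1,3],1),([1,2,2,2,2],2),([2,2,2,2,2],2),([2,2,3,1,2],1),([2,2,3,2,1],1),([2,3,1,2,2],1),([2,3,2,1,2],2),([2,3,2,2,1],1)]),(275,[([3,1,2,2,3],1),([3,1,2,3,2],2),([3,1,3,2,2],1),([3,2,1,2,3],1),([3,2,1,3,2],1),([3,2,2,2,2],2),([4,2,2,2,2],2),([4,2,2,3,1],1),([4,2,3,2,1],1)]),(281,[([2,2,1,2,3],1),([2,2,1,3,2],1),([2,2,2,1,3],1),([2,2,2,2,2],3),([2,2,2,3,1],1),([2,3,1,2,2],1),([3,2,2,2,2],1),([3,3,1,2,2],1),([3,3,2,1,2],1),([3,3,2,2,1],1)]),(282,[([2,1,2,2,3],1),([2,1,2,3,2],1),([2,1,3,2,2],1),([2,2,2,2,2],1),([3,1,3,2,2],1),([3,2,2,1,3],1),([3,2,2,2,2],3),([3,2,2,3,1],1),([3,2,3,1,2],1),([3,2,3,2,1],1)])]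

def g3_32 : Gen := [(83,[([1,1,2,3,3],1),([2,1,3,3,2],1),([2,2,2,2,3],1),([2,2,2,3,2],3),([2,2,3,2,2],1),([3,2,2,3,2],1),([3,2,3,2,2],1),([3,2,3,3,1],1),([3,3,2,2,2],1),([3,3,2,3,1],1)]),(84,[([2,1,2,3,3],1),([2,1,3,2,3],1),([2,2,2,2,3],2),([3,2,2,2,3],2),([3,2,2,3,2],1),([3,2,3,1,3],1),([3,2,3,2,2],2),([3,3,2,1,3],1),([3,3,2,2,2],1)]),(90,[([1,1,3,2,3],1),([1,1,3,3,2],1),([1,2,2,2,3],1),([1,2,2,3,2],1),([1,2,3,2,2],1),([2,2,2,3,2],1),([2,2,3,2,2],3),([2,2,3,3,1],1),([2,3,2,2,2],1),([3,3,3,2,1],1)]),(92,[([3,1,2,3,3],1),([3,1,3,2,3],1),([3,2,1,3,3],1),([3,2,2,2,3],3),([3,2,2,3,2],1),([3,3,1,2,3],1),([4,2,2,2,3],1),([4,2,2,3,2],1),([4,2,3,2,2],1),([4,3,2,2,2],1)]),(98,[([2,1,3,2,3],1),([2,1,3,3,2],1),([2,2,2,2,3],2),([2,2,2,3,2],1),([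2,2,3,1,3],1),([2,2,3,2,2],2),([3,2,3,2,2],2),([3,3,2,2,2],1),([3,3,3,1,2],1)]),(99,[([2,1,2,3,3],1),([2,2,1,3,3],1),([2,2,2,2,3],1),([2,2,2,3,2],1),([3,1,3,3,2],1),([3,2,2,2,3],1),([3,2,2,3,2],3),([3,2,3,2,2],1),([3,3,1,3,2],1),([3,3,2,2,2],1)]),(139,[([1,2,1,3,3],1),([1,2,2,2,3],1),([1,2,2,3,2],2),([2,2,2,3,2],2),([2,2,3,2,2],1),([2,2,3,3,1],1),([2,3,1,3,2],1),([2,3,2,2,2],2),([2,3,2,3,1],1)]),(140,[([1,2,2,2,3],1),([2,2,1,3,3],1),([2,2,2,2,3],3),([2,2,2,3,2],1),([2,2,3,1,3],1),([2,2,3,2,2],1),([2,3,1,2,3],1),([2,3,2,1,3],1),([2,3,2,2,2],1),([3,3,2,2,2],1)]),(153,[([1,2,2,2,3],1),([1,2,2,3,2],2),([1,2,3,2,2],1),([1,3,1,2,3],1),([1,3,1,3,2],1),([1,3,2,2,2],2),([2,3,2,2,2],2),([2,3,2,3,1],1),([2,3,3,2,1],1)]),(156,[([4,1,2,3,3],1),([4,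1,3,2,3],1),([4,2,1,3,3],1),([4,2,2,2,3],3),([4,2,2,3,2],1),([4,3,1,2,3],1),([5,2,2,2,3],1),([5,2,2,3,2],1),([5,2,3,2,2],1),([5,3,2,2,2],1)]),(161,[([1,2,2,2,3],1),([2,2,2,2,3],1),([2,2,2,3,2],1),([2,2,3,2,2],1),([2,3,1,2,3],1),([2,3,1,3,2],1),([2,3,2,1,3],1),([2,3,2,2,2],3),([2,3,3,1,2],1),([3,3,2,2,2],1)]),(163,[([3,1,2,3,3],1),([3,2,1,3,3],1),([3,2,2,2,3],1),([3,2,2,3,2],1),([4,1,3,3,2],1),([4,2,2,2,3],1),([4,2,2,3,2],3),([4,2,3,2,2],1),([4,3,1,3,2],1),([4,3,2,2,2],1)]),(202,[([1,2,2,2,3],1),([1,2,2,3,2],1),([1,2,3,1,3],1),([1,2,3,2,2],3),([1,2,3,3,1],1),([1,3,2,2,2],1),([2,2,3,2,2],1),([2,3,2,2,2],1),([2,3,3,1,2],1),([2,3,3,2,1],1)]),(204,[([2,2,2,2,3],1),([3,2,1,3,3],1),([3,2,2,2,3],3),([3,2,2,3,2],1),([3,2,3,1,3],1),([3,2,3,2,2],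1),([3,3,1,2,3],1),([3,3,2,1,3],1),([3,3,2,2,2],1),([4,3,2,2,2],1)]),(209,[([0,2,2,2,3],1),([0,2,2,3,2],1),([0,2,3,2,2],1),([0,3,2,2,2],1),([1,2,3,2,2],1),([1,3,2,1,3],1),([1,3,2,2,2],3),([1,3,2,3,1],1),([1,3,3,1,2],1),([1,3,3,2,1],1)]),(212,[([3,1,2,3,3],1),([3,1,3,2,3],1),([3,2,2,2,3],2),([4,2,2,2,3],2),([4,2,2,3,2],1),([4,2,3,1,3],1),([4,2,3,2,2],2),([4,3,2,1,3],1),([4,3,2,2,2],1)]),(225,[([2,2,2,2,3],1),([3,2,2,2,3],1),([3,2,2,3,2],1),([3,2,3,2,2],1),([3,3,1,2,3],1),([3,3,1,3,2],1),([3,3,2,1,3],1),([3,3,2,2,2],3),([3,3,3,1,2],1),([4,3,2,2,2],1)]),(226,[([3,1,3,2,3],1),([3,1,3,3,2],1),([3,2,2,2,3],2),([3,2,2,3,2],1),([3,2,3,1,3],1),([3,2,3,2,2],2),([4,2,3,2,2],2),([4,3,2,2,2],1),([4,3,3,1,2],1)]),(266,[([2,2,2,2,3],1),([2,2,2,3,2],1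),([2,2,3,1,3],1),([2,2,3,2,2],3),([2,2,3,3,1],1),([2,3,2,2,2],1),([3,2,3,2,2],1),([3,3,2,2,2],1),([3,3,3,1,2],1),([3,3,3,2,1],1)]),(267,[([2,2,1,3,3],1),([2,2,2,2,3],1),([2,2,2,3,2],2),([3,2,2,3,2],2),([3,2,3,2,2],1),([3,2,3,3,1],1),([3,3,1,3,2],1),([3,3,2,2,2],2),([3,3,2,3,1],1)]),(273,[([1,2,2,2,3],1),([1,2,2,3,2],1),([1,2,3,2,2],1),([1,3,2,2,2],1),([2,2,3,2,2],1),([2,3,2,1,3],1),([2,3,2,2,2],3),([2,3,2,3,1],1),([2,3,3,1,2],1),([2,3,3,2,1],1)]),(275,[([2,1,2,3,3],1),([3,1,3,3,2],1),([3,2,2,2,3],1),([3,2,2,3,2],3),([3,2,3,2,2],1),([4,2,2,3,2],1),([4,2,3,2,2],1),([4,2,3,3,1],1),([4,3,2,2,2],1),([4,3,2,3,1],1)]),(281,[([2,2,2,2,3],1),([2,2,2,3,2],2),([2,2,3,2,2],1),([2,3,1,2,3],1),([2,3,1,3,2],1),([2,3,2,2,2],2),([3,3,2,2,2],2),([3,3,2,3,1],1),([3,3,3,2,1],1)]),(282,[([2,1,3,2,3],1),([2,1,3,3,2],1),([2,2,2,2,3],1),([2,2,2,3,2],1),([2,2,3,2,2],1),([3,2,2,3,2],1),([3,2,3,2,2],3),([3,2,3,3,1],1),([3,3,2,2,2],1),([4,3,3,2,1],1)])]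

def lv3 : List Gen := [g3_0,g3_1,g3_2,g3_3,g3_4,g3_5,g3_6,g3_7,g3_8,g3_9,g3_10,g3_11,g3_12,g3_13,g3_14,g3_15,g3_16,g3_17,g3_18,g3_19,g3_20,g3_21,g3_22,g3_23,g3_24,g3_25,g3_26,g3_27,g3_28,g3_29,g3_30,g3_31,g3_32]

def g4_0 : Gen := [(668,[([6,1,1,1,1],1)]),(675,[([5,1,1,1,1],1)]),(724,[([5,1,1,1,1],1)]),(738,[([4,1,1,1,1],1)]),(787,[([4,1,1,1,1],1)]),(794,[([3,1,1,1,1],1)]),(1116,[([5,1,1,1,1],1)]),(1123,[([4,1,1,1,1],1)]),(1228,[([4,1,1,1,1],1)]),(1249,[([3,1,1,1,1],1)]),(1291,[([3,1,1,1,1],1)]),(1305,[([2,1,1,1,1],1)]),(1620,[([4,1,1,1,1],1)]),(1634,[([3,1,1,1,1],1)]),(1676,[([3,1,1,1,1],1)]),(1697,[([2,1,1,1,1],1)]),(1802,[([2,1,1,1,1],1)]),(1809,[([1,1,1,1,1],1)]),(2131,[([3,1,1,1,1],1)]),(2138,[([2,1,1,1,1],1)]),(2187,[([2,1,1,1,1],1)]),(2201,[([1,1,1,1,1],1)]),(2250,[([1,1,1,1,1],1)]),(2257,[([0,1,1,1,1],1)])]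

def g4_1 : Gen := [(668,[([3,1,1,1,2],1)]),(675,[([3,1,1,2,1],1)]),(724,[([2,1,1,1,2],1)]),(738,[([3,1,2,1,1],1)]),(787,[([2,1,1,2,1],1)]),(794,[([2,1,2,1,1],1)]),(1116,[([2,1,1,1,2],1)]),(1123,[([2,1,1,2,1],1)]),(1228,[([1,1,1,1,2],1)]),(1249,[([3,2,1,1,1],1)]),(1291,[([1,1,1,2,1],1)]),(1305,[([2,2,1,1,1],1)]),(1620,[([1,1,1,1,2],1)]),(1634,[([2,1,2,1,1],1)]),(1676,[([0,1,1,1,2],1)]),(1697,[([2,2,1,1,1],1)]),(1802,[([1,1,2,1,1],1)]),(1809,[([1,2,1,1,1],1)]),(2131,[([1,1,1,2,1],1)]),(2138,[([1,1,2,1,1],1)]),(2187,[([0,1,1,2,1],1)]),(2201,[([1,2,1,1,1],1)]),(2250,[([0,1,2,1,1],1)]),(2257,[([0,2,1,1,1],1)])]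

def g4_2 : Gen := [(668,[([4,1,1,1,2],1),([4,1,1,2,1],1)]),(675,[([3,1,1,1,2],1),([3,1,1,2,1],1)]),(724,[([3,1,1,1,2],1),([4,1,2,1,1],1)]),(738,[([2,1,1,1,2],1),([3,1,2,1,1],1)]),(787,[([3,1,1,2,1],1),([3,1,2,1,1],1)]),(794,[([2,1,1,2,1],1),([2,1,2,1,1],1)]),(1116,[([3,1,1,1,2],1),([3,1,1,2,1],1)]),(1123,[([2,1,1,1,2],1),([2,1,1,2,1],1)]),(1228,[([2,1,1,1,2],1),([4,2,1,1,1],1)]),(1249,[([1,1,1,1,2],1),([3,2,1,1,1],1)]),(1291,[([2,1,1,2,1],1),([3,2,1,1,1],1)]),(1305,[([1,1,1,2,1],1),([2,2,1,1,1],1)]),(1620,[([2,1,1,1,2],1),([3,1,2,1,1],1)]),(1634,[([1,1,1,1,2],1),([2,1,2,1,1],1)]),(1676,[([1,1,1,1,2],1),([3,2,1,1,1],1)]),(1697,[([0,1,1,1,2],1),([2,2,1,1,1],1)]),(1802,[([2,1,2,1,1],1),([2,2,1,1,1],1)]),(1809,[([1,1,2,1,1],1),([1,2,1,1,1],1)]),(2131,[([2,1,1,2,1],1),([2,1,2,1,1],1)]),(2138,[([1,1,1,2,1],1),([1,1,2,1,1],1)]),(2187,[([1,1,1,2,1],1),([2,2,1,1,1],1)]),(2201,[([0,1,1,2,1],1),([1,2,1,1,1],1)]),(2250,[([1,1,2,1,1],1),([1,2,1,1,1],1)]),(2257,[([0,1,2,1,1],1),([0,2,1,1,1],1)])]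

def g4_3 : Gen := [(668,[([5,1,1,1,2],1),([5,1,1,2,1],1),([5,1,2,1,1],1)]),(675,[([4,1,1,1,2],1),([4,1,1,2,1],1),([4,1,2,1,1],1)]),(724,[([4,1,1,1,2],1),([4,1,1,2,1],1),([4,1,2,1,1],1)]),(738,[([3,1,1,1,2],1),([3,1,1,2,1],1),([3,1,2,1,1],1)]),(787,[([3,1,1,1,2],1),([3,1,1,2,1],1),([3,1,2,1,1],1)]),(794,[([2,1,1,1,2],1),([2,1,1,2,1],1),([2,1,2,1,1],1)]),(1116,[([4,1,1,1,2],1),([4,1,1,2,1],1),([5,2,1,1,1],1)]),(1123,[([3,1,1,1,2],1),([3,1,1,2,1],1),([4,2,1,1,1],1)]),(1228,[([3,1,1,1,2],1),([3,1,1,2,1],1),([4,2,1,1,1],1)]),(1249,[([2,1,1,1,2],1),([2,1,1,2,1],1),([3,2,1,1,1],1)]),(1291,[([2,1,1,1,2],1),([2,1,1,2,1],1),([3,2,1,1,1],1)]),(1305,[([1,1,1,1,2],1),([1,1,1,2,1],1),([2,2,1,1,1],1)]),(1620,[([3,1,1,1,2],1),([4,1,2,1,1],1),([4,2,1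,1,1],1)]),(1634,[([2,1,1,1,2],1),([3,1,2,1,1],1),([3,2,1,1,1],1)]),(1676,[([2,1,1,1,2],1),([3,1,2,1,1],1),([3,2,1,1,1],1)]),(1697,[([1,1,1,1,2],1),([2,1,2,1,1],1),([2,2,1,1,1],1)]),(1802,[([1,1,1,1,2],1),([2,1,2,1,1],1),([2,2,1,1,1],1)]),(1809,[([0,1,1,1,2],1),([1,1,2,1,1],1),([1,2,1,1,1],1)]),(2131,[([3,1,1,2,1],1),([3,1,2,1,1],1),([3,2,1,1,1],1)]),(2138,[([2,1,1,2,1],1),([2,1,2,1,1],1),([2,2,1,1,1],1)]),(2187,[([2,1,1,2,1],1),([2,1,2,1,1],1),([2,2,1,1,1],1)]),(2201,[([1,1,1,2,1],1),([1,1,2,1,1],1),([1,2,1,1,1],1)]),(2250,[([1,1,1,2,1],1),([1,1,2,1,1],1),([1,2,1,1,1],1)]),(2257,[([0,1,1,2,1],1),([0,1,2,1,1],1),([0,2,1,1,1],1)])]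

def g4_4 : Gen := [(668,[([2,1,1,2,2],1)]),(675,[([1,1,1,2,2],1)]),(724,[([2,1,2,1,2],1)]),(738,[([1,1,2,1,2],1)]),(787,[([2,1,2,2,1],1)]),(794,[([1,1,2,2,1],1)]),(1116,[([1,1,1,2,2],1)]),(1123,[([0,1,1,2,2],1)]),(1228,[([2,2,1,1,2],1)]),(1249,[([1,2,1,1,2],1)]),(1291,[([2,2,1,2,1],1)]),(1305,[([1,2,1,2,1],1)]),(1620,[([1,1,2,1,2],1)]),(1634,[([0,1,2,1,2],1)]),(1676,[([1,2,1,1,2],1)]),(1697,[([0,2,1,1,2],1)]),(1802,[([2,2,2,1,1],1)]),(1809,[([1,2,2,1,1],1)]),(2131,[([1,1,2,2,1],1)]),(2138,[([0,1,2,2,1],1)]),(2187,[([1,2,1,2,1],1)]),(2201,[([0,2,1,2,1],1)]),(2250,[([1,2,2,1,1],1)]),(2257,[([0,2,2,1,1],1)])]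

def g4_5 : Gen := [(668,[([3,1,1,2,2],1),([3,1,2,1,2],1)]),(675,[([2,1,1,2,2],1),([3,1,2,2,1],1)]),(724,[([2,1,1,2,2],1),([2,1,2,1,2],1)]),(738,[([2,1,2,1,2],1),([2,1,2,2,1],1)]),(787,[([1,1,1,2,2],1),([2,1,2,2,1],1)]),(794,[([1,1,2,1,2],1),([1,1,2,2,1],1)]),(1116,[([2,1,1,2,2],1),([3,2,1,1,2],1)]),(1123,[([1,1,1,2,2],1),([3,2,1,2,1],1)]),(1228,[([1,1,1,2,2],1),([2,2,1,1,2],1)]),(1249,[([2,2,1,1,2],1),([2,2,1,2,1],1)]),(1291,[([0,1,1,2,2],1),([2,2,1,2,1],1)]),(1305,[([1,2,1,1,2],1),([1,2,1,2,1],1)]),(1620,[([2,1,2,1,2],1),([2,2,1,1,2],1)]),(1634,[([1,1,2,1,2],1),([3,2,2,1,1],1)]),(1676,[([1,1,2,1,2],1),([1,2,1,1,2],1)]),(1697,[([1,2,1,1,2],1),([2,2,2,1,1],1)]),(1802,[([0,1,2,1,2],1),([2,2,2,1,1],1)]),(1809,[([0,2,1,1,2],1),([1,2,2,1,1],1)]),(2131,[([2,1,2,2,1],1),([2,2,1,2,1],1)]),(2138,[([1,1,2,2,1],1),([2,2,2,1,1],1)]),(2187,[([1,1,2,2,1],1),([1,2,1,2,1],1)]),(2201,[([1,2,1,2,1],1),([1,2,2,1,1],1)]),(2250,[([0,1,2,2,1],1),([1,2,2,1,1],1)]),(2257,[([0,2,1,2,1],1),([0,2,2,1,1],1)])]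

def g4_6 : Gen := [(668,[([3,1,1,2,2],1),([4,1,1,2,2],1),([4,1,2,1,2],1),([4,1,2,2,1],1)]),(675,[([2,1,1,2,2],1),([3,1,1,2,2],1),([3,1,2,1,2],1),([3,1,2,2,1],1)]),(724,[([3,1,1,2,2],1),([3,1,2,1,2],2),([3,1,2,2,1],1)]),(738,[([2,1,1,2,2],1),([2,1,2,1,2],2),([2,1,2,2,1],1)]),(787,[([2,1,1,2,2],1),([2,1,2,1,2],1),([2,1,2,2,1],1),([3,1,2,2,1],1)]),(794,[([1,1,1,2,2],1),([1,1,2,1,2],1),([1,1,2,2,1],1),([2,1,2,2,1],1)]),(1116,[([2,1,1,2,2],1),([3,1,1,2,2],1),([4,2,1,1,2],1),([4,2,1,2,1],1)]),(1123,[([1,1,1,2,2],1),([2,1,1,2,2],1),([3,2,1,1,2],1),([3,2,1,2,1],1)]),(1228,[([2,1,1,2,2],1),([3,2,1,1,2],2),([3,2,1,2,1],1)]),(1249,[([1,1,1,2,2],1),([2,2,1,1,2],2),([2,2,1,2,1],1)]),(1291,[([1,1,1,2,2],1),([2,2,1,1,2],1),([2,2,1,2,1],1),([3,2,1,2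,1],1)]),(1305,[([0,1,1,2,2],1),([1,2,1,1,2],1),([1,2,1,2,1],1),([2,2,1,2,1],1)]),(1620,[([2,1,2,1,2],1),([3,1,2,1,2],1),([3,2,1,1,2],1),([4,2,2,1,1],1)]),(1634,[([1,1,2,1,2],1),([2,1,2,1,2],1),([2,2,1,1,2],1),([3,2,2,1,1],1)]),(1676,[([2,1,2,1,2],1),([2,2,1,1,2],2),([3,2,2,1,1],1)]),(1697,[([1,1,2,1,2],1),([1,2,1,1,2],2),([2,2,2,1,1],1)]),(1802,[([1,1,2,1,2],1),([1,2,1,1,2],1),([2,2,2,1,1],1),([3,2,2,1,1],1)]),(1809,[([0,1,2,1,2],1),([0,2,1,1,2],1),([1,2,2,1,1],1),([2,2,2,1,1],1)]),(2131,[([2,1,2,2,1],1),([3,1,2,2,1],1),([3,2,1,2,1],1),([3,2,2,1,1],1)]),(2138,[([1,1,2,2,1],1),([2,1,2,2,1],1),([2,2,1,2,1],1),([2,2,2,1,1],1)]),(2187,[([2,1,2,2,1],1),([2,2,1,2,1],2),([2,2,2,1,1],1)]),(2201,[([1,1,2,2,1],1),([1,2,1,2,1],2),([1,2,2,1,1],1)]),(2250,[([1,1,2,2,1],1),([1,2,1,2,1],1),([1,2,2,1,1],1),([2,2,2,1,1],1)]),(2257,[([0,1,2,2,1],1),([0,2,1,2,1],1),([0,2,2,1,1],1),([1,2,2,1,1],1)])]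

def g4_7 : Gen := [(668,[([4,1,1,2,2],1),([4,1,2,1,2],1),([4,1,2,2,1],1)]),(675,[([3,1,1,2,2],1),([3,1,2,1,2],1),([3,1,2,2,1],1)]),(724,[([3,1,1,2,2],1),([3,1,2,1,2],1),([3,1,2,2,1],1)]),(738,[([2,1,1,2,2],1),([2,1,2,1,2],1),([2,1,2,2,1],1)]),(787,[([2,1,1,2,2],1),([2,1,2,1,2],1),([2,1,2,2,1],1)]),(794,[([1,1,1,2,2],1),([1,1,2,1,2],1),([1,1,2,2,1],1)]),(1116,[([3,1,1,2,2],1),([4,2,1,1,2],1),([4,2,1,2,1],1)]),(1123,[([2,1,1,2,2],1),([3,2,1,1,2],1),([3,2,1,2,1],1)]),(1228,[([2,1,1,2,2],1),([3,2,1,1,2],1),([3,2,1,2,1],1)]),(1249,[([1,1,1,2,2],1),([2,2,1,1,2],1),([2,2,1,2,1],1)]),(1291,[([1,1,1,2,2],1),([2,2,1,1,2],1),([2,2,1,2,1],1)]),(1305,[([0,1,1,2,2],1),([1,2,1,1,2],1),([1,2,1,2,1],1)]),(1620,[([3,1,2,1,2],1),([3,2,1,1,2],1),([4,2,2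,1,1],1)]),(1634,[([2,1,2,1,2],1),([2,2,1,1,2],1),([3,2,2,1,1],1)]),(1676,[([2,1,2,1,2],1),([2,2,1,1,2],1),([3,2,2,1,1],1)]),(1697,[([1,1,2,1,2],1),([1,2,1,1,2],1),([2,2,2,1,1],1)]),(1802,[([1,1,2,1,2],1),([1,2,1,1,2],1),([2,2,2,1,1],1)]),(1809,[([0,1,2,1,2],1),([0,2,1,1,2],1),([1,2,2,1,1],1)]),(2131,[([3,1,2,2,1],1),([3,2,1,2,1],1),([3,2,2,1,1],1)]),(2138,[([2,1,2,2,1],1),([2,2,1,2,1],1),([2,2,2,1,1],1)]),(2187,[([2,1,2,2,1],1),([2,2,1,2,1],1),([2,2,2,1,1],1)]),(2201,[([1,1,2,2,1],1),([1,2,1,2,1],1),([1,2,2,1,1],1)]),(2250,[([1,1,2,2,1],1),([1,2,1,2,1],1),([1,2,2,1,1],1)]),(2257,[([0,1,2,2,1],1),([0,2,1,2,1],1),([0,2,2,1,1],1)])]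

def g4_8 : Gen := [(668,[([4,1,1,2,2],1),([4,1,2,1,2],1),([4,2,1,1,2],1)]),(675,[([3,1,1,2,2],1),([4,1,2,2,1],1),([4,2,1,2,1],1)]),(724,[([3,1,1,2,2],1),([3,1,2,1,2],1),([3,2,1,1,2],1)]),(738,[([3,1,2,1,2],1),([3,1,2,2,1],1),([4,2,2,1,1],1)]),(787,[([2,1,1,2,2],1),([3,1,2,2,1],1),([3,2,1,2,1],1)]),(794,[([2,1,2,1,2],1),([2,1,2,2,1],1),([3,2,2,1,1],1)]),(1116,[([3,1,1,2,2],1),([3,1,2,1,2],1),([3,2,1,1,2],1)]),(1123,[([2,1,1,2,2],1),([3,1,2,2,1],1),([3,2,1,2,1],1)]),(1228,[([2,1,1,2,2],1),([2,1,2,1,2],1),([2,2,1,1,2],1)]),(1249,[([3,2,1,1,2],1),([3,2,1,2,1],1),([3,2,2,1,1],1)]),(1291,[([1,1,1,2,2],1),([2,1,2,2,1],1),([2,2,1,2,1],1)]),(1305,[([2,2,1,1,2],1),([2,2,1,2,1],1),([2,2,2,1,1],1)]),(1620,[([2,1,1,2,2],1),([2,1,2,1,2],1),([2,2,1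,1,2],1)]),(1634,[([2,1,2,1,2],1),([2,1,2,2,1],1),([3,2,2,1,1],1)]),(1676,[([1,1,1,2,2],1),([1,1,2,1,2],1),([1,2,1,1,2],1)]),(1697,[([2,2,1,1,2],1),([2,2,1,2,1],1),([2,2,2,1,1],1)]),(1802,[([1,1,2,1,2],1),([1,1,2,2,1],1),([2,2,2,1,1],1)]),(1809,[([1,2,1,1,2],1),([1,2,1,2,1],1),([1,2,2,1,1],1)]),(2131,[([1,1,1,2,2],1),([2,1,2,2,1],1),([2,2,1,2,1],1)]),(2138,[([1,1,2,1,2],1),([1,1,2,2,1],1),([2,2,2,1,1],1)]),(2187,[([0,1,1,2,2],1),([1,1,2,2,1],1),([1,2,1,2,1],1)]),(2201,[([1,2,1,1,2],1),([1,2,1,2,1],1),([1,2,2,1,1],1)]),(2250,[([0,1,2,1,2],1),([0,1,2,2,1],1),([1,2,2,1,1],1)]),(2257,[([0,2,1,1,2],1),([0,2,1,2,1],1),([0,2,2,1,1],1)])]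

def g4_9 : Gen := [(668,[([4,1,1,2,2],1),([5,1,1,2,2],1),([5,1,2,1,2],1),([5,1,2,2,1],1),([5,2,1,1,2],1),([5,2,1,2,1],1)]),(675,[([3,1,1,2,2],1),([4,1,1,2,2],1),([4,1,2,1,2],1),([4,1,2,2,1],1),([4,2,1,1,2],1),([4,2,1,2,1],1)]),(724,[([4,1,1,2,2],1),([4,1,2,1,2],2),([4,1,2,2,1],1),([4,2,1,1,2],1),([5,2,2,1,1],1)]),(738,[([3,1,1,2,2],1),([3,1,2,1,2],2),([3,1,2,2,1],1),([3,2,1,1,2],1),([4,2,2,1,1],1)]),(787,[([3,1,1,2,2],1),([3,1,2,1,2],1),([3,1,2,2,1],1),([4,1,2,2,1],1),([4,2,1,2,1],1),([4,2,2,1,1],1)]),(794,[([2,1,1,2,2],1),([2,1,2,1,2],1),([2,1,2,2,1],1),([3,1,2,2,1],1),([3,2,1,2,1],1),([3,2,2,1,1],1)]),(1116,[([3,1,1,2,2],1),([4,1,1,2,2],1),([4,1,2,1,2],1),([4,1,2,2,1],1),([4,2,1,1,2],1),([4,2,1,2,1],1)]),(1123,[([2,1,1,2,2],1),([3,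1,1,2,2],1),([3,1,2,1,2],1),([3,1,2,2,1],1),([3,2,1,1,2],1),([3,2,1,2,1],1)]),(1228,[([3,1,1,2,2],1),([3,1,2,1,2],1),([3,2,1,1,2],1),([4,2,1,1,2],1),([4,2,1,2,1],1),([4,2,2,1,1],1)]),(1249,[([2,1,1,2,2],1),([2,1,2,1,2],1),([2,2,1,1,2],1),([3,2,1,1,2],1),([3,2,1,2,1],1),([3,2,2,1,1],1)]),(1291,[([2,1,1,2,2],1),([3,1,2,2,1],1),([3,2,1,1,2],1),([3,2,1,2,1],2),([3,2,2,1,1],1)]),(1305,[([1,1,1,2,2],1),([2,1,2,2,1],1),([2,2,1,1,2],1),([2,2,1,2,1],2),([2,2,2,1,1],1)]),(1620,[([3,1,1,2,2],1),([3,1,2,1,2],2),([3,1,2,2,1],1),([3,2,1,1,2],1),([4,2,2,1,1],1)]),(1634,[([2,1,1,2,2],1),([2,1,2,1,2],2),([2,1,2,2,1],1),([2,2,1,1,2],1),([3,2,2,1,1],1)]),(1676,[([2,1,1,2,2],1),([2,1,2,1,2],1),([2,2,1,1,2],1),([3,2,1,1,2],1),([3,2,1,2,1],1),([3,2,2,1,1],1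)]),(1697,[([1,1,1,2,2],1),([1,1,2,1,2],1),([1,2,1,1,2],1),([2,2,1,1,2],1),([2,2,1,2,1],1),([2,2,2,1,1],1)]),(1802,[([2,1,2,1,2],1),([2,1,2,2,1],1),([2,2,1,1,2],1),([2,2,1,2,1],1),([2,2,2,1,1],1),([3,2,2,1,1],1)]),(1809,[([1,1,2,1,2],1),([1,1,2,2,1],1),([1,2,1,1,2],1),([1,2,1,2,1],1),([1,2,2,1,1],1),([2,2,2,1,1],1)]),(2131,[([2,1,1,2,2],1),([2,1,2,1,2],1),([2,1,2,2,1],1),([3,1,2,2,1],1),([3,2,1,2,1],1),([3,2,2,1,1],1)]),(2138,[([1,1,1,2,2],1),([1,1,2,1,2],1),([1,1,2,2,1],1),([2,1,2,2,1],1),([2,2,1,2,1],1),([2,2,2,1,1],1)]),(2187,[([1,1,1,2,2],1),([2,1,2,2,1],1),([2,2,1,1,2],1),([2,2,1,2,1],2),([2,2,2,1,1],1)]),(2201,[([0,1,1,2,2],1),([1,1,2,2,1],1),([1,2,1,1,2],1),([1,2,1,2,1],2),([1,2,2,1,1],1)]),(2250,[([1,1,2,1,2],1),([1,1,2,2,1],1),([1,2,1,1,2],1),([1,2,1,2,1],1),([1,2,2,1,1],1),([2,2,2,1,1],1)]),(2257,[([0,1,2,1,2],1),([0,1,2,2,1],1),([0,2,1,1,2],1),([0,2,1,2,1],1),([0,2,2,1,1],1),([1,2,2,1,1],1)])]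

def g4_10 : Gen := [(668,[([3,1,2,2,2],1)]),(675,[([2,1,2,2,2],1)]),(724,[([2,1,2,2,2],1)]),(738,[([1,1,2,2,2],1)]),(787,[([1,1,2,2,2],1)]),(794,[([0,1,2,2,2],1)]),(1116,[([3,2,1,2,2],1)]),(1123,[([2,2,1,2,2],1)]),(1228,[([2,2,1,2,2],1)]),(1249,[([1,2,1,2,2],1)]),(1291,[([1,2,1,2,2],1)]),(1305,[([0,2,1,2,2],1)]),(1620,[([3,2,2,1,2],1)]),(1634,[([2,2,2,1,2],1)]),(1676,[([2,2,2,1,2],1)]),(1697,[([1,2,2,1,2],1)]),(1802,[([1,2,2,1,2],1)]),(1809,[([0,2,2,1,2],1)]),(2131,[([3,2,2,2,1],1)]),(2138,[([2,2,2,2,1],1)]),(2187,[([2,2,2,2,1],1)]),(2201,[([1,2,2,2,1],1)]),(2250,[([1,2,2,2,1],1)]),(2257,[([0,2,2,2,1],1)])]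

def g4_11 : Gen := [(668,[([4,1,2,2,2],1),([4,2,1,2,2],1)]),(675,[([3,1,2,2,2],1),([3,2,1,2,2],1)]),(724,[([3,1,2,2,2],1),([4,2,2,1,2],1)]),(738,[([2,1,2,2,2],1),([3,2,2,1,2],1)]),(787,[([2,1,2,2,2],1),([4,2,2,2,1],1)]),(794,[([1,1,2,2,2],1),([3,2,2,2,1],1)]),(1116,[([3,1,2,2,2],1),([3,2,1,2,2],1)]),(1123,[([2,1,2,2,2],1),([2,2,1,2,2],1)]),(1228,[([3,2,1,2,2],1),([3,2,2,1,2],1)]),(1249,[([2,2,1,2,2],1),([2,2,2,1,2],1)]),(1291,[([2,2,1,2,2],1),([3,2,2,2,1],1)]),(1305,[([1,2,1,2,2],1),([2,2,2,2,1],1)]),(1620,[([2,1,2,2,2],1),([3,2,2,1,2],1)]),(1634,[([1,1,2,2,2],1),([2,2,2,1,2],1)]),(1676,[([2,2,1,2,2],1),([2,2,2,1,2],1)]),(1697,[([1,2,1,2,2],1),([1,2,2,1,2],1)]),(1802,[([2,2,2,1,2],1),([2,2,2,2,1],1)]),(1809,[([1,2,2,1,2],1),([1,2,2,2,1],1)]),(2131,[([1,1,2,2,2],1),([3,2,2,2,1],1)]),(2138,[([0,1,2,2,2],1),([2,2,2,2,1],1)]),(2187,[([1,2,1,2,2],1),([2,2,2,2,1],1)]),(2201,[([0,2,1,2,2],1),([1,2,2,2,1],1)]),(2250,[([1,2,2,1,2],1),([1,2,2,2,1],1)]),(2257,[([0,2,2,1,2],1),([0,2,2,2,1],1)])]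

def g4_12 : Gen := [(668,[([4,1,2,2,2],1),([5,1,2,2,2],1),([5,2,1,2,2],1),([5,2,2,1,2],1)]),(675,[([3,1,2,2,2],1),([4,1,2,2,2],1),([4,2,1,2,2],1),([5,2,2,2,1],1)]),(724,[([3,1,2,2,2],1),([4,1,2,2,2],1),([4,2,1,2,2],1),([4,2,2,1,2],1)]),(738,[([2,1,2,2,2],1),([3,1,2,2,2],1),([4,2,2,1,2],1),([4,2,2,2,1],1)]),(787,[([2,1,2,2,2],1),([3,1,2,2,2],1),([3,2,1,2,2],1),([4,2,2,2,1],1)]),(794,[([1,1,2,2,2],1),([2,1,2,2,2],1),([3,2,2,1,2],1),([3,2,2,2,1],1)]),(1116,[([4,1,2,2,2],1),([4,2,1,2,2],2),([4,2,2,1,2],1)]),(1123,[([3,1,2,2,2],1),([3,2,1,2,2],2),([4,2,2,2,1],1)]),(1228,[([3,1,2,2,2],1),([3,2,1,2,2],2),([3,2,2,1,2],1)]),(1249,[([2,2,1,2,2],1),([3,2,1,2,2],1),([3,2,2,1,2],1),([3,2,2,2,1],1)]),(1291,[([2,1,2,2,2],1),([2,2,1,2,2],2),([3,2,2,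2,1],1)]),(1305,[([1,2,1,2,2],1),([2,2,1,2,2],1),([2,2,2,1,2],1),([2,2,2,2,1],1)]),(1620,[([3,1,2,2,2],1),([3,2,1,2,2],1),([3,2,2,1,2],1),([4,2,2,1,2],1)]),(1634,[([2,1,2,2,2],1),([3,2,2,1,2],2),([3,2,2,2,1],1)]),(1676,[([2,1,2,2,2],1),([2,2,1,2,2],1),([2,2,2,1,2],1),([3,2,2,1,2],1)]),(1697,[([2,2,1,2,2],1),([2,2,2,1,2],2),([2,2,2,2,1],1)]),(1802,[([1,1,2,2,2],1),([2,2,2,1,2],2),([2,2,2,2,1],1)]),(1809,[([1,2,1,2,2],1),([1,2,2,1,2],2),([1,2,2,2,1],1)]),(2131,[([2,1,2,2,2],1),([2,2,1,2,2],1),([3,2,2,2,1],1),([4,2,2,2,1],1)]),(2138,[([1,1,2,2,2],1),([2,2,2,1,2],1),([2,2,2,2,1],1),([3,2,2,2,1],1)]),(2187,[([1,1,2,2,2],1),([1,2,1,2,2],1),([2,2,2,2,1],1),([3,2,2,2,1],1)]),(2201,[([1,2,1,2,2],1),([1,2,2,1,2],1),([1,2,2,2,1],1),([2,2,2,2,1],1)]),(2250,[([0,1,2,2,2],1),([1,2,2,1,2],1),([1,2,2,2,1],1),([2,2,2,2,1],1)]),(2257,[([0,2,1,2,2],1),([0,2,2,1,2],1),([0,2,2,2,1],1),([1,2,2,2,1],1)])]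

def g4_13 : Gen := [(668,[([5,1,2,2,2],1),([5,2,1,2,2],1),([5,2,2,1,2],1)]),(675,[([4,1,2,2,2],1),([4,2,1,2,2],1),([5,2,2,2,1],1)]),(724,[([4,1,2,2,2],1),([4,2,1,2,2],1),([4,2,2,1,2],1)]),(738,[([3,1,2,2,2],1),([4,2,2,1,2],1),([4,2,2,2,1],1)]),(787,[([3,1,2,2,2],1),([3,2,1,2,2],1),([4,2,2,2,1],1)]),(794,[([2,1,2,2,2],1),([3,2,2,1,2],1),([3,2,2,2,1],1)]),(1116,[([4,1,2,2,2],1),([4,2,1,2,2],1),([4,2,2,1,2],1)]),(1123,[([3,1,2,2,2],1),([3,2,1,2,2],1),([4,2,2,2,1],1)]),(1228,[([3,1,2,2,2],1),([3,2,1,2,2],1),([3,2,2,1,2],1)]),(1249,[([3,2,1,2,2],1),([3,2,2,1,2],1),([3,2,2,2,1],1)]),(1291,[([2,1,2,2,2],1),([2,2,1,2,2],1),([3,2,2,2,1],1)]),(1305,[([2,2,1,2,2],1),([2,2,2,1,2],1),([2,2,2,2,1],1)]),(1620,[([3,1,2,2,2],1),([3,2,1,2,2],1),([3,2,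2,1,2],1)]),(1634,[([2,1,2,2,2],1),([3,2,2,1,2],1),([3,2,2,2,1],1)]),(1676,[([2,1,2,2,2],1),([2,2,1,2,2],1),([2,2,2,1,2],1)]),(1697,[([2,2,1,2,2],1),([2,2,2,1,2],1),([2,2,2,2,1],1)]),(1802,[([1,1,2,2,2],1),([2,2,2,1,2],1),([2,2,2,2,1],1)]),(1809,[([1,2,1,2,2],1),([1,2,2,1,2],1),([1,2,2,2,1],1)]),(2131,[([2,1,2,2,2],1),([2,2,1,2,2],1),([3,2,2,2,1],1)]),(2138,[([1,1,2,2,2],1),([2,2,2,1,2],1),([2,2,2,2,1],1)]),(2187,[([1,1,2,2,2],1),([1,2,1,2,2],1),([2,2,2,2,1],1)]),(2201,[([1,2,1,2,2],1),([1,2,2,1,2],1),([1,2,2,2,1],1)]),(2250,[([0,1,2,2,2],1),([1,2,2,1,2],1),([1,2,2,2,1],1)]),(2257,[([0,2,1,2,2],1),([0,2,2,1,2],1),([0,2,2,2,1],1)])]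

def g4_14 : Gen := [(668,[([2,1,1,2,3],1),([3,1,2,2,2],1),([3,2,1,2,2],1)]),(675,[([2,1,1,3,2],1),([2,1,2,2,2],1),([2,2,1,2,2],1)]),(724,[([2,1,2,1,3],1),([2,1,2,2,2],1),([3,2,2,1,2],1)]),(738,[([2,1,2,2,2],1),([2,1,3,1,2],1),([2,2,2,1,2],1)]),(787,[([2,1,2,2,2],1),([2,1,2,3,1],1),([3,2,2,2,1],1)]),(794,[([1,1,2,2,2],1),([2,1,3,2,1],1),([2,2,2,2,1],1)]),(1116,[([1,1,1,2,3],1),([2,1,2,2,2],1),([2,2,1,2,2],1)]),(1123,[([1,1,1,3,2],1),([1,1,2,2,2],1),([1,2,1,2,2],1)]),(1228,[([2,2,1,1,3],1),([2,2,1,2,2],1),([2,2,2,1,2],1)]),(1249,[([2,2,1,2,2],1),([2,2,2,1,2],1),([2,3,1,1,2],1)]),(1291,[([2,2,1,2,2],1),([2,2,1,3,1],1),([2,2,2,2,1],1)]),(1305,[([1,2,1,2,2],1),([2,2,2,2,1],1),([2,3,1,2,1],1)]),(1620,[([1,1,2,1,3],1),([1,1,2,2,2],1),([2,2,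2,1,2],1)]),(1634,[([1,1,2,2,2],1),([1,1,3,1,2],1),([1,2,2,1,2],1)]),(1676,[([1,2,1,1,3],1),([1,2,1,2,2],1),([1,2,2,1,2],1)]),(1697,[([1,2,1,2,2],1),([1,2,2,1,2],1),([1,3,1,1,2],1)]),(1802,[([2,2,2,1,2],1),([2,2,2,2,1],1),([2,2,3,1,1],1)]),(1809,[([1,2,2,1,2],1),([1,2,2,2,1],1),([2,3,2,1,1],1)]),(2131,[([1,1,2,2,2],1),([1,1,2,3,1],1),([2,2,2,2,1],1)]),(2138,[([0,1,2,2,2],1),([1,1,3,2,1],1),([1,2,2,2,1],1)]),(2187,[([1,2,1,2,2],1),([1,2,1,3,1],1),([1,2,2,2,1],1)]),(2201,[([0,2,1,2,2],1),([1,2,2,2,1],1),([1,3,1,2,1],1)]),(2250,[([1,2,2,1,2],1),([1,2,2,2,1],1),([1,2,3,1,1],1)]),(2257,[([0,2,2,1,2],1),([0,2,2,2,1],1),([1,3,2,1,1],1)])]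

def g4_15 : Gen := [(668,[([3,1,1,2,3],1),([3,1,2,1,3],1),([3,1,2,2,2],1),([4,1,2,2,2],1),([4,2,1,2,2],1),([4,2,2,1,2],1)]),(675,[([3,1,1,3,2],1),([3,1,2,2,2],2),([3,1,2,3,1],1),([3,2,1,2,2],1),([4,2,2,2,1],1)]),(724,[([2,1,1,2,3],1),([2,1,2,1,3],1),([2,1,2,2,2],1),([3,1,2,2,2],1),([3,2,1,2,2],1),([3,2,2,1,2],1)]),(738,[([2,1,2,2,2],1),([3,1,2,2,2],1),([3,1,3,1,2],1),([3,1,3,2,1],1),([3,2,2,1,2],1),([3,2,2,2,1],1)]),(787,[([2,1,1,3,2],1),([2,1,2,2,2],2),([2,1,2,3,1],1),([2,2,1,2,2],1),([3,2,2,2,1],1)]),(794,[([1,1,2,2,2],1),([2,1,2,2,2],1),([2,1,3,1,2],1),([2,1,3,2,1],1),([2,2,2,1,2],1),([2,2,2,2,1],1)]),(1116,[([2,1,1,2,3],1),([3,1,2,2,2],1),([3,2,1,1,3],1),([3,2,1,2,2],2),([3,2,2,1,2],1)]),(1123,[([2,1,1,3,2],1),([2,1,2,2,2],1),([2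,2,1,2,2],1),([3,2,1,2,2],1),([3,2,1,3,1],1),([3,2,2,2,1],1)]),(1228,[([1,1,1,2,3],1),([2,1,2,2,2],1),([2,2,1,1,3],1),([2,2,1,2,2],2),([2,2,2,1,2],1)]),(1249,[([2,2,1,2,2],1),([3,2,1,2,2],1),([3,2,2,1,2],1),([3,2,2,2,1],1),([3,3,1,1,2],1),([3,3,1,2,1],1)]),(1291,[([1,1,1,3,2],1),([1,1,2,2,2],1),([1,2,1,2,2],1),([2,2,1,2,2],1),([2,2,1,3,1],1),([2,2,2,2,1],1)]),(1305,[([1,2,1,2,2],1),([2,2,1,2,2],1),([2,2,2,1,2],1),([2,2,2,2,1],1),([2,3,1,1,2],1),([2,3,1,2,1],1)]),(1620,[([2,1,2,1,3],1),([2,1,2,2,2],1),([2,2,1,1,3],1),([2,2,1,2,2],1),([2,2,2,1,2],1),([3,2,2,1,2],1)]),(1634,[([2,1,2,2,2],1),([2,1,3,1,2],1),([2,2,2,1,2],1),([3,2,2,1,2],1),([3,2,2,2,1],1),([3,2,3,1,1],1)]),(1676,[([1,1,2,1,3],1),([1,1,2,2,2],1),([1,2,1,1,3],1),([1,2,1,2,2],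1),([1,2,2,1,2],1),([2,2,2,1,2],1)]),(1697,[([2,2,1,2,2],1),([2,2,2,1,2],2),([2,2,2,2,1],1),([2,3,1,1,2],1),([3,3,2,1,1],1)]),(1802,[([1,1,2,2,2],1),([1,1,3,1,2],1),([1,2,2,1,2],1),([2,2,2,1,2],1),([2,2,2,2,1],1),([2,2,3,1,1],1)]),(1809,[([1,2,1,2,2],1),([1,2,2,1,2],2),([1,2,2,2,1],1),([1,3,1,1,2],1),([2,3,2,1,1],1)]),(2131,[([2,1,2,2,2],1),([2,1,2,3,1],1),([2,2,1,2,2],1),([2,2,1,3,1],1),([2,2,2,2,1],1),([3,2,2,2,1],1)]),(2138,[([1,1,2,2,2],1),([2,1,3,2,1],1),([2,2,2,1,2],1),([2,2,2,2,1],2),([2,2,3,1,1],1)]),(2187,[([1,1,2,2,2],1),([1,1,2,3,1],1),([1,2,1,2,2],1),([1,2,1,3,1],1),([1,2,2,2,1],1),([2,2,2,2,1],1)]),(2201,[([1,2,1,2,2],1),([1,2,2,1,2],1),([1,2,2,2,1],1),([2,2,2,2,1],1),([2,3,1,2,1],1),([2,3,2,1,1],1)]),(2250,[([0,1,2,2,2],1),([1,1,3,2,1],1),([1,2,2,1,2],1),([1,2,2,2,1],2),([1,2,3,1,1],1)]),(2257,[([0,2,1,2,2],1),([0,2,2,1,2],1),([0,2,2,2,1],1),([1,2,2,2,1],1),([1,3,1,2,1],1),([1,3,2,1,1],1)])]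

def g4_16 : Gen := [(668,[([4,1,1,2,3],1),([4,1,1,3,2],1),([4,1,2,1,3],1),([4,1,2,2,2],3),([4,1,2,3,1],1),([4,2,1,2,2],1),([5,1,2,2,2],1),([5,2,1,2,2],1),([5,2,2,1,2],1),([5,2,2,2,1],1)]),(675,[([3,1,1,2,3],1),([3,1,1,3,2],1),([3,1,2,1,3],1),([3,1,2,2,2],3),([3,1,2,3,1],1),([3,2,1,2,2],1),([4,1,2,2,2],1),([4,2,1,2,2],1),([4,2,2,1,2],1),([4,2,2,2,1],1)]),(724,[([3,1,1,2,3],1),([3,1,2,1,3],1),([3,1,2,2,2],2),([4,1,2,2,2],2),([4,1,3,1,2],1),([4,1,3,2,1],1),([4,2,1,2,2],1),([4,2,2,1,2],2),([4,2,2,2,1],1)]),(738,[([2,1,1,2,3],1),([2,1,2,1,3],1),([2,1,2,2,2],2),([3,1,2,2,2],2),([3,1,3,1,2],1),([3,1,3,2,1],1),([3,2,1,2,2],1),([3,2,2,1,2],2),([3,2,2,2,1],1)]),(787,[([2,1,2,2,2],1),([3,1,1,3,2],1),([3,1,2,2,2],3),([3,1,2,3,1],1),([3,1,3,1,2],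1),([3,1,3,2,1],1),([3,2,1,2,2],1),([3,2,2,1,2],1),([3,2,2,2,1],1),([4,2,2,2,1],1)]),(794,[([1,1,2,2,2],1),([2,1,1,3,2],1),([2,1,2,2,2],3),([2,1,2,3,1],1),([2,1,3,1,2],1),([2,1,3,2,1],1),([2,2,1,2,2],1),([2,2,2,1,2],1),([2,2,2,2,1],1),([3,2,2,2,1],1)]),(1116,[([3,1,1,2,3],1),([3,1,1,3,2],1),([3,1,2,2,2],1),([3,2,1,2,2],1),([4,1,2,2,2],1),([4,2,1,1,3],1),([4,2,1,2,2],3),([4,2,1,3,1],1),([4,2,2,1,2],1),([4,2,2,2,1],1)]),(1123,[([2,1,1,2,3],1),([2,1,1,3,2],1),([2,1,2,2,2],1),([2,2,1,2,2],1),([3,1,2,2,2],1),([3,2,1,1,3],1),([3,2,1,2,2],3),([3,2,1,3,1],1),([3,2,2,1,2],1),([3,2,2,2,1],1)]),(1228,[([2,1,1,2,3],1),([3,1,2,2,2],1),([3,2,1,1,3],1),([3,2,1,2,2],3),([3,2,2,1,2],1),([4,2,1,2,2],1),([4,2,2,1,2],1),([4,2,2,2,1],1),([4,3,1,1,2],1),([4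,3,1,2,1],1)]),(1249,[([1,1,1,2,3],1),([2,1,2,2,2],1),([2,2,1,1,3],1),([2,2,1,2,2],3),([2,2,2,1,2],1),([3,2,1,2,2],1),([3,2,2,1,2],1),([3,2,2,2,1],1),([3,3,1,1,2],1),([3,3,1,2,1],1)]),(1291,[([2,1,1,3,2],1),([2,1,2,2,2],1),([2,2,1,2,2],2),([3,2,1,2,2],2),([3,2,1,3,1],1),([3,2,2,1,2],1),([3,2,2,2,1],2),([3,3,1,1,2],1),([3,3,1,2,1],1)]),(1305,[([1,1,1,3,2],1),([1,1,2,2,2],1),([1,2,1,2,2],2),([2,2,1,2,2],2),([2,2,1,3,1],1),([2,2,2,1,2],1),([2,2,2,2,1],2),([2,3,1,1,2],1),([2,3,1,2,1],1)]),(1620,[([3,1,2,1,3],1),([3,1,2,2,2],2),([3,1,3,1,2],1),([3,2,1,1,3],1),([3,2,1,2,2],1),([3,2,2,1,2],2),([4,2,2,1,2],2),([4,2,2,2,1],1),([4,2,3,1,1],1)]),(1634,[([2,1,2,1,3],1),([2,1,2,2,2],2),([2,1,3,1,2],1),([2,2,1,1,3],1),([2,2,1,2,2],1),([2,2,2,1,2],2)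,([3,2,2,1,2],2),([3,2,2,2,1],1),([3,2,3,1,1],1)]),(1676,[([2,1,2,1,3],1),([2,1,2,2,2],1),([2,2,1,1,3],1),([2,2,1,2,2],1),([2,2,2,1,2],1),([3,2,1,2,2],1),([3,2,2,1,2],3),([3,2,2,2,1],1),([3,3,1,1,2],1),([4,3,2,1,1],1)]),(1697,[([1,1,2,1,3],1),([1,1,2,2,2],1),([1,2,1,1,3],1),([1,2,1,2,2],1),([1,2,2,1,2],1),([2,2,1,2,2],1),([2,2,2,1,2],3),([2,2,2,2,1],1),([2,3,1,1,2],1),([3,3,2,1,1],1)]),(1802,[([2,1,2,2,2],1),([2,1,3,1,2],1),([2,2,1,2,2],1),([2,2,2,1,2],3),([2,2,2,2,1],1),([2,3,1,1,2],1),([3,2,2,1,2],1),([3,2,2,2,1],1),([3,2,3,1,1],1),([3,3,2,1,1],1)]),(1809,[([1,1,2,2,2],1),([1,1,3,1,2],1),([1,2,1,2,2],1),([1,2,2,1,2],3),([1,2,2,2,1],1),([1,3,1,1,2],1),([2,2,2,1,2],1),([2,2,2,2,1],1),([2,2,3,1,1],1),([2,3,2,1,1],1)]),(2131,[([2,1,2,2,2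],1),([3,1,2,2,2],1),([3,1,2,3,1],1),([3,1,3,2,1],1),([3,2,1,2,2],1),([3,2,1,3,1],1),([3,2,2,1,2],1),([3,2,2,2,1],3),([3,2,3,1,1],1),([4,2,2,2,1],1)]),(2138,[([1,1,2,2,2],1),([2,1,2,2,2],1),([2,1,2,3,1],1),([2,1,3,2,1],1),([2,2,1,2,2],1),([2,2,1,3,1],1),([2,2,2,1,2],1),([2,2,2,2,1],3),([2,2,3,1,1],1),([3,2,2,2,1],1)]),(2187,[([2,1,2,2,2],1),([2,1,2,3,1],1),([2,2,1,2,2],2),([2,2,1,3,1],1),([2,2,2,1,2],1),([2,2,2,2,1],2),([3,2,2,2,1],2),([3,3,1,2,1],1),([3,3,2,1,1],1)]),(2201,[([1,1,2,2,2],1),([1,1,2,3,1],1),([1,2,1,2,2],2),([1,2,1,3,1],1),([1,2,2,1,2],1),([1,2,2,2,1],2),([2,2,2,2,1],2),([2,3,1,2,1],1),([2,3,2,1,1],1)]),(2250,[([1,1,2,2,2],1),([1,2,1,2,2],1),([1,2,2,1,2],1),([1,2,2,2,1],1),([2,1,3,2,1],1),([2,2,2,1,2],1),([2,2,2,2,1],3),([2,2,3,1,1],1),([2,3,1,2,1],1),([2,3,2,1,1],1)]),(2257,[([0,1,2,2,2],1),([0,2,1,2,2],1),([0,2,2,1,2],1),([0,2,2,2,1],1),([1,1,3,2,1],1),([1,2,2,1,2],1),([1,2,2,2,1],3),([1,2,3,1,1],1),([1,3,1,2,1],1),([1,3,2,1,1],1)])]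

def g4_17 : Gen := [(668,[([3,1,2,2,3],1),([5,2,2,2,2],1)]),(675,[([3,1,2,3,2],1),([4,2,2,2,2],1)]),(724,[([2,1,2,2,3],1),([4,2,2,2,2],1)]),(738,[([3,1,3,2,2],1),([3,2,2,2,2],1)]),(787,[([2,1,2,3,2],1),([3,2,2,2,2],1)]),(794,[([2,1,3,2,2],1),([2,2,2,2,2],1)]),(1116,[([3,2,1,2,3],1),([4,2,2,2,2],1)]),(1123,[([3,2,1,3,2],1),([3,2,2,2,2],1)]),(1228,[([2,2,1,2,3],1),([3,2,2,2,2],1)]),(1249,[([3,2,2,2,2],1),([3,3,1,2,2],1)]),(1291,[([2,2,1,3,2],1),([2,2,2,2,2],1)]),(1305,[([2,2,2,2,2],1),([2,3,1,2,2],1)]),(1620,[([3,2,2,1,3],1),([3,2,2,2,2],1)]),(1634,[([3,2,2,2,2],1),([3,2,3,1,2],1)]),(1676,[([2,2,2,1,3],1),([2,2,2,2,2],1)]),(1697,[([2,2,2,2,2],1),([3,3,2,1,2],1)]),(1802,[([2,2,2,2,2],1),([2,2,3,1,2],1)]),(1809,[([1,2,2,2,2],1),([2,3,2,1,2],1)]),(2131,[([3,2,2,2,2],1),([3,2,2,3,1],1)]),(2138,[([2,2,2,2,2],1),([3,2,3,2,1],1)]),(2187,[([2,2,2,2,2],1),([2,2,2,3,1],1)]),(2201,[([1,2,2,2,2],1),([3,3,2,2,1],1)]),(2250,[([1,2,2,2,2],1),([2,2,3,2,1],1)]),(2257,[([0,2,2,2,2],1),([2,3,2,2,1],1)])]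

def g4_18 : Gen := [(668,[([4,1,2,2,3],1),([4,1,2,3,2],1),([5,2,2,2,2],1),([6,2,2,2,2],1)]),(675,[([3,1,2,2,3],1),([3,1,2,3,2],1),([4,2,2,2,2],1),([5,2,2,2,2],1)]),(724,[([3,1,2,2,3],1),([4,1,3,2,2],1),([4,2,2,2,2],1),([5,2,2,2,2],1)]),(738,[([2,1,2,2,3],1),([3,1,3,2,2],1),([3,2,2,2,2],1),([4,2,2,2,2],1)]),(787,[([3,1,2,3,2],1),([3,1,3,2,2],1),([3,2,2,2,2],1),([4,2,2,2,2],1)]),(794,[([2,1,2,3,2],1),([2,1,3,2,2],1),([2,2,2,2,2],1),([3,2,2,2,2],1)]),(1116,[([4,2,1,2,3],1),([4,2,1,3,2],1),([4,2,2,2,2],1),([5,2,2,2,2],1)]),(1123,[([3,2,1,2,3],1),([3,2,1,3,2],1),([3,2,2,2,2],1),([4,2,2,2,2],1)]),(1228,[([3,2,1,2,3],1),([4,2,2,2,2],2),([4,3,1,2,2],1)]),(1249,[([2,2,1,2,3],1),([3,2,2,2,2],2),([3,3,1,2,2],1)]),(1291,[([3,2,1,3,2],1),([3,2,2,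2,2],2),([3,3,1,2,2],1)]),(1305,[([2,2,1,3,2],1),([2,2,2,2,2],2),([2,3,1,2,2],1)]),(1620,[([4,2,2,1,3],1),([4,2,2,2,2],2),([4,2,3,1,2],1)]),(1634,[([3,2,2,1,3],1),([3,2,2,2,2],2),([3,2,3,1,2],1)]),(1676,[([3,2,2,1,3],1),([3,2,2,2,2],2),([4,3,2,1,2],1)]),(1697,[([2,2,2,1,3],1),([2,2,2,2,2],2),([3,3,2,1,2],1)]),(1802,[([2,2,2,2,2],1),([3,2,2,2,2],1),([3,2,3,1,2],1),([3,3,2,1,2],1)]),(1809,[([1,2,2,2,2],1),([2,2,2,2,2],1),([2,2,3,1,2],1),([2,3,2,1,2],1)]),(2131,[([3,2,2,2,2],1),([4,2,2,2,2],1),([4,2,2,3,1],1),([4,2,3,2,1],1)]),(2138,[([2,2,2,2,2],1),([3,2,2,2,2],1),([3,2,2,3,1],1),([3,2,3,2,1],1)]),(2187,[([2,2,2,2,2],1),([3,2,2,2,2],1),([3,2,2,3,1],1),([4,3,2,2,1],1)]),(2201,[([1,2,2,2,2],1),([2,2,2,2,2],1),([2,2,2,3,1],1),([3,3,2,2,1],1)]),(2250,[([1,2,2,2,2],1),([2,2,2,2,2],1),([3,2,3,2,1],1),([3,3,2,2,1],1)]),(2257,[([0,2,2,2,2],1),([1,2,2,2,2],1),([2,2,3,2,1],1),([2,3,2,2,1],1)])]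

def g4_19 : Gen := [(668,[([4,1,2,2,3],1),([4,2,1,2,3],1),([5,2,2,2,2],1),([6,2,2,2,2],1)]),(675,[([4,1,2,3,2],1),([4,2,1,3,2],1),([4,2,2,2,2],1),([5,2,2,2,2],1)]),(724,[([3,1,2,2,3],1),([4,2,2,1,3],1),([4,2,2,2,2],1),([5,2,2,2,2],1)]),(738,[([4,1,3,2,2],1),([4,2,2,2,2],2),([4,2,3,1,2],1)]),(787,[([3,1,2,3,2],1),([4,2,2,2,2],2),([4,2,2,3,1],1)]),(794,[([3,1,3,2,2],1),([3,2,2,2,2],2),([4,2,3,2,1],1)]),(1116,[([3,1,2,2,3],1),([3,2,1,2,3],1),([4,2,2,2,2],1),([5,2,2,2,2],1)]),(1123,[([3,1,2,3,2],1),([3,2,1,3,2],1),([3,2,2,2,2],1),([4,2,2,2,2],1)]),(1228,[([3,2,1,2,3],1),([3,2,2,1,3],1),([3,2,2,2,2],1),([4,2,2,2,2],1)]),(1249,[([3,2,2,2,2],1),([4,2,2,2,2],1),([4,3,1,2,2],1),([4,3,2,1,2],1)]),(1291,[([3,2,1,3,2],1),([3,2,2,2,2],2),([3,2,2,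3,1],1)]),(1305,[([2,2,2,2,2],1),([3,2,2,2,2],1),([3,3,1,2,2],1),([4,3,2,2,1],1)]),(1620,[([2,1,2,2,3],1),([3,2,2,1,3],1),([3,2,2,2,2],1),([4,2,2,2,2],1)]),(1634,[([3,1,3,2,2],1),([3,2,2,2,2],2),([3,2,3,1,2],1)]),(1676,[([2,2,1,2,3],1),([2,2,2,1,3],1),([2,2,2,2,2],1),([3,2,2,2,2],1)]),(1697,[([2,2,2,2,2],1),([3,2,2,2,2],1),([3,3,1,2,2],1),([3,3,2,1,2],1)]),(1802,[([2,2,2,2,2],1),([3,2,2,2,2],1),([3,2,3,1,2],1),([3,2,3,2,1],1)]),(1809,[([1,2,2,2,2],1),([2,2,2,2,2],1),([3,3,2,1,2],1),([3,3,2,2,1],1)]),(2131,[([2,1,2,3,2],1),([3,2,2,2,2],2),([3,2,2,3,1],1)]),(2138,[([2,1,3,2,2],1),([2,2,2,2,2],2),([3,2,3,2,1],1)]),(2187,[([2,2,1,3,2],1),([2,2,2,2,2],2),([2,2,2,3,1],1)]),(2201,[([1,2,2,2,2],1),([2,2,2,2,2],1),([2,3,1,2,2],1),([3,3,2,2,1],1)]),(2250,[([1,2,2,2,2],1),([2,2,2,2,2],1),([2,2,3,1,2],1),([2,2,3,2,1],1)]),(2257,[([0,2,2,2,2],1),([1,2,2,2,2],1),([2,3,2,1,2],1),([2,3,2,2,1],1)])]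

def g4_20 : Gen := [(668,[([5,1,2,2,3],1),([5,1,2,3,2],1),([5,2,1,2,3],1),([5,2,1,3,2],1),([5,2,2,2,2],1),([6,2,2,2,2],2),([7,2,2,2,2],1)]),(675,[([4,1,2,2,3],1),([4,1,2,3,2],1),([4,2,1,2,3],1),([4,2,1,3,2],1),([4,2,2,2,2],1),([5,2,2,2,2],2),([6,2,2,2,2],1)]),(724,[([4,1,2,2,3],1),([5,1,3,2,2],1),([5,2,2,1,3],1),([5,2,2,2,2],3),([5,2,3,1,2],1),([6,2,2,2,2],1)]),(738,[([3,1,2,2,3],1),([4,1,3,2,2],1),([4,2,2,1,3],1),([4,2,2,2,2],3),([4,2,3,1,2],1),([5,2,2,2,2],1)]),(787,[([4,1,2,3,2],1),([4,1,3,2,2],1),([4,2,2,2,2],2),([5,2,2,2,2],2),([5,2,2,3,1],1),([5,2,3,2,1],1)]),(794,[([3,1,2,3,2],1),([3,1,3,2,2],1),([3,2,2,2,2],2),([4,2,2,2,2],2),([4,2,2,3,1],1),([4,2,3,2,1],1)]),(1116,[([4,1,2,2,3],1),([4,1,2,3,2],1),([4,2,1,2,3],1),([4,2,1,3,2]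,1),([4,2,2,2,2],1),([5,2,2,2,2],2),([6,2,2,2,2],1)]),(1123,[([3,1,2,2,3],1),([3,1,2,3,2],1),([3,2,1,2,3],1),([3,2,1,3,2],1),([3,2,2,2,2],1),([4,2,2,2,2],2),([5,2,2,2,2],1)]),(1228,[([4,2,1,2,3],1),([4,2,2,1,3],1),([4,2,2,2,2],2),([5,2,2,2,2],2),([5,3,1,2,2],1),([5,3,2,1,2],1)]),(1249,[([3,2,1,2,3],1),([3,2,2,1,3],1),([3,2,2,2,2],2),([4,2,2,2,2],2),([4,3,1,2,2],1),([4,3,2,1,2],1)]),(1291,[([3,2,2,2,2],1),([4,2,1,3,2],1),([4,2,2,2,2],3),([4,2,2,3,1],1),([4,3,1,2,2],1),([5,3,2,2,1],1)]),(1305,[([2,2,2,2,2],1),([3,2,1,3,2],1),([3,2,2,2,2],3),([3,2,2,3,1],1),([3,3,1,2,2],1),([4,3,2,2,1],1)]),(1620,[([3,1,2,2,3],1),([4,1,3,2,2],1),([4,2,2,1,3],1),([4,2,2,2,2],3),([4,2,3,1,2],1),([5,2,2,2,2],1)]),(1634,[([2,1,2,2,3],1),([3,1,3,2,2],1),([3,2,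2,1,3],1),([3,2,2,2,2],3),([3,2,3,1,2],1),([4,2,2,2,2],1)]),(1676,[([3,2,1,2,3],1),([3,2,2,1,3],1),([3,2,2,2,2],2),([4,2,2,2,2],2),([4,3,1,2,2],1),([4,3,2,1,2],1)]),(1697,[([2,2,1,2,3],1),([2,2,2,1,3],1),([2,2,2,2,2],2),([3,2,2,2,2],2),([3,3,1,2,2],1),([3,3,2,1,2],1)]),(1802,[([2,2,2,2,2],1),([3,2,2,2,2],2),([4,2,2,2,2],1),([4,2,3,1,2],1),([4,2,3,2,1],1),([4,3,2,1,2],1),([4,3,2,2,1],1)]),(1809,[([1,2,2,2,2],1),([2,2,2,2,2],2),([3,2,2,2,2],1),([3,2,3,1,2],1),([3,2,3,2,1],1),([3,3,2,1,2],1),([3,3,2,2,1],1)]),(2131,[([3,1,2,3,2],1),([3,1,3,2,2],1),([3,2,2,2,2],2),([4,2,2,2,2],2),([4,2,2,3,1],1),([4,2,3,2,1],1)]),(2138,[([2,1,2,3,2],1),([2,1,3,2,2],1),([2,2,2,2,2],2),([3,2,2,2,2],2),([3,2,2,3,1],1),([3,2,3,2,1],1)]),(2187,[([2,2,2,2,2],1),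([3,2,1,3,2],1),([3,2,2,2,2],3),([3,2,2,3,1],1),([3,3,1,2,2],1),([4,3,2,2,1],1)]),(2201,[([1,2,2,2,2],1),([2,2,1,3,2],1),([2,2,2,2,2],3),([2,2,2,3,1],1),([2,3,1,2,2],1),([3,3,2,2,1],1)]),(2250,[([1,2,2,2,2],1),([2,2,2,2,2],2),([3,2,2,2,2],1),([3,2,3,1,2],1),([3,2,3,2,1],1),([3,3,2,1,2],1),([3,3,2,2,1],1)]),(2257,[([0,2,2,2,2],1),([1,2,2,2,2],2),([2,2,2,2,2],1),([2,2,3,1,2],1),([2,2,3,2,1],1),([2,3,2,1,2],1),([2,3,2,2,1],1)])]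

def g4_21 : Gen := [(668,[([3,1,2,2,3],1),([3,2,1,2,3],1),([4,2,2,2,2],1)]),(675,[([3,1,2,3,2],1),([3,2,1,3,2],1),([3,2,2,2,2],1)]),(724,[([2,1,2,2,3],1),([3,2,2,1,3],1),([3,2,2,2,2],1)]),(738,[([3,1,3,2,2],1),([3,2,2,2,2],1),([3,2,3,1,2],1)]),(787,[([2,1,2,3,2],1),([3,2,2,2,2],1),([3,2,2,3,1],1)]),(794,[([2,1,3,2,2],1),([2,2,2,2,2],1),([3,2,3,2,1],1)]),(1116,[([2,1,2,2,3],1),([2,2,1,2,3],1),([3,2,2,2,2],1)]),(1123,[([2,1,2,3,2],1),([2,2,1,3,2],1),([2,2,2,2,2],1)]),(1228,[([2,2,1,2,3],1),([2,2,2,1,3],1),([2,2,2,2,2],1)]),(1249,[([3,2,2,2,2],1),([3,3,1,2,2],1),([3,3,2,1,2],1)]),(1291,[([2,2,1,3,2],1),([2,2,2,2,2],1),([2,2,2,3,1],1)]),(1305,[([2,2,2,2,2],1),([2,3,1,2,2],1),([3,3,2,2,1],1)]),(1620,[([1,1,2,2,3],1),([2,2,2,1,3],1),([2,2,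2,2,2],1)]),(1634,[([2,1,3,2,2],1),([2,2,2,2,2],1),([2,2,3,1,2],1)]),(1676,[([1,2,1,2,3],1),([1,2,2,1,3],1),([1,2,2,2,2],1)]),(1697,[([2,2,2,2,2],1),([2,3,1,2,2],1),([2,3,2,1,2],1)]),(1802,[([2,2,2,2,2],1),([2,2,3,1,2],1),([2,2,3,2,1],1)]),(1809,[([1,2,2,2,2],1),([2,3,2,1,2],1),([2,3,2,2,1],1)]),(2131,[([1,1,2,3,2],1),([2,2,2,2,2],1),([2,2,2,3,1],1)]),(2138,[([1,1,3,2,2],1),([1,2,2,2,2],1),([2,2,3,2,1],1)]),(2187,[([1,2,1,3,2],1),([1,2,2,2,2],1),([1,2,2,3,1],1)]),(2201,[([1,2,2,2,2],1),([1,3,1,2,2],1),([2,3,2,2,1],1)]),(2250,[([1,2,2,2,2],1),([1,2,3,1,2],1),([1,2,3,2,1],1)]),(2257,[([0,2,2,2,2],1),([1,3,2,1,2],1),([1,3,2,2,1],1)])]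

def g4_22 : Gen := [(668,[([4,1,2,2,3],1),([4,1,2,3,2],1),([4,2,1,2,3],1),([4,2,1,3,2],1),([4,2,2,2,2],1),([5,2,2,2,2],1)]),(675,[([3,1,2,2,3],1),([3,1,2,3,2],1),([3,2,1,2,3],1),([3,2,1,3,2],1),([3,2,2,2,2],1),([4,2,2,2,2],1)]),(724,[([3,1,2,2,3],1),([4,1,3,2,2],1),([4,2,2,1,3],1),([4,2,2,2,2],2),([4,2,3,1,2],1)]),(738,[([2,1,2,2,3],1),([3,1,3,2,2],1),([3,2,2,1,3],1),([3,2,2,2,2],2),([3,2,3,1,2],1)]),(787,[([3,1,2,3,2],1),([3,1,3,2,2],1),([3,2,2,2,2],1),([4,2,2,2,2],1),([4,2,2,3,1],1),([4,2,3,2,1],1)]),(794,[([2,1,2,3,2],1),([2,1,3,2,2],1),([2,2,2,2,2],1),([3,2,2,2,2],1),([3,2,2,3,1],1),([3,2,3,2,1],1)]),(1116,[([3,1,2,2,3],1),([3,1,2,3,2],1),([3,2,1,2,3],1),([3,2,1,3,2],1),([3,2,2,2,2],1),([4,2,2,2,2],1)]),(1123,[([2,1,2,2,3],1),([2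,1,2,3,2],1),([2,2,1,2,3],1),([2,2,1,3,2],1),([2,2,2,2,2],1),([3,2,2,2,2],1)]),(1228,[([3,2,1,2,3],1),([3,2,2,1,3],1),([3,2,2,2,2],1),([4,2,2,2,2],1),([4,3,1,2,2],1),([4,3,2,1,2],1)]),(1249,[([2,2,1,2,3],1),([2,2,2,1,3],1),([2,2,2,2,2],1),([3,2,2,2,2],1),([3,3,1,2,2],1),([3,3,2,1,2],1)]),(1291,[([3,2,1,3,2],1),([3,2,2,2,2],2),([3,2,2,3,1],1),([3,3,1,2,2],1),([4,3,2,2,1],1)]),(1305,[([2,2,1,3,2],1),([2,2,2,2,2],2),([2,2,2,3,1],1),([2,3,1,2,2],1),([3,3,2,2,1],1)]),(1620,[([2,1,2,2,3],1),([3,1,3,2,2],1),([3,2,2,1,3],1),([3,2,2,2,2],2),([3,2,3,1,2],1)]),(1634,[([1,1,2,2,3],1),([2,1,3,2,2],1),([2,2,2,1,3],1),([2,2,2,2,2],2),([2,2,3,1,2],1)]),(1676,[([2,2,1,2,3],1),([2,2,2,1,3],1),([2,2,2,2,2],1),([3,2,2,2,2],1),([3,3,1,2,2],1),([3,3,2,1,2],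1)]),(1697,[([1,2,1,2,3],1),([1,2,2,1,3],1),([1,2,2,2,2],1),([2,2,2,2,2],1),([2,3,1,2,2],1),([2,3,2,1,2],1)]),(1802,[([2,2,2,2,2],1),([3,2,2,2,2],1),([3,2,3,1,2],1),([3,2,3,2,1],1),([3,3,2,1,2],1),([3,3,2,2,1],1)]),(1809,[([1,2,2,2,2],1),([2,2,2,2,2],1),([2,2,3,1,2],1),([2,2,3,2,1],1),([2,3,2,1,2],1),([2,3,2,2,1],1)]),(2131,[([2,1,2,3,2],1),([2,1,3,2,2],1),([2,2,2,2,2],1),([3,2,2,2,2],1),([3,2,2,3,1],1),([3,2,3,2,1],1)]),(2138,[([1,1,2,3,2],1),([1,1,3,2,2],1),([1,2,2,2,2],1),([2,2,2,2,2],1),([2,2,2,3,1],1),([2,2,3,2,1],1)]),(2187,[([2,2,1,3,2],1),([2,2,2,2,2],2),([2,2,2,3,1],1),([2,3,1,2,2],1),([3,3,2,2,1],1)]),(2201,[([1,2,1,3,2],1),([1,2,2,2,2],2),([1,2,2,3,1],1),([1,3,1,2,2],1),([2,3,2,2,1],1)]),(2250,[([1,2,2,2,2],1),([2,2,2,2,2],1),([2,2,3,1,2],1),([2,2,3,2,1],1),([2,3,2,1,2],1),([2,3,2,2,1],1)]),(2257,[([0,2,2,2,2],1),([1,2,2,2,2],1),([1,2,3,1,2],1),([1,2,3,2,1],1),([1,3,2,1,2],1),([1,3,2,2,1],1)])]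

def g4_23 : Gen := [(668,[([3,1,2,2,3],1),([3,1,2,3,2],1),([4,2,2,2,2],1)]),(675,[([2,1,2,2,3],1),([2,1,2,3,2],1),([3,2,2,2,2],1)]),(724,[([2,1,2,2,3],1),([3,1,3,2,2],1),([3,2,2,2,2],1)]),(738,[([1,1,2,2,3],1),([2,1,3,2,2],1),([2,2,2,2,2],1)]),(787,[([2,1,2,3,2],1),([2,1,3,2,2],1),([2,2,2,2,2],1)]),(794,[([1,1,2,3,2],1),([1,1,3,2,2],1),([1,2,2,2,2],1)]),(1116,[([3,2,1,2,3],1),([3,2,1,3,2],1),([3,2,2,2,2],1)]),(1123,[([2,2,1,2,3],1),([2,2,1,3,2],1),([2,2,2,2,2],1)]),(1228,[([2,2,1,2,3],1),([3,2,2,2,2],1),([3,3,1,2,2],1)]),(1249,[([1,2,1,2,3],1),([2,2,2,2,2],1),([2,3,1,2,2],1)]),(1291,[([2,2,1,3,2],1),([2,2,2,2,2],1),([2,3,1,2,2],1)]),(1305,[([1,2,1,3,2],1),([1,2,2,2,2],1),([1,3,1,2,2],1)]),(1620,[([3,2,2,1,3],1),([3,2,2,2,2],1),([3,2,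3,1,2],1)]),(1634,[([2,2,2,1,3],1),([2,2,2,2,2],1),([2,2,3,1,2],1)]),(1676,[([2,2,2,1,3],1),([2,2,2,2,2],1),([3,3,2,1,2],1)]),(1697,[([1,2,2,1,3],1),([1,2,2,2,2],1),([2,3,2,1,2],1)]),(1802,[([2,2,2,2,2],1),([2,2,3,1,2],1),([2,3,2,1,2],1)]),(1809,[([1,2,2,2,2],1),([1,2,3,1,2],1),([1,3,2,1,2],1)]),(2131,[([3,2,2,2,2],1),([3,2,2,3,1],1),([3,2,3,2,1],1)]),(2138,[([2,2,2,2,2],1),([2,2,2,3,1],1),([2,2,3,2,1],1)]),(2187,[([2,2,2,2,2],1),([2,2,2,3,1],1),([3,3,2,2,1],1)]),(2201,[([1,2,2,2,2],1),([1,2,2,3,1],1),([2,3,2,2,1],1)]),(2250,[([1,2,2,2,2],1),([2,2,3,2,1],1),([2,3,2,2,1],1)]),(2257,[([0,2,2,2,2],1),([1,2,3,2,1],1),([1,3,2,2,1],1)])]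

def g4_24 : Gen := [(668,[([4,1,2,2,3],1),([5,1,2,2,3],1),([5,1,2,3,2],1),([5,1,3,2,2],1),([5,2,1,2,3],1),([5,2,1,3,2],1),([5,2,2,1,3],1),([5,2,2,2,2],3),([5,2,3,1,2],1),([6,2,2,2,2],1)]),(675,[([4,1,2,2,3],1),([4,1,2,3,2],2),([4,1,3,2,2],1),([4,2,1,2,3],1),([4,2,1,3,2],1),([4,2,2,2,2],2),([5,2,2,2,2],2),([5,2,2,3,1],1),([5,2,3,2,1],1)]),(724,[([3,1,2,2,3],1),([4,1,2,2,3],1),([4,1,2,3,2],1),([4,1,3,2,2],1),([4,2,1,2,3],1),([4,2,1,3,2],1),([4,2,2,1,3],1),([4,2,2,2,2],3),([4,2,3,1,2],1),([5,2,2,2,2],1)]),(738,[([3,1,2,2,3],1),([3,1,2,3,2],1),([3,1,3,2,2],1),([3,2,2,2,2],1),([4,1,3,2,2],1),([4,2,2,1,3],1),([4,2,2,2,2],3),([4,2,2,3,1],1),([4,2,3,1,2],1),([4,2,3,2,1],1)]),(787,[([3,1,2,2,3],1),([3,1,2,3,2],2),([3,1,3,2,2],1),([3,2,1,2,3],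1),([3,2,1,3,2],1),([3,2,2,2,2],2),([4,2,2,2,2],2),([4,2,2,3,1],1),([4,2,3,2,1],1)]),(794,[([2,1,2,2,3],1),([2,1,2,3,2],1),([2,1,3,2,2],1),([2,2,2,2,2],1),([3,1,3,2,2],1),([3,2,2,1,3],1),([3,2,2,2,2],3),([3,2,2,3,1],1),([3,2,3,1,2],1),([3,2,3,2,1],1)]),(1116,[([4,1,2,2,3],1),([4,1,2,3,2],1),([4,2,1,2,3],2),([4,2,1,3,2],1),([4,2,2,1,3],1),([4,2,2,2,2],2),([5,2,2,2,2],2),([5,3,1,2,2],1),([5,3,2,1,2],1)]),(1123,[([3,1,2,2,3],1),([3,1,2,3,2],1),([3,2,1,2,3],1),([3,2,1,3,2],1),([3,2,2,2,2],1),([4,2,1,3,2],1),([4,2,2,2,2],3),([4,2,2,3,1],1),([4,3,1,2,2],1),([5,3,2,2,1],1)]),(1228,[([3,1,2,2,3],1),([3,1,2,3,2],1),([3,2,1,2,3],2),([3,2,1,3,2],1),([3,2,2,1,3],1),([3,2,2,2,2],2),([4,2,2,2,2],2),([4,3,1,2,2],1),([4,3,2,1,2],1)]),(1249,[([3,2,1,2,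3],1),([3,2,1,3,2],1),([3,2,2,1,3],1),([3,2,2,2,2],3),([3,2,2,3,1],1),([3,3,1,2,2],1),([4,2,2,2,2],1),([4,3,1,2,2],1),([4,3,2,1,2],1),([4,3,2,2,1],1)]),(1291,[([2,1,2,2,3],1),([2,1,2,3,2],1),([2,2,1,2,3],1),([2,2,1,3,2],1),([2,2,2,2,2],1),([3,2,1,3,2],1),([3,2,2,2,2],3),([3,2,2,3,1],1),([3,3,1,2,2],1),([4,3,2,2,1],1)]),(1305,[([2,2,1,2,3],1),([2,2,1,3,2],1),([2,2,2,1,3],1),([2,2,2,2,2],3),([2,2,2,3,1],1),([2,3,1,2,2],1),([3,2,2,2,2],1),([3,3,1,2,2],1),([3,3,2,1,2],1),([3,3,2,2,1],1)]),(1620,[([3,1,2,2,3],1),([3,2,1,2,3],1),([3,2,2,1,3],1),([3,2,2,2,2],1),([4,1,3,2,2],1),([4,2,2,1,3],1),([4,2,2,2,2],3),([4,2,3,1,2],1),([4,3,1,2,2],1),([4,3,2,1,2],1)]),(1634,[([2,1,2,2,3],1),([3,1,3,2,2],1),([3,2,2,1,3],1),([3,2,2,2,2],3),([3,2,3,1,2],1)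,([4,2,2,2,2],1),([4,2,3,1,2],1),([4,2,3,2,1],1),([4,3,2,1,2],1),([4,3,2,2,1],1)]),(1676,[([2,1,2,2,3],1),([2,2,1,2,3],1),([2,2,2,1,3],1),([2,2,2,2,2],1),([3,1,3,2,2],1),([3,2,2,1,3],1),([3,2,2,2,2],3),([3,2,3,1,2],1),([3,3,1,2,2],1),([3,3,2,1,2],1)]),(1697,[([2,2,1,2,3],1),([2,2,2,1,3],1),([2,2,2,2,2],2),([3,2,2,2,2],2),([3,2,3,1,2],1),([3,2,3,2,1],1),([3,3,1,2,2],1),([3,3,2,1,2],2),([3,3,2,2,1],1)]),(1802,[([1,1,2,2,3],1),([2,1,3,2,2],1),([2,2,2,1,3],1),([2,2,2,2,2],3),([2,2,3,1,2],1),([3,2,2,2,2],1),([3,2,3,1,2],1),([3,2,3,2,1],1),([3,3,2,1,2],1),([3,3,2,2,1],1)]),(1809,[([1,2,1,2,3],1),([1,2,2,1,3],1),([1,2,2,2,2],2),([2,2,2,2,2],2),([2,2,3,1,2],1),([2,2,3,2,1],1),([2,3,1,2,2],1),([2,3,2,1,2],2),([2,3,2,2,1],1)]),(2131,[([3,1,2,3,2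],1),([3,1,3,2,2],1),([3,2,1,3,2],1),([3,2,2,2,2],3),([3,2,2,3,1],1),([3,3,1,2,2],1),([4,2,2,2,2],1),([4,2,2,3,1],1),([4,2,3,2,1],1),([4,3,2,2,1],1)]),(2138,[([2,1,2,3,2],1),([2,1,3,2,2],1),([2,2,2,2,2],2),([3,2,2,2,2],2),([3,2,2,3,1],1),([3,2,3,1,2],1),([3,2,3,2,1],2),([3,3,2,1,2],1),([3,3,2,2,1],1)]),(2187,[([2,1,2,3,2],1),([2,1,3,2,2],1),([2,2,1,3,2],1),([2,2,2,2,2],3),([2,2,2,3,1],1),([2,3,1,2,2],1),([3,2,2,2,2],1),([3,2,2,3,1],1),([3,2,3,2,1],1),([3,3,2,2,1],1)]),(2201,[([1,2,2,2,2],1),([2,2,1,3,2],1),([2,2,2,2,2],3),([2,2,2,3,1],1),([2,2,3,1,2],1),([2,2,3,2,1],1),([2,3,1,2,2],1),([2,3,2,1,2],1),([2,3,2,2,1],1),([3,3,2,2,1],1)]),(2250,[([1,1,2,3,2],1),([1,1,3,2,2],1),([1,2,2,2,2],2),([2,2,2,2,2],2),([2,2,2,3,1],1),([2,2,3,1,2],1),([2,2,3,2,1],2),([2,3,2,1,2],1),([2,3,2,2,1],1)]),(2257,[([0,2,2,2,2],1),([1,2,1,3,2],1),([1,2,2,2,2],3),([1,2,2,3,1],1),([1,2,3,1,2],1),([1,2,3,2,1],1),([1,3,1,2,2],1),([1,3,2,1,2],1),([1,3,2,2,1],1),([2,3,2,2,1],1)])]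

def g4_25 : Gen := [(668,[([2,1,2,3,3],1),([3,2,2,2,3],2),([3,2,2,3,2],1)]),(675,[([1,1,2,3,3],1),([2,2,2,2,3],1),([2,2,2,3,2],1),([3,2,2,3,2],1)]),(724,[([2,1,3,2,3],1),([2,2,2,2,3],2),([3,2,3,2,2],1)]),(738,[([1,1,3,2,3],1),([1,2,2,2,3],1),([2,2,3,2,2],1),([3,2,3,2,2],1)]),(787,[([2,1,3,3,2],1),([2,2,2,3,2],2),([2,2,3,2,2],1)]),(794,[([1,1,3,3,2],1),([1,2,2,3,2],1),([1,2,3,2,2],1),([2,2,3,2,2],1)]),(1116,[([2,2,1,3,3],1),([2,2,2,2,3],2),([2,2,2,3,2],1)]),(1123,[([1,2,1,3,3],1),([1,2,2,2,3],1),([1,2,2,3,2],1),([2,2,2,3,2],1)]),(1228,[([1,2,2,2,3],1),([2,2,2,2,3],1),([2,3,1,2,3],1),([3,3,2,2,2],1)]),(1249,[([1,2,2,2,3],1),([1,3,1,2,3],1),([2,3,2,2,2],1),([3,3,2,2,2],1)]),(1291,[([1,2,2,3,2],1),([2,2,2,3,2],1),([2,3,1,3,2],1),([2,3,2,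2,2],1)]),(1305,[([1,2,2,3,2],1),([1,3,1,3,2],1),([1,3,2,2,2],1),([2,3,2,2,2],1)]),(1620,[([1,2,2,2,3],1),([2,2,2,2,3],1),([2,2,3,1,3],1),([2,2,3,2,2],1)]),(1634,[([1,2,2,2,3],1),([1,2,3,1,3],1),([1,2,3,2,2],1),([2,2,3,2,2],1)]),(1676,[([0,2,2,2,3],1),([1,2,2,2,3],1),([2,3,2,1,3],1),([2,3,2,2,2],1)]),(1697,[([0,2,2,2,3],1),([1,3,2,1,3],1),([1,3,2,2,2],1),([2,3,2,2,2],1)]),(1802,[([1,2,3,2,2],1),([2,2,3,2,2],1),([2,3,2,2,2],1),([2,3,3,1,2],1)]),(1809,[([1,2,3,2,2],1),([1,3,2,2,2],2),([1,3,3,1,2],1)]),(2131,[([1,2,2,3,2],1),([2,2,2,3,2],1),([2,2,3,2,2],1),([2,2,3,3,1],1)]),(2138,[([1,2,2,3,2],1),([1,2,3,2,2],2),([1,2,3,3,1],1)]),(2187,[([0,2,2,3,2],1),([1,2,2,3,2],1),([2,3,2,2,2],1),([2,3,2,3,1],1)]),(2201,[([0,2,2,3,2],1),([1,3,2,2,2],2),([1,3,2,3,1],1)]),(2250,[([0,2,3,2,2],1),([1,2,3,2,2],1),([1,3,2,2,2],1),([2,3,3,2,1],1)]),(2257,[([0,2,3,2,2],1),([0,3,2,2,2],2),([1,3,3,2,1],1)])]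

def g4_26 : Gen := [(668,[([2,1,2,3,3],1),([3,1,2,3,3],1),([3,2,2,2,3],1),([3,2,2,3,2],1),([4,2,2,2,3],2),([4,2,2,3,2],2)]),(675,[([1,1,2,3,3],1),([2,1,2,3,3],1),([2,2,2,2,3],1),([2,2,2,3,2],1),([3,2,2,2,3],2),([3,2,2,3,2],2)]),(724,[([2,1,3,2,3],1),([2,2,2,2,3],1),([3,1,3,2,3],1),([3,2,2,2,3],2),([3,2,3,2,2],1),([4,2,3,2,2],2)]),(738,[([1,1,3,2,3],1),([1,2,2,2,3],1),([2,1,3,2,3],1),([2,2,2,2,3],2),([2,2,3,2,2],1),([3,2,3,2,2],2)]),(787,[([2,1,3,3,2],1),([2,2,2,3,2],1),([2,2,3,2,2],1),([3,1,3,3,2],1),([3,2,2,3,2],2),([3,2,3,2,2],2)]),(794,[([1,1,3,3,2],1),([1,2,2,3,2],1),([1,2,3,2,2],1),([2,1,3,3,2],1),([2,2,2,3,2],2),([2,2,3,2,2],2)]),(1116,[([2,2,1,3,3],1),([2,2,2,2,3],1),([2,2,2,3,2],1),([3,2,1,3,3],1),([3,2,2,2,3],2),([3,2,2,3,2]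,2)]),(1123,[([1,2,1,3,3],1),([1,2,2,2,3],1),([1,2,2,3,2],1),([2,2,1,3,3],1),([2,2,2,2,3],2),([2,2,2,3,2],2)]),(1228,[([2,2,2,2,3],2),([2,3,1,2,3],1),([3,2,2,2,3],1),([3,3,1,2,3],1),([3,3,2,2,2],1),([4,3,2,2,2],2)]),(1249,[([1,2,2,2,3],2),([1,3,1,2,3],1),([2,2,2,2,3],1),([2,3,1,2,3],1),([2,3,2,2,2],1),([3,3,2,2,2],2)]),(1291,[([2,2,2,3,2],2),([2,3,1,3,2],1),([2,3,2,2,2],1),([3,2,2,3,2],1),([3,3,1,3,2],1),([3,3,2,2,2],2)]),(1305,[([1,2,2,3,2],2),([1,3,1,3,2],1),([1,3,2,2,2],1),([2,2,2,3,2],1),([2,3,1,3,2],1),([2,3,2,2,2],2)]),(1620,[([2,2,2,2,3],2),([2,2,3,1,3],1),([2,2,3,2,2],1),([3,2,2,2,3],1),([3,2,3,1,3],1),([3,2,3,2,2],2)]),(1634,[([1,2,2,2,3],2),([1,2,3,1,3],1),([1,2,3,2,2],1),([2,2,2,2,3],1),([2,2,3,1,3],1),([2,2,3,2,2],2)]),(167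6,[([1,2,2,2,3],2),([2,2,2,2,3],1),([2,3,2,1,3],1),([2,3,2,2,2],1),([3,3,2,1,3],1),([3,3,2,2,2],2)]),(1697,[([0,2,2,2,3],2),([1,2,2,2,3],1),([1,3,2,1,3],1),([1,3,2,2,2],1),([2,3,2,1,3],1),([2,3,2,2,2],2)]),(1802,[([2,2,3,2,2],2),([2,3,2,2,2],2),([2,3,3,1,2],1),([3,2,3,2,2],1),([3,3,2,2,2],1),([3,3,3,1,2],1)]),(1809,[([1,2,3,2,2],2),([1,3,2,2,2],2),([1,3,3,1,2],1),([2,2,3,2,2],1),([2,3,2,2,2],1),([2,3,3,1,2],1)]),(2131,[([2,2,2,3,2],2),([2,2,3,2,2],2),([2,2,3,3,1],1),([3,2,2,3,2],1),([3,2,3,2,2],1),([3,2,3,3,1],1)]),(2138,[([1,2,2,3,2],2),([1,2,3,2,2],2),([1,2,3,3,1],1),([2,2,2,3,2],1),([2,2,3,2,2],1),([2,2,3,3,1],1)]),(2187,[([1,2,2,3,2],2),([2,2,2,3,2],1),([2,3,2,2,2],2),([2,3,2,3,1],1),([3,3,2,2,2],1),([3,3,2,3,1],1)]),(2201,[([0,2,2,3,2],2),([1,2,2,3,2],1),([1,3,2,2,2],2),([1,3,2,3,1],1),([2,3,2,2,2],1),([2,3,2,3,1],1)]),(2250,[([1,2,3,2,2],2),([1,3,2,2,2],2),([2,2,3,2,2],1),([2,3,2,2,2],1),([2,3,3,2,1],1),([3,3,3,2,1],1)]),(2257,[([0,2,3,2,2],2),([0,3,2,2,2],2),([1,2,3,2,2],1),([1,3,2,2,2],1),([1,3,3,2,1],1),([2,3,3,2,1],1)])]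

def g4_27 : Gen := [(668,[([3,1,2,3,3],1),([3,1,3,2,3],1),([3,2,2,2,3],2),([4,2,2,2,3],2),([4,2,2,3,2],1),([4,2,3,2,2],1)]),(675,[([2,1,2,3,3],1),([3,1,3,3,2],1),([3,2,2,2,3],1),([3,2,2,3,2],3),([3,2,3,2,2],1),([4,2,2,3,2],1)]),(724,[([2,1,2,3,3],1),([2,1,3,2,3],1),([2,2,2,2,3],2),([3,2,2,2,3],2),([3,2,2,3,2],1),([3,2,3,2,2],1)]),(738,[([2,1,3,2,3],1),([2,1,3,3,2],1),([2,2,2,2,3],1),([2,2,2,3,2],1),([2,2,3,2,2],1),([3,2,3,2,2],2),([4,2,3,2,2],1)]),(787,[([1,1,2,3,3],1),([2,1,3,3,2],1),([2,2,2,2,3],1),([2,2,2,3,2],3),([2,2,3,2,2],1),([3,2,2,3,2],1)]),(794,[([1,1,3,2,3],1),([1,1,3,3,2],1),([1,2,2,2,3],1),([1,2,2,3,2],1),([1,2,3,2,2],1),([2,2,3,2,2],2),([3,2,3,2,2],1)]),(1116,[([2,2,2,2,3],1),([3,2,1,3,3],1),([3,2,2,2,3],3),([3,2,2,3,2]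,1),([3,3,1,2,3],1),([4,3,2,2,2],1)]),(1123,[([2,2,1,3,3],1),([2,2,2,2,3],1),([2,2,2,3,2],2),([3,2,2,3,2],2),([3,3,1,3,2],1),([3,3,2,2,2],1)]),(1228,[([1,2,2,2,3],1),([2,2,1,3,3],1),([2,2,2,2,3],3),([2,2,2,3,2],1),([2,3,1,2,3],1),([3,3,2,2,2],1)]),(1249,[([2,2,2,2,3],1),([2,2,2,3,2],1),([2,3,1,2,3],1),([2,3,1,3,2],1),([2,3,2,2,2],1),([3,3,2,2,2],2),([4,3,2,2,2],1)]),(1291,[([1,2,1,3,3],1),([1,2,2,2,3],1),([1,2,2,3,2],2),([2,2,2,3,2],2),([2,3,1,3,2],1),([2,3,2,2,2],1)]),(1305,[([1,2,2,2,3],1),([1,2,2,3,2],1),([1,3,1,2,3],1),([1,3,1,3,2],1),([1,3,2,2,2],1),([2,3,2,2,2],2),([3,3,2,2,2],1)]),(1620,[([1,2,2,2,3],1),([2,2,2,2,3],2),([3,2,2,2,3],1),([3,2,3,1,3],1),([3,2,3,2,2],1),([3,3,2,1,3],1),([3,3,2,2,2],1)]),(1634,[([2,2,2,2,3],1),([2,2,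3,1,3],1),([2,2,3,2,2],2),([3,2,3,2,2],2),([3,3,2,2,2],1),([3,3,3,1,2],1)]),(1676,[([0,2,2,2,3],1),([1,2,2,2,3],2),([2,2,2,2,3],1),([2,2,3,1,3],1),([2,2,3,2,2],1),([2,3,2,1,3],1),([2,3,2,2,2],1)]),(1697,[([1,2,2,2,3],1),([2,2,3,2,2],1),([2,3,2,1,3],1),([2,3,2,2,2],3),([2,3,3,1,2],1),([3,3,2,2,2],1)]),(1802,[([1,2,2,2,3],1),([1,2,3,1,3],1),([1,2,3,2,2],2),([2,2,3,2,2],2),([2,3,2,2,2],1),([2,3,3,1,2],1)]),(1809,[([0,2,2,2,3],1),([1,2,3,2,2],1),([1,3,2,1,3],1),([1,3,2,2,2],3),([1,3,3,1,2],1),([2,3,2,2,2],1)]),(2131,[([1,2,2,3,2],1),([2,2,2,3,2],2),([3,2,2,3,2],1),([3,2,3,2,2],1),([3,2,3,3,1],1),([3,3,2,2,2],1),([3,3,2,3,1],1)]),(2138,[([1,2,3,2,2],1),([2,2,2,3,2],1),([2,2,3,2,2],3),([2,2,3,3,1],1),([2,3,2,2,2],1),([3,3,3,2,1],1)]),(2187,[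([0,2,2,3,2],1),([1,2,2,3,2],2),([2,2,2,3,2],1),([2,2,3,2,2],1),([2,2,3,3,1],1),([2,3,2,2,2],1),([2,3,2,3,1],1)]),(2201,[([1,2,2,3,2],1),([1,2,3,2,2],1),([1,3,2,2,2],2),([2,3,2,2,2],2),([2,3,2,3,1],1),([2,3,3,2,1],1)]),(2250,[([0,2,3,2,2],1),([1,2,2,3,2],1),([1,2,3,2,2],3),([1,2,3,3,1],1),([1,3,2,2,2],1),([2,3,3,2,1],1)]),(2257,[([0,2,2,3,2],1),([0,2,3,2,2],1),([0,3,2,2,2],2),([1,3,2,2,2],2),([1,3,2,3,1],1),([1,3,3,2,1],1)])]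

def g4_28 : Gen := [(668,[([3,1,2,3,3],1),([4,1,2,3,3],1),([4,1,3,2,3],1),([4,1,3,3,2],1),([4,2,2,2,3],3),([4,2,2,3,2],3),([4,2,3,2,2],1),([5,2,2,2,3],2),([5,2,2,3,2],2),([5,2,3,2,2],1)]),(675,[([2,1,2,3,3],1),([3,1,2,3,3],1),([3,1,3,2,3],1),([3,1,3,3,2],1),([3,2,2,2,3],3),([3,2,2,3,2],3),([3,2,3,2,2],1),([4,2,2,2,3],2),([4,2,2,3,2],2),([4,2,3,2,2],1)]),(724,[([3,1,2,3,3],1),([3,1,3,2,3],2),([3,1,3,3,2],1),([3,2,2,2,3],3),([3,2,2,3,2],1),([3,2,3,2,2],1),([4,2,2,2,3],2),([4,2,2,3,2],1),([4,2,3,2,2],3),([5,2,3,2,2],1)]),(738,[([2,1,2,3,3],1),([2,1,3,2,3],2),([2,1,3,3,2],1),([2,2,2,2,3],3),([2,2,2,3,2],1),([2,2,3,2,2],1),([3,2,2,2,3],2),([3,2,2,3,2],1),([3,2,3,2,2],3),([4,2,3,2,2],1)]),(787,[([2,1,2,3,3],1),([2,1,3,2,3],1),([2,1,3,3,2],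1),([2,2,2,2,3],1),([2,2,2,3,2],1),([2,2,3,2,2],1),([3,1,3,3,2],1),([3,2,2,2,3],1),([3,2,2,3,2],3),([3,2,3,2,2],3),([4,2,2,3,2],1),([4,2,3,2,2],1)]),(794,[([1,1,2,3,3],1),([1,1,3,2,3],1),([1,1,3,3,2],1),([1,2,2,2,3],1),([1,2,2,3,2],1),([1,2,3,2,2],1),([2,1,3,3,2],1),([2,2,2,2,3],1),([2,2,2,3,2],3),([2,2,3,2,2],3),([3,2,2,3,2],1),([3,2,3,2,2],1)]),(1116,[([3,2,1,3,3],1),([3,2,2,2,3],2),([3,2,2,3,2],2),([4,2,1,3,3],1),([4,2,2,2,3],3),([4,2,2,3,2],3),([4,3,1,2,3],1),([4,3,1,3,2],1),([4,3,2,2,2],1),([5,3,2,2,2],1)]),(1123,[([2,2,1,3,3],1),([2,2,2,2,3],2),([2,2,2,3,2],2),([3,2,1,3,3],1),([3,2,2,2,3],3),([3,2,2,3,2],3),([3,3,1,2,3],1),([3,3,1,3,2],1),([3,3,2,2,2],1),([4,3,2,2,2],1)]),(1228,[([2,2,2,2,3],1),([3,2,1,3,3],1),([3,2,2,2,3],4),([3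,2,2,3,2],2),([3,3,1,2,3],2),([3,3,1,3,2],1),([3,3,2,2,2],1),([4,3,2,2,2],3),([5,3,2,2,2],1)]),(1249,[([1,2,2,2,3],1),([2,2,1,3,3],1),([2,2,2,2,3],4),([2,2,2,3,2],2),([2,3,1,2,3],2),([2,3,1,3,2],1),([2,3,2,2,2],1),([3,3,2,2,2],3),([4,3,2,2,2],1)]),(1291,[([2,2,1,3,3],1),([2,2,2,2,3],2),([2,2,2,3,2],3),([2,3,1,2,3],1),([2,3,1,3,2],1),([2,3,2,2,2],1),([3,2,2,3,2],2),([3,3,1,3,2],1),([3,3,2,2,2],3),([4,3,2,2,2],1)]),(1305,[([1,2,1,3,3],1),([1,2,2,2,3],2),([1,2,2,3,2],3),([1,3,1,2,3],1),([1,3,1,3,2],1),([1,3,2,2,2],1),([2,2,2,3,2],2),([2,3,1,3,2],1),([2,3,2,2,2],3),([3,3,2,2,2],1)]),(1620,[([2,2,2,2,3],1),([3,2,2,2,3],3),([3,2,3,1,3],1),([3,2,3,2,2],2),([4,2,2,2,3],1),([4,2,3,1,3],1),([4,2,3,2,2],3),([4,3,2,1,3],1),([4,3,2,2,2],2),([4,3,3,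1,2],1)]),(1634,[([1,2,2,2,3],1),([2,2,2,2,3],3),([2,2,3,1,3],1),([2,2,3,2,2],2),([3,2,2,2,3],1),([3,2,3,1,3],1),([3,2,3,2,2],3),([3,3,2,1,3],1),([3,3,2,2,2],2),([3,3,3,1,2],1)]),(1676,[([1,2,2,2,3],1),([2,2,2,2,3],3),([3,2,2,2,3],1),([3,2,3,1,3],1),([3,2,3,2,2],2),([3,3,2,1,3],2),([3,3,2,2,2],4),([3,3,3,1,2],1),([4,3,2,2,2],1)]),(1697,[([0,2,2,2,3],1),([1,2,2,2,3],3),([2,2,2,2,3],1),([2,2,3,1,3],1),([2,2,3,2,2],2),([2,3,2,1,3],2),([2,3,2,2,2],4),([2,3,3,1,2],1),([3,3,2,2,2],1)]),(1802,[([1,2,2,2,3],1),([2,2,2,2,3],1),([2,2,3,1,3],1),([2,2,3,2,2],3),([2,3,2,1,3],1),([2,3,2,2,2],3),([2,3,3,1,2],1),([3,2,3,2,2],2),([3,3,2,2,2],2),([3,3,3,1,2],1)]),(1809,[([0,2,2,2,3],1),([1,2,2,2,3],1),([1,2,3,1,3],1),([1,2,3,2,2],3),([1,3,2,1,3],1),([1,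3,2,2,2],3),([1,3,3,1,2],1),([2,2,3,2,2],2),([2,3,2,2,2],2),([2,3,3,1,2],1)]),(2131,[([2,2,2,3,2],1),([2,2,3,2,2],1),([3,2,2,3,2],3),([3,2,3,2,2],3),([3,2,3,3,1],1),([3,3,2,2,2],1),([4,2,2,3,2],1),([4,2,3,2,2],1),([4,2,3,3,1],1),([4,3,2,2,2],1),([4,3,2,3,1],1),([4,3,3,2,1],1)]),(2138,[([1,2,2,3,2],1),([1,2,3,2,2],1),([2,2,2,3,2],3),([2,2,3,2,2],3),([2,2,3,3,1],1),([2,3,2,2,2],1),([3,2,2,3,2],1),([3,2,3,2,2],1),([3,2,3,3,1],1),([3,3,2,2,2],1),([3,3,2,3,1],1),([3,3,3,2,1],1)]),(2187,[([1,2,2,3,2],1),([2,2,2,3,2],3),([2,2,3,2,2],1),([2,3,2,2,2],2),([3,2,2,3,2],1),([3,2,3,2,2],1),([3,2,3,3,1],1),([3,3,2,2,2],3),([3,3,2,3,1],2),([3,3,3,2,1],1)]),(2201,[([0,2,2,3,2],1),([1,2,2,3,2],3),([1,2,3,2,2],1),([1,3,2,2,2],2),([2,2,2,3,2],1),([2,2,3,2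,2],1),([2,2,3,3,1],1),([2,3,2,2,2],3),([2,3,2,3,1],2),([2,3,3,2,1],1)]),(2250,[([1,2,2,3,2],1),([1,2,3,2,2],2),([1,3,2,2,2],2),([2,2,2,3,2],1),([2,2,3,2,2],3),([2,2,3,3,1],1),([2,3,2,2,2],3),([2,3,2,3,1],1),([2,3,3,2,1],1),([3,3,3,2,1],1)]),(2257,[([0,2,2,3,2],1),([0,2,3,2,2],2),([0,3,2,2,2],2),([1,2,2,3,2],1),([1,2,3,2,2],3),([1,2,3,3,1],1),([1,3,2,2,2],3),([1,3,2,3,1],1),([1,3,3,2,1],1),([2,3,3,2,1],1)])]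

def g4_29 : Gen := [(668,[([2,1,2,3,3],1),([3,2,2,2,3],1),([3,2,2,3,2],1)]),(675,[([1,1,2,3,3],1),([2,2,2,2,3],1),([2,2,2,3,2],1)]),(724,[([2,1,3,2,3],1),([2,2,2,2,3],1),([3,2,3,2,2],1)]),(738,[([1,1,3,2,3],1),([1,2,2,2,3],1),([2,2,3,2,2],1)]),(787,[([2,1,3,3,2],1),([2,2,2,3,2],1),([2,2,3,2,2],1)]),(794,[([1,1,3,3,2],1),([1,2,2,3,2],1),([1,2,3,2,2],1)]),(1116,[([2,2,1,3,3],1),([2,2,2,2,3],1),([2,2,2,3,2],1)]),(1123,[([1,2,1,3,3],1),([1,2,2,2,3],1),([1,2,2,3,2],1)]),(1228,[([2,2,2,2,3],1),([2,3,1,2,3],1),([3,3,2,2,2],1)]),(1249,[([1,2,2,2,3],1),([1,3,1,2,3],1),([2,3,2,2,2],1)]),(1291,[([2,2,2,3,2],1),([2,3,1,3,2],1),([2,3,2,2,2],1)]),(1305,[([1,2,2,3,2],1),([1,3,1,3,2],1),([1,3,2,2,2],1)]),(1620,[([2,2,2,2,3],1),([2,2,3,1,3],1),([2,2,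3,2,2],1)]),(1634,[([1,2,2,2,3],1),([1,2,3,1,3],1),([1,2,3,2,2],1)]),(1676,[([1,2,2,2,3],1),([2,3,2,1,3],1),([2,3,2,2,2],1)]),(1697,[([0,2,2,2,3],1),([1,3,2,1,3],1),([1,3,2,2,2],1)]),(1802,[([2,2,3,2,2],1),([2,3,2,2,2],1),([2,3,3,1,2],1)]),(1809,[([1,2,3,2,2],1),([1,3,2,2,2],1),([1,3,3,1,2],1)]),(2131,[([2,2,2,3,2],1),([2,2,3,2,2],1),([2,2,3,3,1],1)]),(2138,[([1,2,2,3,2],1),([1,2,3,2,2],1),([1,2,3,3,1],1)]),(2187,[([1,2,2,3,2],1),([2,3,2,2,2],1),([2,3,2,3,1],1)]),(2201,[([0,2,2,3,2],1),([1,3,2,2,2],1),([1,3,2,3,1],1)]),(2250,[([1,2,3,2,2],1),([1,3,2,2,2],1),([2,3,3,2,1],1)]),(2257,[([0,2,3,2,2],1),([0,3,2,2,2],1),([1,3,3,2,1],1)])]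

def g4_30 : Gen := [(668,[([3,1,2,3,3],1),([3,1,3,2,3],1),([3,2,2,2,3],1),([4,2,2,2,3],1),([4,2,2,3,2],1),([4,2,3,2,2],1)]),(675,[([2,1,2,3,3],1),([3,1,3,3,2],1),([3,2,2,2,3],1),([3,2,2,3,2],2),([3,2,3,2,2],1)]),(724,[([2,1,2,3,3],1),([2,1,3,2,3],1),([2,2,2,2,3],1),([3,2,2,2,3],1),([3,2,2,3,2],1),([3,2,3,2,2],1)]),(738,[([2,1,3,2,3],1),([2,1,3,3,2],1),([2,2,2,2,3],1),([2,2,2,3,2],1),([2,2,3,2,2],1),([3,2,3,2,2],1)]),(787,[([1,1,2,3,3],1),([2,1,3,3,2],1),([2,2,2,2,3],1),([2,2,2,3,2],2),([2,2,3,2,2],1)]),(794,[([1,1,3,2,3],1),([1,1,3,3,2],1),([1,2,2,2,3],1),([1,2,2,3,2],1),([1,2,3,2,2],1),([2,2,3,2,2],1)]),(1116,[([3,2,1,3,3],1),([3,2,2,2,3],2),([3,2,2,3,2],1),([3,3,1,2,3],1),([4,3,2,2,2],1)]),(1123,[([2,2,1,3,3],1),([2,2,2,2,3],1),([2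,2,2,3,2],1),([3,2,2,3,2],1),([3,3,1,3,2],1),([3,3,2,2,2],1)]),(1228,[([2,2,1,3,3],1),([2,2,2,2,3],2),([2,2,2,3,2],1),([2,3,1,2,3],1),([3,3,2,2,2],1)]),(1249,[([2,2,2,2,3],1),([2,2,2,3,2],1),([2,3,1,2,3],1),([2,3,1,3,2],1),([2,3,2,2,2],1),([3,3,2,2,2],1)]),(1291,[([1,2,1,3,3],1),([1,2,2,2,3],1),([1,2,2,3,2],1),([2,2,2,3,2],1),([2,3,1,3,2],1),([2,3,2,2,2],1)]),(1305,[([1,2,2,2,3],1),([1,2,2,3,2],1),([1,3,1,2,3],1),([1,3,1,3,2],1),([1,3,2,2,2],1),([2,3,2,2,2],1)]),(1620,[([2,2,2,2,3],1),([3,2,2,2,3],1),([3,2,3,1,3],1),([3,2,3,2,2],1),([3,3,2,1,3],1),([3,3,2,2,2],1)]),(1634,[([2,2,2,2,3],1),([2,2,3,1,3],1),([2,2,3,2,2],1),([3,2,3,2,2],1),([3,3,2,2,2],1),([3,3,3,1,2],1)]),(1676,[([1,2,2,2,3],1),([2,2,2,2,3],1),([2,2,3,1,3],1),([2,2,3,2,2],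1),([2,3,2,1,3],1),([2,3,2,2,2],1)]),(1697,[([1,2,2,2,3],1),([2,2,3,2,2],1),([2,3,2,1,3],1),([2,3,2,2,2],2),([2,3,3,1,2],1)]),(1802,[([1,2,2,2,3],1),([1,2,3,1,3],1),([1,2,3,2,2],1),([2,2,3,2,2],1),([2,3,2,2,2],1),([2,3,3,1,2],1)]),(1809,[([0,2,2,2,3],1),([1,2,3,2,2],1),([1,3,2,1,3],1),([1,3,2,2,2],2),([1,3,3,1,2],1)]),(2131,[([2,2,2,3,2],1),([3,2,2,3,2],1),([3,2,3,2,2],1),([3,2,3,3,1],1),([3,3,2,2,2],1),([3,3,2,3,1],1)]),(2138,[([2,2,2,3,2],1),([2,2,3,2,2],2),([2,2,3,3,1],1),([2,3,2,2,2],1),([3,3,3,2,1],1)]),(2187,[([1,2,2,3,2],1),([2,2,2,3,2],1),([2,2,3,2,2],1),([2,2,3,3,1],1),([2,3,2,2,2],1),([2,3,2,3,1],1)]),(2201,[([1,2,2,3,2],1),([1,2,3,2,2],1),([1,3,2,2,2],1),([2,3,2,2,2],1),([2,3,2,3,1],1),([2,3,3,2,1],1)]),(2250,[([1,2,2,3,2],1),([1,2,3,2,2],2),([1,2,3,3,1],1),([1,3,2,2,2],1),([2,3,3,2,1],1)]),(2257,[([0,2,2,3,2],1),([0,2,3,2,2],1),([0,3,2,2,2],1),([1,3,2,2,2],1),([1,3,2,3,1],1),([1,3,3,2,1],1)])]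

def g4_31 : Gen := [(668,[([4,1,2,3,3],1),([4,1,3,2,3],1),([4,2,1,3,3],1),([4,2,2,2,3],3),([4,2,2,3,2],1),([4,3,1,2,3],1),([5,2,2,2,3],1),([5,2,2,3,2],1),([5,2,3,2,2],1),([5,3,2,2,2],1)]),(675,[([3,1,2,3,3],1),([3,2,1,3,3],1),([3,2,2,2,3],1),([3,2,2,3,2],1),([4,1,3,3,2],1),([4,2,2,2,3],1),([4,2,2,3,2],3),([4,2,3,2,2],1),([4,3,1,3,2],1),([4,3,2,2,2],1)]),(724,[([3,1,2,3,3],1),([3,1,3,2,3],1),([3,2,2,2,3],2),([4,2,2,2,3],2),([4,2,2,3,2],1),([4,2,3,1,3],1),([4,2,3,2,2],2),([4,3,2,1,3],1),([4,3,2,2,2],1)]),(738,[([3,1,3,2,3],1),([3,1,3,3,2],1),([3,2,2,2,3],2),([3,2,2,3,2],1),([3,2,3,1,3],1),([3,2,3,2,2],2),([4,2,3,2,2],2),([4,3,2,2,2],1),([4,3,3,1,2],1)]),(787,[([2,1,2,3,3],1),([3,1,3,3,2],1),([3,2,2,2,3],1),([3,2,2,3,2],3),([3,2,3,2,2],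1),([4,2,2,3,2],1),([4,2,3,2,2],1),([4,2,3,3,1],1),([4,3,2,2,2],1),([4,3,2,3,1],1)]),(794,[([2,1,3,2,3],1),([2,1,3,3,2],1),([2,2,2,2,3],1),([2,2,2,3,2],1),([2,2,3,2,2],1),([3,2,2,3,2],1),([3,2,3,2,2],3),([3,2,3,3,1],1),([3,3,2,2,2],1),([4,3,3,2,1],1)]),(1116,[([3,1,2,3,3],1),([3,1,3,2,3],1),([3,2,1,3,3],1),([3,2,2,2,3],3),([3,2,2,3,2],1),([3,3,1,2,3],1),([4,2,2,2,3],1),([4,2,2,3,2],1),([4,2,3,2,2],1),([4,3,2,2,2],1)]),(1123,[([2,1,2,3,3],1),([2,2,1,3,3],1),([2,2,2,2,3],1),([2,2,2,3,2],1),([3,1,3,3,2],1),([3,2,2,2,3],1),([3,2,2,3,2],3),([3,2,3,2,2],1),([3,3,1,3,2],1),([3,3,2,2,2],1)]),(1228,[([2,2,2,2,3],1),([3,2,1,3,3],1),([3,2,2,2,3],3),([3,2,2,3,2],1),([3,2,3,1,3],1),([3,2,3,2,2],1),([3,3,1,2,3],1),([3,3,2,1,3],1),([3,3,2,2,2],1),([4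,3,2,2,2],1)]),(1249,[([2,2,2,2,3],1),([3,2,2,2,3],1),([3,2,2,3,2],1),([3,2,3,2,2],1),([3,3,1,2,3],1),([3,3,1,3,2],1),([3,3,2,1,3],1),([3,3,2,2,2],3),([3,3,3,1,2],1),([4,3,2,2,2],1)]),(1291,[([2,2,1,3,3],1),([2,2,2,2,3],1),([2,2,2,3,2],2),([3,2,2,3,2],2),([3,2,3,2,2],1),([3,2,3,3,1],1),([3,3,1,3,2],1),([3,3,2,2,2],2),([3,3,2,3,1],1)]),(1305,[([2,2,2,2,3],1),([2,2,2,3,2],2),([2,2,3,2,2],1),([2,3,1,2,3],1),([2,3,1,3,2],1),([2,3,2,2,2],2),([3,3,2,2,2],2),([3,3,2,3,1],1),([3,3,3,2,1],1)]),(1620,[([2,1,2,3,3],1),([2,1,3,2,3],1),([2,2,2,2,3],2),([3,2,2,2,3],2),([3,2,2,3,2],1),([3,2,3,1,3],1),([3,2,3,2,2],2),([3,3,2,1,3],1),([3,3,2,2,2],1)]),(1634,[([2,1,3,2,3],1),([2,1,3,3,2],1),([2,2,2,2,3],2),([2,2,2,3,2],1),([2,2,3,1,3],1),([2,2,3,2,2],2)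,([3,2,3,2,2],2),([3,3,2,2,2],1),([3,3,3,1,2],1)]),(1676,[([1,2,2,2,3],1),([2,2,1,3,3],1),([2,2,2,2,3],3),([2,2,2,3,2],1),([2,2,3,1,3],1),([2,2,3,2,2],1),([2,3,1,2,3],1),([2,3,2,1,3],1),([2,3,2,2,2],1),([3,3,2,2,2],1)]),(1697,[([1,2,2,2,3],1),([2,2,2,2,3],1),([2,2,2,3,2],1),([2,2,3,2,2],1),([2,3,1,2,3],1),([2,3,1,3,2],1),([2,3,2,1,3],1),([2,3,2,2,2],3),([2,3,3,1,2],1),([3,3,2,2,2],1)]),(1802,[([2,2,2,2,3],1),([2,2,2,3,2],1),([2,2,3,1,3],1),([2,2,3,2,2],3),([2,2,3,3,1],1),([2,3,2,2,2],1),([3,2,3,2,2],1),([3,3,2,2,2],1),([3,3,3,1,2],1),([3,3,3,2,1],1)]),(1809,[([1,2,2,2,3],1),([1,2,2,3,2],1),([1,2,3,2,2],1),([1,3,2,2,2],1),([2,2,3,2,2],1),([2,3,2,1,3],1),([2,3,2,2,2],3),([2,3,2,3,1],1),([2,3,3,1,2],1),([2,3,3,2,1],1)]),(2131,[([1,1,2,3,3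],1),([2,1,3,3,2],1),([2,2,2,2,3],1),([2,2,2,3,2],3),([2,2,3,2,2],1),([3,2,2,3,2],1),([3,2,3,2,2],1),([3,2,3,3,1],1),([3,3,2,2,2],1),([3,3,2,3,1],1)]),(2138,[([1,1,3,2,3],1),([1,1,3,3,2],1),([1,2,2,2,3],1),([1,2,2,3,2],1),([1,2,3,2,2],1),([2,2,2,3,2],1),([2,2,3,2,2],3),([2,2,3,3,1],1),([2,3,2,2,2],1),([3,3,3,2,1],1)]),(2187,[([1,2,1,3,3],1),([1,2,2,2,3],1),([1,2,2,3,2],2),([2,2,2,3,2],2),([2,2,3,2,2],1),([2,2,3,3,1],1),([2,3,1,3,2],1),([2,3,2,2,2],2),([2,3,2,3,1],1)]),(2201,[([1,2,2,2,3],1),([1,2,2,3,2],2),([1,2,3,2,2],1),([1,3,1,2,3],1),([1,3,1,3,2],1),([1,3,2,2,2],2),([2,3,2,2,2],2),([2,3,2,3,1],1),([2,3,3,2,1],1)]),(2250,[([1,2,2,2,3],1),([1,2,2,3,2],1),([1,2,3,1,3],1),([1,2,3,2,2],3),([1,2,3,3,1],1),([1,3,2,2,2],1),([2,2,3,2,2],1),([2,3,2,2,2],1),([2,3,3,1,2],1),([2,3,3,2,1],1)]),(2257,[([0,2,2,2,3],1),([0,2,2,3,2],1),([0,2,3,2,2],1),([0,3,2,2,2],1),([1,2,3,2,2],1),([1,3,2,1,3],1),([1,3,2,2,2],3),([1,3,2,3,1],1),([1,3,3,1,2],1),([1,3,3,2,1],1)])]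

def g4_32 : Gen := [(668,[([2,1,2,3,4],1),([3,1,3,3,3],1),([3,2,2,2,4],1),([3,2,2,3,3],3),([3,2,3,2,3],1),([4,2,2,3,3],1),([4,2,3,2,3],1),([4,2,3,3,2],1),([4,3,2,2,3],1),([4,3,2,3,2],1)]),(675,[([2,1,2,4,3],1),([2,1,3,3,3],1),([2,2,2,3,3],2),([3,2,2,3,3],2),([3,2,2,4,2],1),([3,2,3,2,3],1),([3,2,3,3,2],2),([3,3,2,2,3],1),([3,3,2,3,2],1)]),(724,[([2,1,3,2,4],1),([2,1,3,3,3],1),([2,2,2,2,4],1),([2,2,2,3,3],1),([2,2,3,2,3],1),([3,2,2,3,3],1),([3,2,3,2,3],3),([3,2,3,3,2],1),([3,3,2,2,3],1),([4,3,3,2,2],1)]),(738,[([2,1,3,3,3],1),([2,1,4,2,3],1),([2,2,2,3,3],1),([2,2,3,2,3],3),([2,2,3,3,2],1),([2,3,2,2,3],1),([3,2,3,2,3],1),([3,2,3,3,2],1),([3,2,4,2,2],1),([3,3,3,2,2],1)]),(787,[([2,1,3,3,3],1),([2,1,3,4,2],1),([2,2,2,3,3],2),([2,2,2,4,2],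1),([2,2,3,2,3],1),([2,2,3,3,2],2),([3,2,3,3,2],2),([3,3,2,3,2],1),([3,3,3,2,2],1)]),(794,[([1,1,3,3,3],1),([1,2,2,3,3],1),([1,2,3,2,3],1),([1,2,3,3,2],1),([2,1,4,3,2],1),([2,2,3,2,3],1),([2,2,3,3,2],3),([2,2,4,2,2],1),([2,3,2,3,2],1),([2,3,3,2,2],1)]),(1116,[([2,2,1,3,4],1),([2,2,2,2,4],1),([2,2,2,3,3],2),([3,2,2,3,3],2),([3,2,3,2,3],1),([3,2,3,3,2],1),([3,3,1,3,3],1),([3,3,2,2,3],2),([3,3,2,3,2],1)]),(1123,[([1,2,2,3,3],1),([2,2,1,4,3],1),([2,2,2,3,3],3),([2,2,2,4,2],1),([2,2,3,2,3],1),([2,2,3,3,2],1),([2,3,1,3,3],1),([2,3,2,2,3],1),([2,3,2,3,2],1),([3,3,2,3,2],1)]),(1228,[([2,2,2,2,4],1),([2,2,2,3,3],2),([2,2,3,2,3],1),([2,3,1,2,4],1),([2,3,1,3,3],1),([2,3,2,2,3],2),([3,3,2,2,3],2),([3,3,2,3,2],1),([3,3,3,2,2],1)]),(1249,[([2,2,2,3,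3],1),([2,2,3,2,3],1),([2,3,1,3,3],1),([2,3,2,2,3],3),([2,3,2,3,2],1),([2,4,1,2,3],1),([3,3,2,2,3],1),([3,3,2,3,2],1),([3,3,3,2,2],1),([3,4,2,2,2],1)]),(1291,[([1,2,2,3,3],1),([2,2,2,3,3],1),([2,2,2,4,2],1),([2,2,3,3,2],1),([2,3,1,3,3],1),([2,3,1,4,2],1),([2,3,2,2,3],1),([2,3,2,3,2],3),([2,3,3,2,2],1),([3,3,2,3,2],1)]),(1305,[([1,2,2,3,3],1),([1,3,1,3,3],1),([1,3,2,2,3],1),([1,3,2,3,2],1),([2,2,3,3,2],1),([2,3,2,2,3],1),([2,3,2,3,2],3),([2,3,3,2,2],1),([2,4,1,3,2],1),([2,4,2,2,2],1)]),(1620,[([2,2,2,2,4],1),([2,2,2,3,3],1),([2,2,3,1,4],1),([2,2,3,2,3],3),([2,2,3,3,2],1),([2,3,2,2,3],1),([3,2,3,2,3],1),([3,3,2,2,3],1),([3,3,3,1,3],1),([3,3,3,2,2],1)]),(1634,[([1,2,3,2,3],1),([2,2,2,3,3],1),([2,2,3,2,3],3),([2,2,3,3,2],1),([2,2,4,1,3],1)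,([2,2,4,2,2],1),([2,3,2,2,3],1),([2,3,3,1,3],1),([2,3,3,2,2],1),([3,3,3,2,2],1)]),(1676,[([1,2,2,2,4],1),([1,2,2,3,3],1),([1,2,3,2,3],1),([1,3,2,2,3],1),([2,2,3,2,3],1),([2,3,2,1,4],1),([2,3,2,2,3],3),([2,3,2,3,2],1),([2,3,3,1,3],1),([2,3,3,2,2],1)]),(1697,[([1,2,2,3,3],1),([1,2,3,2,3],1),([1,3,2,2,3],2),([2,3,2,2,3],2),([2,3,2,3,2],1),([2,3,3,1,3],1),([2,3,3,2,2],2),([2,4,2,1,3],1),([2,4,2,2,2],1)]),(1802,[([1,2,3,2,3],1),([2,2,3,2,3],1),([2,2,3,3,2],1),([2,2,4,2,2],1),([2,3,2,2,3],1),([2,3,2,3,2],1),([2,3,3,1,3],1),([2,3,3,2,2],3),([2,3,4,1,2],1),([3,3,3,2,2],1)]),(1809,[([1,2,3,2,3],1),([1,2,3,3,2],1),([1,3,2,2,3],2),([1,3,2,3,2],1),([1,3,3,1,3],1),([1,3,3,2,2],2),([2,3,3,2,2],2),([2,4,2,2,2],1),([2,4,3,1,2],1)]),(2131,[([2,2,2,3,3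],1),([2,2,2,4,2],1),([2,2,3,2,3],1),([2,2,3,3,2],3),([2,2,3,4,1],1),([2,3,2,3,2],1),([3,2,3,3,2],1),([3,3,2,3,2],1),([3,3,3,2,2],1),([3,3,3,3,1],1)]),(2138,[([1,2,2,3,3],1),([1,2,3,2,3],1),([1,2,3,3,2],2),([2,2,3,3,2],2),([2,2,4,2,2],1),([2,2,4,3,1],1),([2,3,2,3,2],1),([2,3,3,2,2],2),([2,3,3,3,1],1)]),(2187,[([1,2,2,3,3],1),([1,2,2,4,2],1),([1,2,3,3,2],1),([1,3,2,3,2],1),([2,2,3,3,2],1),([2,3,2,2,3],1),([2,3,2,3,2],3),([2,3,2,4,1],1),([2,3,3,2,2],1),([2,3,3,3,1],1)]),(2201,[([0,2,2,3,3],1),([1,2,3,3,2],1),([1,3,2,2,3],1),([1,3,2,3,2],3),([1,3,3,2,2],1),([2,3,2,3,2],1),([2,3,3,2,2],1),([2,3,3,3,1],1),([2,4,2,2,2],1),([2,4,2,3,1],1)]),(2250,[([1,2,3,2,3],1),([1,2,3,3,2],2),([1,2,4,2,2],1),([1,3,2,2,3],1),([1,3,2,3,2],1),([1,3,3,2,2],2),([2,3,3,2,2],2),([2,3,3,3,1],1),([2,3,4,2,1],1)]),(2257,[([0,2,3,2,3],1),([0,2,3,3,2],1),([0,3,2,2,3],1),([0,3,2,3,2],1),([0,3,3,2,2],1),([1,3,2,3,2],1),([1,3,3,2,2],3),([1,3,3,3,1],1),([1,4,2,2,2],1),([2,4,3,2,1],1)])]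

def lv4 : List Gen := [g4_0,g4_1,g4_2,g4_3,g4_4,g4_5,g4_6,g4_7,g4_8,g4_9,g4_10,g4_11,g4_12,g4_13,g4_14,g4_15,g4_16,g4_17,g4_18,g4_19,g4_20,g4_21,g4_22,g4_23,g4_24,g4_25,g4_26,g4_27,g4_28,g4_29,g4_30,g4_31,g4_32]

def gens : ℕ → List Gen
  | 0 => lv0
  | 1 => lv1
  | 2 => lv2
  | 3 => lv3
  | 4 => lv4
  | _ => []

def cN0 : List Cert := [[(0,0,[])]]

def cE0 : List Cert := [[(0,0,[1])],[(0,0,[2]),(0,1,[2])],[(0,0,[3]),(0,1,[3]),(0,2,[3])],[(0,0,[4]),(0,1,[4]),(0,2,[4]),(0,3,[4])]]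

def cN1 : List Cert := [[(0,0,[])],[(2,0,[])],[(5,0,[])],[(7,1,[])]]

def cE1 : List Cert := [[(1,0,[])],[(2,0,[]),(2,1,[])],[(0,1,[2]),(2,0,[])],[(3,0,[]),(3,1,[]),(3,2,[])],[(0,2,[3]),(3,0,[]),(0,3,[3]),(3,1,[]),(3,1,[]),(3,2,[])],[(0,1,[3]),(0,2,[3]),(3,0,[])],[(0,2,[3]),(3,0,[]),(3,1,[]),(2,1,[1])],[(0,0,[4]),(0,1,[4]),(0,2,[4])],[(0,1,[4]),(0,2,[4]),(3,0,[1])],[(0,1,[4]),(0,2,[4]),(0,2,[4]),(0,3,[4]),(1,1,[3]),(3,0,[1]),(1,2,[3]),(3,1,[1])],[(1,0,[4]),(1,1,[4]),(1,1,[4]),(1,2,[4])],[(1,1,[4]),(1,1,[4]),(1,2,[4]),(1,2,[4]),(3,0,[2]),(3,1,[2])],[(1,1,[4]),(1,2,[4]),(3,0,[2]),(3,1,[2])],[(1,0,[4]),(1,1,[4]),(1,2,[4])],[(2,0,[4]),(2,1,[4]),(2,1,[4]),(2,1,[4]),(2,2,[4]),(2,2,[4]),(2,2,[4]),(2,3,[4])],[(0,1,[2,4]),(2,0,[4]),(2,0,[4]),(0,2,[2,4]),(0,2,[2,4]),(2,1,[4]),(2,1,[4]),(2,1,[4]),(2,1,[4]),(0,3,[2,4]),(2,2,[4]),(2,2,[4])],[(2,0,[4]),(2,1,[4]),(2,2,[4])]]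

def cN2 : List Cert := [[(0,0,[])],[(2,0,[])],[(3,0,[])],[(4,2,[])],[(7,2,[]),(4,2,[])],[(7,1,[])],[(9,1,[])],[(10,1,[])],[(11,1,[])],[(16,1,[])],[(18,1,[])],[(20,1,[])],[(22,1,[])],[(23,1,[])],[(26,1,[])],[(28,0,[])],[(29,1,[])]]

def cE2 : List Cert := [[(1,0,[])],[(3,0,[]),(3,1,[])],[(5,1,[]),(3,0,[])],[(6,0,[])],[(7,0,[]),(7,1,[])],[(8,0,[]),(8,1,[])],[(0,1,[3]),(8,0,[]),(7,0,[]),(7,1,[])],[(0,1,[3]),(8,0,[])],[(8,1,[]),(3,0,[1])],[(9,0,[])],[(0,0,[4]),(0,1,[4])],[(10,0,[])],[(11,0,[])],[(12,0,[])],[(13,0,[]),(13,1,[])],[(12,0,[]),(12,1,[])],[(2,1,[3]),(11,0,[]),(7,1,[1])],[(1,0,[4]),(1,1,[4])],[(2,0,[4]),(2,1,[4]),(1,0,[4])],[(14,0,[])],[(15,0,[])],[(16,0,[]),(16,1,[])],[(2,1,[4]),(7,1,[2]),(16,0,[])],[(2,0,[4]),(2,1,[4])],[(0,2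,[1,4]),(1,1,[4]),(1,1,[4]),(8,1,[2]),(3,0,[3])],[(5,1,[4]),(5,2,[4]),(3,0,[4]),(3,1,[4])],[(5,0,[4]),(5,1,[4]),(5,1,[4]),(5,1,[4]),(5,2,[4]),(3,0,[4])],[(6,1,[4]),(3,0,[4]),(6,2,[4]),(3,1,[4]),(3,1,[4]),(3,2,[4])],[(0,2,[2,4]),(5,1,[4]),(5,1,[4]),(0,3,[2,4]),(6,1,[4]),(5,2,[4]),(5,2,[4]),(3,0,[4]),(3,1,[4])],[(5,0,[4]),(5,1,[4])],[(6,0,[4]),(6,1,[4])],[(6,1,[4]),(3,0,[4]),(3,1,[4]),(7,2,[3]),(16,1,[1])],[(9,0,[4]),(9,1,[4])]]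

def cN3 : List Cert := [[(0,0,[])],[(1,3,[])],[(2,2,[])],[(3,1,[])],[(4,2,[])],[(5,2,[])],[(7,1,[]),(4,2,[])],[(7,1,[])],[(8,2,[])],[(9,1,[])],[(10,1,[])],[(11,1,[])],[(13,1,[]),(10,2,[])],[(13,1,[])],[(14,2,[])],[(15,2,[])],[(16,1,[])],[(17,1,[])],[(18,0,[])],[(19,1,[])],[(20,0,[])],[(21,2,[])],[(22,1,[])],[(23,1,[])],[(24,1,[])],[(25,3,[])],[(26,2,[])],[(27,3,[])],[(28,2,[])],[(29,2,[])],[(30,2,[])],[(31,2,[])],[(32,2,[])]]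

def cE3 : List Cert := [[(1,0,[])],[(4,0,[])],[(5,0,[])],[(8,0,[])],[(10,0,[])],[(11,0,[])],[(13,0,[]),(10,1,[])],[(13,0,[])],[(14,0,[])],[(15,0,[])],[(0,0,[4])],[(17,0,[])],[(19,0,[])],[(21,0,[])],[(23,0,[])],[(22,0,[])],[(24,0,[])],[(2,0,[4])],[(3,1,[4]),(1,0,[4])],[(25,0,[])],[(27,0,[])],[(29,0,[])],[(30,0,[])],[(3,0,[4])],[(31,0,[])],[(7,0,[4]),(4,0,[4])],[(7,0,[4]),(7,1,[4]),(5,0,[4])],[(9,0,[4]),(4,0,[4]),(4,1,[4])],[(0,1,[2,4]),(8,0,[4]),(7,1,[4]),(5,0,[4]),(5,1,[4])],[(7,0,[4])],[(9,0,[4])],[(32,0,[])],[(16,0,[4])]]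

def cN4 : List Cert := [[],[],[],[],[],[],[],[],[],[],[],[],[],[],[],[],[],[],[],[],[],[],[],[],[],[],[],[],[],[],[],[],[]]

def cE4 : List Cert := []

def cN : ℕ → List Cert
  | 0 => cN0
  | 1 => cN1
  | 2 => cN2
  | 3 => cN3
  | 4 => cN4
  | _ => []

def cE : ℕ → List Cert
  | 0 => cE0
  | 1 => cE1
  | 2 => cE2
  | 3 => cE3
  | 4 => cE4
  | _ => []

end Vale.Agent.Lib.P066.D4
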